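import Vale.Agent.P159.H415.Rec
import Vale.Agent.P159.H896.FlowT
import Vale.Agent.P159.H864.Cel1

/-!
P159, module CH2 (helper415), part 7: the charges decrease under every Gaussian channel, and the
passage from the cell mass `MC N l t τ` to the scalar mass `τ`.
-/

namespace Vale.Agent.P159.H415

open MeasureTheory Finset
open Vale.Agent.P159.H37 (gau Zn Un ZM Zq wM qf qf_smul_one)
open Vale.Agent.P159.H896 (Chn WM om)
open Vale.Agent.P159.H43 (ch2 chA Phq nm)

noncomputable section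

section

variable {V : Type} [Fintype V] {w : (V → ℤ) → ℝ} {I : Type} [Fintype I]
variable {M M' : Matrix V V ℝ} {B : Matrix V I ℝ} {K : Matrix I V ℝ}

lemma norm_Phq_zero (h : WM w M) (q : ℤ) : ‖Phq w M q 0‖ = om w M q := by
  have h1 := H896.Ph_zero h q
  have h2 : Phq w M q 0 = (om w M q : ℂ) := h1
  rw [h2, Complex.norm_real, Real.norm_eq_abs, abs_of_nonneg (H896.om_nonneg h q)]

/-- **the charges `|q| ≥ 2` decrease under every channel** -/
theorem ch2_mono (h : Chn M M' B K) (hw : WM w M') : ch2 w M' 0 ≤ ch2 w M 0 := by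
  have hwM := h.wm hw
  have h1 := H43.hasSum_ch2 (w := w) hw.sym hw.em 0
  have h2 := H43.hasSum_ch2 (w := w) hwM.sym hwM.em 0
  have h3 : ch2 w M' 0 ^ 2 ≤ ch2 w M 0 ^ 2 := by
    refine hasSum_le (fun q => ?_) h1 h2
    by_cases hq : q = 0 ∨ q = 1 ∨ q = -1
    · rw [if_pos hq, if_pos hq]
    · rw [if_neg hq, if_neg hq, norm_Phq_zero hw, norm_Phq_zero hwM]
      exact pow_le_pow_left₀ (H896.om_nonneg hw q) (H896.om_mono h hw q) 2
  exact (abs_le_of_sq_le_sq' h3 (H43.nm_nonneg _)).2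

/-- every charge of size at most `Q`, one background for all: `ch2 w M' F ≤ ch2 w M 0` -/
theorem ch2_mono_all (h : Chn M M' B K) (hw : WM w M') (F : V → ℝ) :
    ch2 w M' F ≤ ch2 w M 0 := by
  classical
  exact (H43.ch2_le hw F).trans (ch2_mono h hw)

end

section scalar

variable {V : Type} [Fintype V] [DecidableEq V] {w : (V → ℤ) → ℝ}

/-- channel between scalar masses -/
lemma chn_scalar {s t : ℝ} (hs : 0 < s) (hst : s ≤ t) : ∃ (K : Matrix V V ℝ) (σ : ℝ),
    0 ≤ σ ∧ Chn (t • (1 : Matrix V V ℝ)) (s • (1 : Matrix V V ℝ)) (√σ • (1 : Matrix V V ℝ)) K := by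
  have ht : 0 < t := hs.trans_le hst
  set σ := 1 / s - 1 / t with hσ
  have hσ0 : 0 ≤ σ := sub_nonneg.2 (one_div_le_one_div_of_le hs hst)
  have h1 := H896.chn_proj (M := t • (1 : Matrix V V ℝ)) (Q := 1) (τ := t) (σ := σ)
    (by rw [Matrix.transpose_smul, Matrix.transpose_one])
    (fun u => by rw [qf_smul_one]; exact mul_nonneg ht.le (sum_nonneg fun _ _ => sq_nonneg _))
    Matrix.transpose_one (Matrix.one_mul _) (by rw [Matrix.mul_one]) ht.le hσ0
  refine ⟨(√σ * t / (1 + σ * t)) • (1 : Matrix V V ℝ), σ, hσ0, ?_⟩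
  have e : t • (1 : Matrix V V ℝ) - (σ * t ^ 2 / (1 + σ * t)) • (1 : Matrix V V ℝ) =
      s • (1 : Matrix V V ℝ) := by
    have e1 : 1 + σ * t = t / s := by
      rw [hσ, sub_mul, one_div, one_div, inv_mul_cancel₀ ht.ne']
      ring
    rw [← sub_smul, e1]
    congr 1
    rw [hσ]
    field_simp
    ring
  rw [e] at h1
  exact h1

/-- scalar masses -/
theorem ch2_scalar {s t : ℝ} (hs : 0 < s) (hst : s ≤ t)
    (hw : WM w (s • (1 : Matrix V V ℝ))) :
    ch2 w (s • (1 : Matrix V V ℝ)) 0 ≤ ch2 w (t • (1 : Matrix V V ℝ)) 0 := by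
  obtain ⟨K, σ, _, h⟩ := chn_scalar (V := V) hs hst
  exact ch2_mono h hw

/-- from the mass `t` off the range of a projection and `τ` on it to the scalar mass `τ` -/
theorem ch2_proj {P : Matrix V V ℝ} {t τ : ℝ} (hP : P.transpose = P) (hPP : P * P = P)
    (hτ : 0 < τ) (hτt : τ ≤ t) (hw : WM w (τ • (1 : Matrix V V ℝ))) :
    ch2 w (τ • (1 : Matrix V V ℝ)) 0 ≤ ch2 w (t • (1 - P) + τ • P) 0 := by
  have ht : 0 < t := hτ.trans_le hτt
  set σ := 1 / τ - 1 / t with hσ
  have hσ0 : 0 ≤ σ := sub_nonneg.2 (one_div_le_one_div_of_le hτ hτt)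
  have hsymQ : (1 - P).transpose = 1 - P := by
    rw [Matrix.transpose_sub, Matrix.transpose_one, hP]
  have hPQ : P * (1 - P) = 0 := by
    rw [Matrix.mul_sub, Matrix.mul_one, hPP, sub_self]
  have hQQ : (1 - P) * (1 - P) = 1 - P := by
    rw [Matrix.sub_mul, Matrix.one_mul, hPQ, sub_zero]
  have hsq : ∀ X : Matrix V V ℝ, X.transpose = X → X * X = X → ∀ u : V → ℝ, 0 ≤ qf X u := by
    intro X hX hXX u
    have e : qf X u = ∑ x, (X.mulVec u x) ^ 2 := by
      rw [H37.qf_eq]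
      have e1 : u ⬝ᵥ X.mulVec u = u ⬝ᵥ X.mulVec (X.mulVec u) := by
        rw [Matrix.mulVec_mulVec, hXX]
      rw [e1, Matrix.dotProduct_mulVec]
      have e2 : Matrix.vecMul u X = X.mulVec u := by
        rw [← Matrix.mulVec_transpose, hX]
      rw [e2]
      simp [dotProduct, pow_two]
    rw [e]
    exact sum_nonneg fun x _ => sq_nonneg _
  have hn : ∀ u : V → ℝ, 0 ≤ qf (t • (1 - P) + τ • P) u := by
    intro u
    have e : qf (t • (1 - P) + τ • P) u = t * qf (1 - P) u + τ * qf P u := by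
      rw [H37.qf_eq, H37.qf_eq, H37.qf_eq, Matrix.add_mulVec, dotProduct_add,
        Matrix.smul_mulVec, Matrix.smul_mulVec, dotProduct_smul, dotProduct_smul, smul_eq_mul,
        smul_eq_mul]
    rw [e]
    exact add_nonneg (mul_nonneg ht.le (hsq _ hsymQ hQQ u)) (mul_nonneg hτ.le (hsq _ hP hPP u))
  have h1 := H896.chn_proj (M := t • (1 - P) + τ • P) (Q := 1 - P) (τ := t) (σ := σ)
    (by rw [Matrix.transpose_add, Matrix.transpose_smul, Matrix.transpose_smul, hsymQ, hP])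
    hn hsymQ hQQ (by
      rw [Matrix.add_mul, Matrix.smul_mul, Matrix.smul_mul, hQQ, hPQ, smul_zero, add_zero])
    ht.le hσ0
  have e : t • (1 - P) + τ • P - (σ * t ^ 2 / (1 + σ * t)) • (1 - P) =
      τ • (1 : Matrix V V ℝ) := by
    have e0 : 1 + σ * t = t / τ := by
      rw [hσ, sub_mul, one_div, one_div, inv_mul_cancel₀ ht.ne']
      ring
    have e1 : σ * t ^ 2 / (1 + σ * t) = t - τ := by
      rw [e0, hσ]
      field_simp
    rw [e1, sub_smul, smul_sub, smul_sub]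
    abel
  rw [e] at h1
  exact ch2_mono h1 hw

end scalar

section cells

open Vale.Agent.P159.H37 (cellP)
open Vale.Agent.P159.H864 (MC)

variable {N l : ℕ} [NeZero N] [NeZero (N / l)]

/-- **from the cell mass to the scalar mass**, on the torus, for every weight -/
theorem ch2_cells (hl : l ∣ N) {w : (TM.Spec.V N → ℤ) → ℝ} {t τ : ℝ} (hτ : 0 < τ) (hτt : τ ≤ t)
    (hw : WM w (τ • (1 : Matrix (TM.Spec.V N) (TM.Spec.V N) ℝ))) :
    ch2 w (τ • (1 : Matrix (TM.Spec.V N) (TM.Spec.V N) ℝ)) 0 ≤ ch2 w (MC N l t τ) 0 :=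
  ch2_proj (H864.cellP_tr N l) (H864.cellP_mul_self hl) hτ hτt hw

end cells

end

end Vale.Agent.P159.H415
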