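import Vale.Agent.P159.H415.EvF
import Vale.Agent.P159.H889.Vpc

/-!
P159, module CH2 (helper415), part 31: **CH2 in the letters of helper889** (`Cx`, `Cw`):
`ev_ch2V` (step), `ev_ch2W` (step along the flow of the background), `ev_ch2S` (crude start).
-/

set_option linter.unusedSectionVars false

namespace Vale.Agent.P159.H415

open Finset Matrix Filter Topology
open Vale.Agent.P159.H864 (yt)
open Vale.Agent.P159.H972 (lg tn Par GP Good)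
open Vale.Agent.P159.H801 (Ev PS)
open Vale.Agent.P159.H889 (Cx Cw)

noncomputable section

/-- `CI` from the contexts of helper889 -/
lemma ci_of_cx {P : Par} {b C1 C2 c c' : ℝ} {n m s s' : ℕ} {e e' y y' : ℝ}
    (hx : Cx P b C1 c n s e y) (hx' : Cx P b C2 c' m s' e' y') (ee : e / 2 ≤ e')
    (w1 : 20 * n + P.w e ≤ 20 * m) (w2 : m ≤ n + 4 * P.w e) (htt : P.TT n e (m + P.kE e'))
    (yy : y ≤ (2 : ℝ) ^ (1 / 4 * ((m - n : ℕ) : ℝ)) * y') : CI P b c' n m e e' y y' :=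
  ⟨hx.e0, hx.es, ee, hx'.es, w1, w2, hx.G, hx'.G, hx.y0, hx'.y0, hx.y1, hx'.y1, hx'.yL,
    hx.vy _ htt, hx'.vy, yy⟩

/-- **the step of CH2 in the letters of helper889** -/
theorem ev_ch2V {b b1 b2 pf : ℝ} (hb1 : 0 < b1) (h1 : b1 ≤ b) (hpf : 0 < pf) (Q : ℕ) :
    Ev b1 b2 pf Q fun P c1 => c1 ≤ P.th / 512 ∧
      ∀ (C1 C2 c c' : ℝ) (n m s s' : ℕ) (e e' y y' g g' : ℝ), c' ≤ P.th / 256 →
        Cx P b C1 c n s e y → Cx P b C2 c' m s' e' y' → Cw P n m e e' →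
        y ≤ (2 : ℝ) ^ (1 / 4 * ((m - n : ℕ) : ℝ)) * y' →
        -(P.thp / 10) ≤ g' → g' ≤ 1 / 2 → g' ≤ g + P.thp / 400 →
        CH2 P b n e (y * e ^ g) → CH2 P b m e' (y' * e' ^ g') := by
  refine ((ev_ch2n (b2 := b2) hb1 h1 hpf Q).and (ev_base b1 b2 pf Q)).mono ?_
  rintro P c1 - ⟨⟨h2, h3, -⟩, h4⟩
  refine ⟨h2, fun C1 C2 c c' n m s s' e e' y y' g g' hc hx hx' hw hyy g0 g1 g2 hZ => ?_⟩
  obtain ⟨t1, t2, t3⟩ := h4 n m e e' hx.e0 hx.es hw.lo hw.w1 hw.w2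
  exact h3 c' n m e e' y y' g g' hc (ci_of_cx hx hx' hw.lo hw.w1 hw.w2 t1 hyy) hw.hi g0 g1 g2 hZ

/-- **the same along the flow of the background** `log y' = log y - K x (m - n) + v`, `v ≤ 1` -/
theorem ev_ch2W {b b1 b2 pf : ℝ} (hb1 : 0 < b1) (h1 : b1 ≤ b) (hpf : 0 < pf) (Q : ℕ) :
    Ev b1 b2 pf Q fun P c1 => c1 ≤ P.th / 512 ∧
      ∀ (C1 C2 c c' : ℝ) (n m s s' : ℕ) (e e' y y' g g' K x v : ℝ), c' ≤ P.th / 256 →
        Cx P b C1 c n s e y → Cx P b C2 c' m s' e' y' → Cw P n m e e' →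
        |K * x| ≤ 1 / 16 → v ≤ 1 →
        |Real.log y' - Real.log y + K * x * ((m : ℝ) - n)| ≤ v →
        -(P.thp / 10) ≤ g' → g' ≤ 1 / 2 → g' ≤ g + P.thp / 400 →
        CH2 P b n e (y * e ^ g) → CH2 P b m e' (y' * e' ^ g') := by
  refine ((ev_ch2V (b2 := b2) hb1 h1 hpf Q).and (ev_base b1 b2 pf Q)).mono ?_
  rintro P c1 - ⟨⟨h2, h3⟩, h4⟩
  refine ⟨h2, fun C1 C2 c c' n m s s' e e' y y' g g' K x v hc hx hx' hw hK hv hfl g0 g1 g2 hZ => ?_⟩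
  obtain ⟨t1, t2, t3⟩ := h4 n m e e' hx.e0 hx.es hw.lo hw.w1 hw.w2
  exact h3 C1 C2 c c' n m s s' e e' y y' g g' hc hx hx' hw
    (yy_of_flow t3 t2 hx.y0 hx'.y0 hK hv hfl) g0 g1 g2 hZ

/-- **the crude start**, exponent `- thp / 10` -/
theorem ev_ch2S {b b1 b2 pf : ℝ} (hb1 : 0 < b1) (h1 : b1 ≤ b) (hpf : 0 < pf) (Q : ℕ) :
    Ev b1 b2 pf Q fun P _ => ∀ (C1 c : ℝ) (n s : ℕ) (e y : ℝ), Cx P b C1 c n s e y →
      CH2 P b n e (y * e ^ (-(P.thp / 10))) := by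
  refine (ev_ch2n (b2 := b2) hb1 h1 hpf Q).mono ?_
  rintro P c1 - ⟨-, -, h4⟩ C1 c n s e y hx
  exact h4 n e y hx.e0 hx.es hx.y0 hx.y1 hx.vy

/-- the two definitions agree -/
lemma ch2_iff {P : Par} {b : ℝ} {n : ℕ} {e Z : ℝ} :
    H889.CH2 P b n e Z ↔ CH2 P b n e Z := Iff.rfl

end

end Vale.Agent.P159.H415
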