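import Vale.Agent.P159.H801.SFlow
import Vale.Agent.P159.H972.Lk3
import Vale.Agent.P159.H282.ExB

/-!
P159 (helper415), consequences of the sharp form of LINKW, part 1: the excess of the stiffness over
the dyadic scales against the flow, with a summable error.
-/

set_option linter.all false

open Filter Topology Finset

namespace Vale.Agent.P159.H415.Ls

open Vale.Agent.P159
open Vale.Agent.P159.H972 (Par)
open Vale.Agent.P159.H801 (SFlow xa T3)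
open Vale.Agent.P159.H264 (kap kap_pos TT)

/-- the excess of the stiffness over the universal jump, on the dyadic scales -/
noncomputable def Xs (b : ℝ) (n : ℕ) : ℝ := stiff (2 ^ n) b - 2 / Real.pi

/-- **the stiffness and its flow** -/
structure Shp (b : ℝ) (x : ℕ → ℝ) (C s : ℝ) : Prop where
  s1 : 1 < s
  C0 : 0 < C
  dx : ∀ᶠ n : ℕ in atTop, |x (n + 1) - x n| ≤ C * (n : ℝ) ^ (-s)
  near : ∀ᶠ n : ℕ in atTop, |Xs b n - x n| ≤ C * (n : ℝ) ^ (-s)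
  nx : Tendsto (fun n : ℕ => n * x n) atTop (𝓝 (1 / kap))
  T : ∃ l, Tendsto (fun n : ℕ => kap * TT x n - Real.log n) atTop (𝓝 l)

/-- variation of a sequence with small steps -/
lemma var {x : ℕ → ℝ} {C s : ℝ} (hC : 0 ≤ C) (hs : 0 ≤ s) {n0 : ℕ} (h0 : 1 ≤ n0)
    (h : ∀ n, n0 ≤ n → |x (n + 1) - x n| ≤ C * (n : ℝ) ^ (-s)) {n : ℕ} (hn : n0 ≤ n) (j : ℕ) :
    |x (n + j) - x n| ≤ j * (C * (n : ℝ) ^ (-s)) := by
  induction j with
  | zero => simp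
  | succ j ih =>
    have h1 := h (n + j) (by omega)
    have h2 : ((n + j : ℕ) : ℝ) ^ (-s) ≤ (n : ℝ) ^ (-s) := by
      have h3 : (0 : ℝ) < n := by exact_mod_cast (by omega : 0 < n)
      refine Real.rpow_le_rpow_of_nonpos h3 ?_ (by linarith)
      push_cast
      have := Nat.cast_nonneg (α := ℝ) j
      linarith
    have h3 := mul_le_mul_of_nonneg_left h2 hC
    have h4 : x (n + (j + 1)) - x n = (x (n + j + 1) - x (n + j)) + (x (n + j) - x n) := by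
      rw [← add_assoc]; ring
    rw [h4]
    push_cast
    have h5 := abs_add_le (x (n + j + 1) - x (n + j)) (x (n + j) - x n)
    linarith

/-- a multiple of the logarithm is small against every power -/
lemma ev_clogp (q : ℕ) {d : ℝ} (hd : 0 < d) : ∀ᶠ n : ℕ in atTop,
    ((q * Nat.clog 2 n : ℕ) : ℝ) ≤ (n : ℝ) ^ d := by
  have hlog2 : 0 < Real.log 2 := Real.log_pos one_lt_two
  obtain ⟨c, hc⟩ : ∃ c : ℝ, c = 1 / (2 * (q + 1) * (1 / Real.log 2)) := ⟨_, rfl⟩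
  have hc0 : 0 < c := by rw [hc]; positivity
  have h1 : ∀ᶠ w : ℝ in atTop, ‖Real.log w‖ ≤ c * ‖w ^ d‖ :=
    (isLittleO_log_rpow_atTop hd).bound hc0
  have h2 : ∀ᶠ w : ℝ in atTop, 2 * ((q : ℝ) + 1) ≤ w ^ d :=
    (tendsto_rpow_atTop hd).eventually_ge_atTop _
  filter_upwards [tendsto_natCast_atTop_atTop.eventually h1,
    tendsto_natCast_atTop_atTop.eventually h2, eventually_ge_atTop 1] with n a1 a2 a3
  have hn1 : (1 : ℝ) ≤ n := by exact_mod_cast a3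
  rw [Real.norm_of_nonneg (Real.log_nonneg hn1),
    Real.norm_of_nonneg (Real.rpow_nonneg (by linarith) _)] at a1
  have h3 := H972.clog_le_logb a3
  have h4 : Real.logb 2 n = Real.log n * (1 / Real.log 2) := by
    unfold Real.logb
    ring
  push_cast
  have hq : (0 : ℝ) ≤ q := Nat.cast_nonneg _
  have h5 : (q : ℝ) * Nat.clog 2 n ≤ (q + 1) * (Real.log n * (1 / Real.log 2) + 1) := by
    rw [← h4]
    refine mul_le_mul (by linarith) h3 (Nat.cast_nonneg _) (by linarith)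
  have h6 : (q + 1) * (1 / Real.log 2) * Real.log n ≤ (q + 1) * (1 / Real.log 2) *
      (c * (n : ℝ) ^ d) := mul_le_mul_of_nonneg_left a1 (by positivity)
  have h7 : ((q : ℝ) + 1) * (1 / Real.log 2) * (c * (n : ℝ) ^ d) = 1 / 2 * (n : ℝ) ^ d := by
    rw [hc]
    field_simp
  rw [h7] at h6
  nlinarith

/-- half of the scale is left -/
lemma ev_half (q : ℕ) : ∀ᶠ n : ℕ in atTop, 2 * (q * Nat.clog 2 n) ≤ n := by
  filter_upwards [ev_clogp q (show (0 : ℝ) < 1 / 2 by norm_num), eventually_ge_atTop 4]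
    with n a1 a2
  have hn : (4 : ℝ) ≤ n := by exact_mod_cast a2
  have h1 : (n : ℝ) ^ (1 / 2 : ℝ) ≤ n / 2 := by
    rw [← Real.sqrt_eq_rpow]
    rw [Real.sqrt_le_left (by linarith)]
    nlinarith
  have h2 : ((2 * (q * Nat.clog 2 n) : ℕ) : ℝ) ≤ n := by
    push_cast at a1 ⊢
    linarith
  exact_mod_cast h2

/-- powers at half of the scale -/
lemma pow_half {n u : ℕ} (hn : 1 ≤ n) (h : n ≤ 2 * u) {p : ℝ} (hp : 0 ≤ p) :
    (u : ℝ) ^ (-p) ≤ 2 ^ p * (n : ℝ) ^ (-p) := by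
  have hn0 : (0 : ℝ) < n := by exact_mod_cast hn
  have h1 : (n : ℝ) / 2 ≤ u := by
    have : (n : ℝ) ≤ 2 * u := by exact_mod_cast h
    linarith
  calc (u : ℝ) ^ (-p) ≤ ((n : ℝ) / 2) ^ (-p) :=
        Real.rpow_le_rpow_of_nonpos (by positivity) h1 (by linarith)
    _ = _ := by
        rw [Real.div_rpow hn0.le (by norm_num), Real.rpow_neg (by norm_num : (0 : ℝ) ≤ 2),
          div_inv_eq_mul, mul_comm]

/-- the decay of the activity -/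
lemma ev_y {x y : ℕ → ℝ} {κ c r q B A : ℝ} {N : ℕ} {w : ℕ → ℕ}
    (h : T3 x y κ c r q B A w N) : ∃ D : ℝ, 0 < D ∧ ∀ᶠ n : ℕ in atTop, ∀ p : ℝ, 0 ≤ p →
      y n ^ p ≤ D ^ p * (n : ℝ) ^ (-p) := by
  have hA := h.A0
  have hκ := h.fl.κ0
  obtain ⟨L, hL⟩ : ∃ L, L = Real.sqrt (κ * A) := ⟨_, rfl⟩
  have hL0 : 0 < L := by rw [hL]; exact Real.sqrt_pos.2 (by positivity)
  have h1 := h.ny
  rw [← hL] at h1
  refine ⟨2 / L, by positivity, ?_⟩
  filter_upwards [h1.eventually (lt_mem_nhds (show L / 2 < L by linarith)),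
    eventually_ge_atTop 1] with n h2 h3 p hp
  have hn0 : (0 : ℝ) < n := by exact_mod_cast h3
  have hy := h.fl.y0 n
  have h4 : y n ≤ 2 / L * (n : ℝ)⁻¹ := by
    rw [← div_eq_inv_mul, div_div, lt_div_iff₀ (by positivity)] at h2
    rw [div_mul_eq_mul_div, ← div_eq_mul_inv, div_div, le_div_iff₀ (by positivity)]
    nlinarith
  calc y n ^ p ≤ (2 / L * (n : ℝ)⁻¹) ^ p := Real.rpow_le_rpow hy.le h4 hp
    _ = _ := by
        rw [Real.mul_rpow (by positivity) (by positivity), Real.rpow_neg hn0.le,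
          Real.inv_rpow hn0.le]

/-- the upper half -/
lemma near_up {b : ℝ} (hb : 0 ≤ b) {a x : ℕ → ℝ} {D C0 r q2 : ℝ} (hD : 0 < D) (hr : 1 < r)
    (hq2 : 1 < q2) {q : ℕ}
    (hdx : ∀ᶠ n : ℕ in atTop, |x (n + 1) - x n| ≤ D * (n : ℝ) ^ (-r))
    (hn : ∀ᶠ n : ℕ in atTop, |x n - xa a n| ≤ C0 * (n : ℝ) ^ (-q2)) (hC0 : 0 < C0)
    (hLu : ∀ᶠ u : ℕ in atTop, stiff (2 ^ (u + q * Nat.clog 2 u)) b ≤
      1 / a u + (u : ℝ) ^ (-(11 / 10 : ℝ))) {s : ℝ} (hs1 : s ≤ (1 + r) / 2) (hs2 : s ≤ q2)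
    (hs3 : s ≤ 11 / 10) :
    ∀ᶠ n : ℕ in atTop, Xs b n - x n ≤
      (2 ^ r * D + 2 ^ q2 * C0 + 2 ^ (11 / 10 : ℝ)) * (n : ℝ) ^ (-s) := by
  obtain ⟨n1, h1⟩ := eventually_atTop.1 hdx
  obtain ⟨n2, h2⟩ := eventually_atTop.1 (hn.and hLu)
  filter_upwards [ev_half q, ev_clogp q (show 0 < (r - 1) / 2 by linarith),
    eventually_ge_atTop (2 * (n1 + n2 + 1))] with n a1 a2 a3
  obtain ⟨m, hm⟩ : ∃ m, m = q * Nat.clog 2 n := ⟨_, rfl⟩
  rw [← hm] at a1 a2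
  obtain ⟨u, hu⟩ : ∃ u, u = n - m := ⟨_, rfl⟩
  have hun : n = u + m := by omega
  have hu2 : n ≤ 2 * u := by omega
  have hu1 : n1 + n2 + 1 ≤ u := by omega
  have hn1 : 1 ≤ n := by omega
  have hnr : (1 : ℝ) ≤ n := by exact_mod_cast hn1
  have hn0 : (0 : ℝ) < n := by linarith
  have e1 : u + q * Nat.clog 2 u ≤ n := by
    have h3 : Nat.clog 2 u ≤ Nat.clog 2 n := Nat.clog_mono_right 2 (by omega)
    have h4 : q * Nat.clog 2 u ≤ q * Nat.clog 2 n := Nat.mul_le_mul_left _ h3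
    omega
  have h3 := UJ.H282.Ex.stiff_anti2 hb e1
  obtain ⟨h4, h5⟩ := h2 u (by omega)
  have h6 := var hD.le (by linarith : (0 : ℝ) ≤ r) (n0 := n1 + 1) (by omega)
    (fun k hk => h1 k (by omega)) (n := u) (by omega) m
  rw [← hun] at h6
  have p1 := pow_half hn1 hu2 (by linarith : (0 : ℝ) ≤ r)
  have p2 := pow_half hn1 hu2 (by linarith : (0 : ℝ) ≤ q2)
  have p3 := pow_half hn1 hu2 (by norm_num : (0 : ℝ) ≤ 11 / 10)
  have s1 : (n : ℝ) ^ ((r - 1) / 2) * (n : ℝ) ^ (-r) ≤ (n : ℝ) ^ (-s) := by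
    rw [← Real.rpow_add hn0]
    exact Real.rpow_le_rpow_of_exponent_le hnr (by linarith)
  have s2 : (n : ℝ) ^ (-q2) ≤ (n : ℝ) ^ (-s) :=
    Real.rpow_le_rpow_of_exponent_le hnr (by linarith)
  have s3 : (n : ℝ) ^ (-(11 / 10 : ℝ)) ≤ (n : ℝ) ^ (-s) :=
    Real.rpow_le_rpow_of_exponent_le hnr (by linarith)
  have t1 : (m : ℝ) * (D * (u : ℝ) ^ (-r)) ≤ 2 ^ r * D * (n : ℝ) ^ (-s) := by
    calc (m : ℝ) * (D * (u : ℝ) ^ (-r)) ≤ (n : ℝ) ^ ((r - 1) / 2) *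
          (D * (2 ^ r * (n : ℝ) ^ (-r))) :=
          mul_le_mul a2 (mul_le_mul_of_nonneg_left p1 hD.le) (by positivity) (by positivity)
      _ = 2 ^ r * D * ((n : ℝ) ^ ((r - 1) / 2) * (n : ℝ) ^ (-r)) := by ring
      _ ≤ _ := mul_le_mul_of_nonneg_left s1 (by positivity)
  have t2 : C0 * (u : ℝ) ^ (-q2) ≤ 2 ^ q2 * C0 * (n : ℝ) ^ (-s) := by
    calc C0 * (u : ℝ) ^ (-q2) ≤ C0 * (2 ^ q2 * (n : ℝ) ^ (-q2)) :=
          mul_le_mul_of_nonneg_left p2 hC0.le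
      _ = 2 ^ q2 * C0 * (n : ℝ) ^ (-q2) := by ring
      _ ≤ _ := mul_le_mul_of_nonneg_left s2 (by positivity)
  have t3 : (u : ℝ) ^ (-(11 / 10 : ℝ)) ≤ 2 ^ (11 / 10 : ℝ) * (n : ℝ) ^ (-s) :=
    p3.trans (mul_le_mul_of_nonneg_left s3 (by positivity))
  have g1 := (abs_le.1 h4).1
  have g2 := (abs_le.1 h6).1
  unfold xa at g1
  rw [one_div] at h5
  unfold Xs
  linarith

/-- the lower half -/
lemma near_lo {b : ℝ} {a x : ℕ → ℝ} {D C0 r q2 : ℝ} (hD : 0 < D) (hr : 1 < r)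
    (hq2 : 1 < q2) {q : ℕ}
    (hdx : ∀ᶠ n : ℕ in atTop, |x (n + 1) - x n| ≤ D * (n : ℝ) ^ (-r))
    (hn : ∀ᶠ n : ℕ in atTop, |x n - xa a n| ≤ C0 * (n : ℝ) ^ (-q2)) (hC0 : 0 < C0)
    (hLl : ∀ᶠ u : ℕ in atTop, 1 / a (u + q * Nat.clog 2 u) -
      (u : ℝ) ^ (-(11 / 10 : ℝ)) ≤ stiff (2 ^ u) b) {s : ℝ} (hs1 : s ≤ (1 + r) / 2)
    (hs2 : s ≤ q2) (hs3 : s ≤ 11 / 10) :
    ∀ᶠ n : ℕ in atTop, -((D + C0 + 1) * (n : ℝ) ^ (-s)) ≤ Xs b n - x n := by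
  obtain ⟨n1, h1⟩ := eventually_atTop.1 hdx
  obtain ⟨n2, h2⟩ := eventually_atTop.1 hn
  filter_upwards [ev_clogp q (show 0 < (r - 1) / 2 by linarith), hLl,
    eventually_ge_atTop (n1 + n2 + 1)] with n a2 h5 a3
  obtain ⟨m, hm⟩ : ∃ m, m = q * Nat.clog 2 n := ⟨_, rfl⟩
  rw [← hm] at a2 h5
  have hn1 : 1 ≤ n := by omega
  have hnr : (1 : ℝ) ≤ n := by exact_mod_cast hn1
  have hn0 : (0 : ℝ) < n := by linarith
  have h4 := h2 (n + m) (by omega)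
  have h6 := var hD.le (by linarith : (0 : ℝ) ≤ r) (n0 := n1 + 1) (by omega)
    (fun k hk => h1 k (by omega)) (n := n) (by omega) m
  have s1 : (n : ℝ) ^ ((r - 1) / 2) * (n : ℝ) ^ (-r) ≤ (n : ℝ) ^ (-s) := by
    rw [← Real.rpow_add hn0]
    exact Real.rpow_le_rpow_of_exponent_le hnr (by linarith)
  have s2 : (n : ℝ) ^ (-q2) ≤ (n : ℝ) ^ (-s) :=
    Real.rpow_le_rpow_of_exponent_le hnr (by linarith)
  have s3 : (n : ℝ) ^ (-(11 / 10 : ℝ)) ≤ (n : ℝ) ^ (-s) :=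
    Real.rpow_le_rpow_of_exponent_le hnr (by linarith)
  have t1 : (m : ℝ) * (D * (n : ℝ) ^ (-r)) ≤ D * (n : ℝ) ^ (-s) := by
    calc (m : ℝ) * (D * (n : ℝ) ^ (-r)) ≤ (n : ℝ) ^ ((r - 1) / 2) * (D * (n : ℝ) ^ (-r)) :=
          mul_le_mul_of_nonneg_right a2 (by positivity)
      _ = D * ((n : ℝ) ^ ((r - 1) / 2) * (n : ℝ) ^ (-r)) := by ring
      _ ≤ _ := mul_le_mul_of_nonneg_left s1 (by positivity)
  have t2 : C0 * ((n + m : ℕ) : ℝ) ^ (-q2) ≤ C0 * (n : ℝ) ^ (-s) := by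
    refine mul_le_mul_of_nonneg_left (le_trans ?_ s2) hC0.le
    refine Real.rpow_le_rpow_of_nonpos hn0 ?_ (by linarith)
    push_cast
    have := Nat.cast_nonneg (α := ℝ) m
    linarith
  have g1 := (abs_le.1 h4).2
  have g2 := (abs_le.1 h6).1
  unfold xa at g1
  rw [one_div] at h5
  unfold Xs
  linarith

/-- **the stiffness and its flow**, from the sharp form of LINKW -/
theorem shp_of {P : Par} {b σ c c1 q2 qx : ℝ} {a y ε xs : ℕ → ℝ} {c' r q A : ℝ} {N : ℕ}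
    (hb : 0 ≤ b) (h : SFlow P b σ c c1 q2 qx a y ε xs c' r q A N)
    (hLu : ∃ q : ℕ, ∀ᶠ u : ℕ in atTop, stiff (2 ^ (u + q * Nat.clog 2 u)) b ≤
      1 / a u + (u : ℝ) ^ (-(11 / 10 : ℝ)))
    (hLl : ∃ q : ℕ, ∀ᶠ u : ℕ in atTop, 1 / a (u + q * Nat.clog 2 u) -
      (u : ℝ) ^ (-(11 / 10 : ℝ)) ≤ stiff (2 ^ u) b) : ∃ C s : ℝ, Shp b xs C s := by
  obtain ⟨qu, hLu⟩ := hLu
  obtain ⟨ql, hLl⟩ := hLl
  obtain ⟨D, hD, hy⟩ := ev_y h.t3
  have hr := h.r1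
  have hq2 := h.q21
  have hdx : ∀ᶠ n : ℕ in atTop, |xs (n + 1) - xs n| ≤ D ^ r * (n : ℝ) ^ (-r) := by
    filter_upwards [hy, eventually_ge_atTop N] with n h1 h2
    exact (h.t3.fl.X n h2).trans (h1 r (by linarith))
  have hn : ∀ᶠ n : ℕ in atTop, |xs n - xa a n| ≤ D ^ q2 * (n : ℝ) ^ (-q2) := by
    filter_upwards [hy, eventually_ge_atTop N] with n h1 h2
    exact (h.near n h2).trans (h1 q2 (by linarith))
  obtain ⟨s, hs⟩ : ∃ s, s = min ((1 + r) / 2) (min q2 (11 / 10)) := ⟨_, rfl⟩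
  have s0 : s ≤ (1 + r) / 2 := by rw [hs]; exact min_le_left _ _
  have s2 : s ≤ q2 := by rw [hs]; exact (min_le_right _ _).trans (min_le_left _ _)
  have s3 : s ≤ 11 / 10 := by rw [hs]; exact (min_le_right _ _).trans (min_le_right _ _)
  have s1 : 1 < s := by
    rw [hs]
    exact lt_min (by linarith) (lt_min hq2 (by norm_num))
  have hDr : 0 < D ^ r := Real.rpow_pos_of_pos hD _
  have hDq : 0 < D ^ q2 := Real.rpow_pos_of_pos hD _
  have k1 := near_up hb hDr hr hq2 hdx hn hDq hLu s0 s2 s3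
  have k2 := near_lo (b := b) hDr hr hq2 hdx hn hDq hLl s0 s2 s3
  obtain ⟨C, hC⟩ : ∃ C, C = 2 ^ r * D ^ r + 2 ^ q2 * D ^ q2 + 2 ^ (11 / 10 : ℝ) := ⟨_, rfl⟩
  have w1 : (1 : ℝ) ≤ 2 ^ r := Real.one_le_rpow (by norm_num) (by linarith)
  have w2 : (1 : ℝ) ≤ 2 ^ q2 := Real.one_le_rpow (by norm_num) (by linarith)
  have w3 : (1 : ℝ) ≤ 2 ^ (11 / 10 : ℝ) := Real.one_le_rpow (by norm_num) (by norm_num)
  have c1 : D ^ r ≤ 2 ^ r * D ^ r := le_mul_of_one_le_left hDr.le w1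
  have c2 : D ^ q2 ≤ 2 ^ q2 * D ^ q2 := le_mul_of_one_le_left hDq.le w2
  rw [← hC] at k1
  refine ⟨C, s, s1, by rw [hC]; positivity, ?_, ?_, h.t3.nx, h.t3.T_lim⟩
  · filter_upwards [hdx, eventually_ge_atTop 1] with n h1 h2
    have hnr : (1 : ℝ) ≤ n := by exact_mod_cast h2
    refine h1.trans (mul_le_mul (by linarith) (Real.rpow_le_rpow_of_exponent_le hnr
      (by linarith)) (by positivity) (by linarith))
  · filter_upwards [k1, k2] with n h1 h2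
    rw [abs_le]
    refine ⟨le_trans ?_ h2, h1⟩
    have h3 : (D ^ r + D ^ q2 + 1) * (n : ℝ) ^ (-s) ≤ C * (n : ℝ) ^ (-s) :=
      mul_le_mul_of_nonneg_right (by linarith) (by positivity)
    linarith

end Vale.Agent.P159.H415.Ls
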