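import Vale.Agent.P159.H415.Pers2
import Vale.Agent.P159.H316.Crk1

/-!
P159 (helper415), for `CRK` (helper30, helper316): **the base number `yt` of the new level from the
activity `om_1` on the same torus** (`ev_omyt`), by the bound of `|q| ≥ 2` in one window.
-/

set_option linter.unusedSectionVars false

namespace Vale.Agent.P159.H415

open Filter Topology
open Vale.Agent.P159.H43 (ch2)
open Vale.Agent.P159.H145 (mt)
open Vale.Agent.P159.H864 (yt)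
open Vale.Agent.P159.TM.Spec (V)
open Vale.Agent.P159.TM.SpecC (wT)
open Vale.Agent.P159.H896 (om Om)
open Vale.Agent.P159.H972 (lg tn Par Good GP RNG)
open Vale.Agent.P159.H801 (Ev PS)
open Vale.Agent.P159.H889 (Cx Cw EvC)

noncomputable section

/-- one torus, constants -/
lemma yt_two {b : ℝ} (hb : 0 < b) {m k : ℕ} {h : ℝ} (hk : (2 : ℝ) ^ k ≤ 4 * h) (hh : 1 ≤ h)
    (hO : Om (wT b (2 ^ (m + k))) ((4 * tn m) • (1 : Matrix (V (2 ^ (m + k))) (V (2 ^ (m + k)))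
      ℝ)) ≤ 1 / 2) :
    yt (2 ^ (m + k)) b (4 * tn m) ≤ 40 * (4 ^ m / 4 ^ (m + k) *
      om (wT b (2 ^ (m + k))) (mt (2 ^ (m + k)) (4 * tn m)) 1) +
      560 * h * ch2 (wT b (2 ^ (m + k))) ((16 * tn m) • (1 : Matrix (V (2 ^ (m + k)))
        (V (2 ^ (m + k))) ℝ)) 0 := by
  have ht : 0 < 4 * tn m := by
    have := H972.tn_pos m
    positivity
  have h1 := H316.yt_le_om (N := 2 ^ (m + k)) hb ht hO
  have hX : 4 * tn m * ((2 ^ (m + k) : ℕ) : ℝ) ^ 2 = 4 * 4 ^ k := by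
    rw [mul_assoc, tn_sq]
  rw [hX, show 4 * (4 * tn m) = 16 * tn m by ring] at h1
  obtain ⟨o, ho⟩ : ∃ o : ℝ, o = om (wT b (2 ^ (m + k))) (mt (2 ^ (m + k)) (4 * tn m)) 1 :=
    ⟨_, rfl⟩
  obtain ⟨c, hc⟩ : ∃ c : ℝ, c = ch2 (wT b (2 ^ (m + k))) ((16 * tn m) • (1 : Matrix
    (V (2 ^ (m + k))) (V (2 ^ (m + k))) ℝ)) 0 := ⟨_, rfl⟩
  have ho' : om (wT b (2 ^ (m + k))) ((4 * tn m) • (1 : Matrix (V (2 ^ (m + k)))
    (V (2 ^ (m + k))) ℝ)) 1 = o := ho.symm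
  rw [ho', ← hc] at h1
  rw [← ho, ← hc]
  have ho0 : 0 ≤ o := by
    rw [ho]
    exact H896.om_nonneg (H896.wp_t (N := 2 ^ (m + k)) hb.le ht).toWM 1
  have hc0 : 0 ≤ c := by
    rw [hc]
    exact H43.nm_nonneg _
  have hE : (4 : ℝ) ^ m / 4 ^ (m + k) = 1 / 4 ^ k := by
    rw [pow_add]
    field_simp
  rw [hE]
  have hK0 : (0 : ℝ) < 4 ^ k := by positivity
  have e4 : (4 : ℝ) ^ k = ((2 : ℝ) ^ k) ^ 2 := by
    rw [← pow_mul, mul_comm, pow_mul]
    norm_num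
  have hK : (4 : ℝ) ^ k ≤ 16 * h ^ 2 := by
    rw [e4]
    have := pow_le_pow_left₀ (by positivity) hk 2
    linarith
  have s1 : √(2 * (4 * 4 ^ k)) ≤ 12 * h := by
    rw [Real.sqrt_le_left (by positivity)]
    nlinarith
  have s2 : √(1 + 4 * √(2 * (4 * 4 ^ k))) ≤ 7 * h := by
    rw [Real.sqrt_le_left (by positivity)]
    nlinarith
  have hpi : Real.pi ^ 2 ≤ 99 / 10 := by
    have := Real.pi_lt_d4
    have := Real.pi_pos
    nlinarith
  have h2 : 4 * 4 ^ k * yt (2 ^ (m + k)) b (4 * tn m) ≤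
      4 * 4 ^ k * (40 * (1 / 4 ^ k * o) + 560 * h * c) := by
    refine h1.trans ?_
    have a1 : 4 * (4 : ℝ) ^ k * (40 * (1 / 4 ^ k * o) + 560 * h * c) =
        160 * o + 4 * 4 ^ k * (560 * h * c) := by
      field_simp
      ring
    rw [a1]
    have a2 : 8 * Real.pi ^ 2 * (2 * o + 4 * 4 ^ k * (√(1 + 4 * √(2 * (4 * 4 ^ k))) * c)) ≤
        8 * (99 / 10) * (2 * o + 4 * 4 ^ k * (7 * h * c)) := by
      refine mul_le_mul (by linarith) ?_ (by positivity) (by norm_num)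
      have a3 : √(1 + 4 * √(2 * (4 * 4 ^ k))) * c ≤ 7 * h * c := mul_le_mul_of_nonneg_right s2 hc0
      have a4 := mul_le_mul_of_nonneg_left a3 (show (0 : ℝ) ≤ 4 * 4 ^ k by positivity)
      linarith
    refine a2.trans ?_
    have a5 : 0 ≤ 4 * 4 ^ k * (h * c) := by positivity
    nlinarith
  exact le_of_mul_le_mul_left h2 (by positivity)

/-- the final numbers -/
lemma on1 {th thp : ℝ} (h1 : 0 < th) (h2 : 1000 * th ≤ thp) :
    ∀ᶠ e in 𝓝[>] (0 : ℝ), (∀ d : ℕ, lg thp e ≤ 20 * d →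
      560 * e ^ (-th) * (4096 * (e ^ (-(5 * th)) * (2 : ℝ) ^ (-((d : ℝ) / 2)))) ≤
        (2 : ℝ) ^ (-((d : ℝ) / 19))) ∧ 1 ≤ e ^ (-th) := by
  have hthp : 0 < thp := by linarith
  filter_upwards [ev_half, ev_lgb (100000 / thp), ev_lgb (100 / th)] with e he g1 g2
  have he0 := he.1
  have he1 : e ≤ 1 := he.2.trans (by norm_num)
  have l1 := lg_ge' thp e
  obtain ⟨u, hu⟩ : ∃ u : ℝ, u = Real.logb 2 (1 / e) := ⟨_, rfl⟩
  rw [← hu] at g1 g2 l1
  have k1 : 100000 ≤ thp * u := by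
    rw [div_le_iff₀ hthp] at g1
    linarith
  have u0 : 0 ≤ u := by
    rw [hu]
    exact Real.logb_nonneg one_lt_two ((le_div_iff₀ he0).2 (by linarith))
  have k3 : 1000 * th * u ≤ thp * u := mul_le_mul_of_nonneg_right h2 u0
  have pw : ∀ c : ℝ, e ^ (-c) = (2 : ℝ) ^ (c * u) := fun c => by rw [hu, two_rpow_logb he0]
  refine ⟨fun d hd => ?_, Real.one_le_rpow_of_pos_of_le_one_of_nonpos he0 he1 (by linarith)⟩
  have hdR : (lg thp e : ℝ) ≤ 20 * d := by exact_mod_cast hd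
  have c1 : (560 : ℝ) ≤ 2 ^ (10 : ℝ) := by norm_num
  have c2 : (4096 : ℝ) = 2 ^ (12 : ℝ) := by norm_num
  rw [pw, pw, c2]
  calc (560 : ℝ) * 2 ^ (th * u) * (2 ^ (12 : ℝ) * (2 ^ (5 * th * u) * 2 ^ (-((d : ℝ) / 2))))
      ≤ 2 ^ (10 : ℝ) * 2 ^ (th * u) * (2 ^ (12 : ℝ) * (2 ^ (5 * th * u) *
        2 ^ (-((d : ℝ) / 2)))) := by gcongr
    _ = (2 : ℝ) ^ (10 + th * u + (12 + (5 * th * u + -((d : ℝ) / 2)))) := by
        rw [Real.rpow_add (by norm_num), Real.rpow_add (by norm_num),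
          Real.rpow_add (by norm_num), Real.rpow_add (by norm_num)]
    _ ≤ _ := Real.rpow_le_rpow_of_exponent_le (by norm_num) (by linarith)

/-- the last power -/
lemma on2 {th : ℝ} (h1 : 0 < th) (h2 : th ≤ 1 / 100) :
    ∀ᶠ e in 𝓝[>] (0 : ℝ), 560 * e ^ (-th) * e ≤ e ^ (3 / 5 : ℝ) := by
  filter_upwards [ev_half, ev_pow (show (0 : ℝ) < 1 / 560 by norm_num)
    (show (0 : ℝ) < 1 / 10 by norm_num)] with e he g1
  have he0 := he.1
  have he1 : e ≤ 1 := he.2.trans (by norm_num)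
  have q : ∀ a b : ℝ, e ^ a * e ^ b = e ^ (a + b) := fun a b => (Real.rpow_add he0 a b).symm
  calc 560 * e ^ (-th) * e = 560 * (e ^ (-th) * e ^ (1 : ℝ)) := by rw [Real.rpow_one]; ring
    _ = 560 * e ^ (-th + 1) := by rw [q]
    _ ≤ 560 * e ^ (1 / 10 + 3 / 5 : ℝ) := by
        have := Real.rpow_le_rpow_of_exponent_ge he0 he1
          (show (1 / 10 + 3 / 5 : ℝ) ≤ -th + 1 by linarith)
        linarith
    _ = 560 * e ^ (1 / 10 : ℝ) * e ^ (3 / 5 : ℝ) := by rw [← q]; ring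
    _ ≤ 1 * e ^ (3 / 5 : ℝ) := by
        refine mul_le_mul_of_nonneg_right ?_ (Real.rpow_nonneg he0.le _)
        linarith
    _ = _ := one_mul _

/-- **the base number from the activity on the same torus**, in the order of constants -/
theorem ev_omyt0 {b b1 b2 pf : ℝ} (hb1 : 0 < b1) (h1 : b1 ≤ b) (hpf : 0 < pf) (Q : ℕ) :
    Ev b1 b2 pf Q fun P c1 => ∀ (C1 : ℝ) (n m s : ℕ) (e e' y Y : ℝ), Cx P b C1 c1 n s e y →
      Cw P n m e e' → (∀ r, P.TT n e r → yt (2 ^ r) b (4 * tn n) ≤ Y) →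
      Y ≤ e ^ (-(P.thp / 20)) * y →
      yt (2 ^ (m + P.kE e')) b (4 * tn m) ≤ 40 * (4 ^ m / 4 ^ (m + P.kE e') *
        om (wT b (2 ^ (m + P.kE e'))) (mt (2 ^ (m + P.kE e')) (4 * tn m)) 1) +
        (2 : ℝ) ^ (-(((m : ℝ) - n) / 19)) * Y + e ^ (3 / 5 : ℝ) * y := by
  obtain ⟨W₀, ys0, X, hys0, h⟩ := ch2_win' hb1 b2
  have hmain : Ev b1 b2 pf Q fun P c1 => TypT P b → ∀ (C1 : ℝ) (n m s : ℕ) (e e' y Y : ℝ),
      Cx P b C1 c1 n s e y → Cw P n m e e' → P.TT n e (m + P.kE e') → 16 ≤ m - n →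
      (∀ r, P.TT n e r → yt (2 ^ r) b (4 * tn n) ≤ Y) → Y ≤ e ^ (-(P.thp / 20)) * y →
      yt (2 ^ (m + P.kE e')) b (4 * tn m) ≤ 40 * (4 ^ m / 4 ^ (m + P.kE e') *
        om (wT b (2 ^ (m + P.kE e'))) (mt (2 ^ (m + P.kE e')) (4 * tn m)) 1) +
        (2 : ℝ) ^ (-(((m : ℝ) - n) / 19)) * Y + e ^ (3 / 5 : ℝ) * y := by
    refine H801.Ev.of ⟨W₀, fun W hW => ?_⟩
    refine ⟨ys0, hys0, fun ys hy1 hy2 => ⟨X, fun X0 hX0 => ⟨1 / 4000, by norm_num,
      fun x1 hx1 hx1' => ⟨min (1 / 4000) (1 / (16000 * ((Q : ℝ) + 3))), by positivity,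
      fun thp ht1 ht2 => ⟨thp / 1000, by positivity, fun th hs1 hs2 => ⟨1, fun C0 hC0 => ?_⟩⟩⟩⟩⟩⟩
    have t1 : thp ≤ 1 / 4000 := ht2.trans (min_le_left _ _)
    have t2 : ((Q : ℝ) + 3) * thp ≤ 1 / 16000 := by
      have h3 := ht2.trans (min_le_right _ _)
      have h4 : (0 : ℝ) < 16000 * ((Q : ℝ) + 3) := by positivity
      rw [le_div_iff₀ h4] at h3
      linarith
    obtain ⟨q1, hq1⟩ : ∃ q1 : ℕ, q1 = Q + ⌈x1 / thp⌉₊ + 2 := ⟨_, rfl⟩
    have hq : th + 4 * q1 * thp ≤ 1 / 500 := by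
      have h2 : (⌈x1 / thp⌉₊ : ℝ) ≤ x1 / thp + 1 := (Nat.ceil_lt_add_one (by positivity)).le
      have h3 : (⌈x1 / thp⌉₊ : ℝ) * thp ≤ x1 + thp := by
        calc (⌈x1 / thp⌉₊ : ℝ) * thp ≤ (x1 / thp + 1) * thp := by gcongr
          _ = x1 + thp := by field_simp
      have h4 : (q1 : ℝ) * thp ≤ x1 + (Q + 3) * thp := by
        rw [hq1]
        push_cast
        linarith
      linarith
    obtain ⟨Ea, hEa, h⟩ := h th thp C0 q1 hs1 (by linarith) (by linarith) (by linarith)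
      (by linarith)
    obtain ⟨Ec, hEc, hEc2, hc⟩ := le_of_ev ((on1 hs1 (by linarith : 1000 * th ≤ thp)).and
      (on2 hs1 (by linarith)))
    refine ⟨th / 256, by positivity, fun c1 hc1 hc2 => ?_⟩
    obtain ⟨Eb, hEb, hn16⟩ := H316.num16 (c1 := c1) hs1 (by linarith : 1000 * th ≤ thp) t1 hc2
    refine ⟨min Ea (min Eb Ec), lt_min hEa (lt_min hEb hEc), fun P hP hT => ?_⟩
    intro C1 n m s e e' y Y hx hw hTT hd16 hyt hY
    have he := hx.e0
    have hesE : P.es ≤ min Ea (min Eb Ec) := hP.ees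
    have hes := hx.es
    have hEsa : P.es ≤ Ea := hesE.trans (min_le_left _ _)
    have hEsb : P.es ≤ Eb := hesE.trans ((min_le_right _ _).trans (min_le_left _ _))
    have hEsc : P.es ≤ Ec := hesE.trans ((min_le_right _ _).trans (min_le_right _ _))
    have he1 : e ≤ 1 := hx.e1.trans (by norm_num)
    have hb : 0 < b := hb1.trans_le h1
    have hwe : P.w e = lg thp e := by
      unfold Par.w
      rw [hP.ethp]
    have hkE' : P.kE e' = lg th e' := by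
      unfold Par.kE
      rw [hP.eth]
    have hw1 := hw.w1
    have hw2 := hw.w2
    obtain ⟨⟨o1, o2⟩, o3⟩ := hc e he (hes.trans hEsc)
    have hde : lg thp e ≤ 20 * (m - n) := by rw [hwe] at hw1; omega
    have hd2 : m - n ≤ 4 * lg thp e := by rw [hwe] at hw2; omega
    have hqq : P.q0 ≤ q1 := by rw [hP.eq0, hq1]
    obtain ⟨τ, a, hτ1, hτ2, hG⟩ := hx.G
    have hGe := hG e le_rfl hes
    -- the torus
    obtain ⟨k, hk⟩ : ∃ k : ℕ, k = P.kE e' := ⟨_, rfl⟩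
    rw [← hk] at hTT ⊢
    have he' : 0 < e' := lt_of_lt_of_le (by linarith) hw.lo
    have he'1 : e' ≤ 1 := hw.es.trans (P.es1.trans (by norm_num))
    have hκ : (2 : ℝ) ^ k ≤ 4 * e ^ (-th) := by
      rw [hk, hkE']
      have g1 := two_lg_le' hs1.le he' he'1
      have g2 : e' ^ (-th) ≤ (e / 2) ^ (-th) :=
        Real.rpow_le_rpow_of_nonpos (by positivity) hw.lo (by linarith)
      have g3 : (e / 2) ^ (-th) ≤ 2 * e ^ (-th) := by
        rw [Real.div_rpow he.le (by norm_num), div_eq_mul_inv, ← Real.rpow_neg (by norm_num),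
          neg_neg, mul_comm]
        refine mul_le_mul_of_nonneg_right ?_ (Real.rpow_nonneg he.le _)
        calc (2 : ℝ) ^ th ≤ 2 ^ (1 : ℝ) :=
              Real.rpow_le_rpow_of_exponent_le (by norm_num) (by linarith)
          _ = 2 := Real.rpow_one 2
      linarith
    have hY0 : 0 ≤ Y := (H864.yt_nonneg hb.le (by
      have := H972.tn_pos n
      positivity)).trans (hyt _ hTT)
    have hyL : Real.exp (-(e ^ (-c1))) ≤ y := by
      have g1 := hx.yL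
      rw [one_div, Real.log_inv] at g1
      calc Real.exp (-(e ^ (-c1))) ≤ Real.exp (Real.log y) := Real.exp_le_exp.2 (by linarith)
        _ = y := Real.exp_log hx.y0
    rw [hP.ethp] at hY
    have hsub : (2 : ℝ) ^ (m + k - n) = 2 ^ (m - n) * 2 ^ k := by
      rw [← pow_add]
      congr 1
      omega
    obtain ⟨n1, n2⟩ := hn16 e he (hes.trans hEsb) (m - n) (2 ^ k) (2 ^ (m + k - n)) Y y
      (ch2 (wT b (2 ^ (m + k))) ((2 * tn n) • (1 : Matrix (V (2 ^ (m + k))) (V (2 ^ (m + k)))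
        ℝ)) 0) hd2 (by positivity) hκ hsub hY0 hY hx.yle hyL
    have htn := H972.tn_pos n
    have hnr : n ≤ m + k := by omega
    have htm : 16 * tn m < tn n := by
      have h4 : (256 : ℝ) ≤ 4 ^ (m - n) := by
        calc (256 : ℝ) = 4 ^ 4 := by norm_num
          _ ≤ 4 ^ (m - n) := pow_le_pow_right₀ (by norm_num) (by omega)
      have h5 : tn m = tn n / 4 ^ (m - n) := by
        rw [← tn_add]
        congr 1
        omega
      rw [h5]
      have : tn n / 4 ^ (m - n) ≤ tn n / 256 := div_le_div_of_nonneg_left htn.le (by norm_num) h4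
      linarith
    have htmp := H972.tn_pos m
    have hOm : ∀ T : ℝ, tn n ≤ T → T ≤ 4 * tn n → Om (wT b (2 ^ (m + k))) (T • (1 : Matrix
        (V (2 ^ (m + k))) (V (2 ^ (m + k))) ℝ)) ≤ 2 * ((2 ^ (m + k - n)) ^ 2 * Y) :=
      fun T g1 g2 => Om_yt hb hnr g1 g2 (hyt _ hTT) n1
    have hC : ch2 (wT b (2 ^ (m + k))) ((2 * tn n) • (1 : Matrix (V (2 ^ (m + k)))
        (V (2 ^ (m + k))) ℝ)) 0 ≤ (2 ^ (m + k - n)) ^ 2 * (2 * Y) := by
      have g1 := ch2_le_Om (H896.wp_t (N := 2 ^ (m + k)) hb.le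
        (t := 2 * tn n) (by positivity))
      refine (g1.trans (hOm _ (by linarith) (by linarith))).trans (le_of_eq ?_)
      ring
    have hty := hT n e τ a he hes hτ1 hτ2 hGe _ hTT (16 * tn m) (by positivity) htm
    rw [hP.eth] at hty
    have hwin := h P hP.eb1 hP.eb2 (by rw [hP.eW]; exact hW) (by rw [hP.eys]; exact hy2)
      (by rw [hP.eX0]; exact hX0) hP.eth hP.ethp hP.eC0 hqq b n m (m + k) e (16 * tn m) Y he
      (hes.trans hEsa) (hGe.rng _ (Or.inl hTT)).1 hTT (by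
        have := hGe.nE
        rw [hP.eC0] at this
        omega) (by omega) hw1 hw2 (by linarith) (by linarith) hty (hyt _ hTT) n1
    have hch := hwin.trans (n2 hC)
    have hO2 : Om (wT b (2 ^ (m + k))) ((4 * tn m) • (1 : Matrix (V (2 ^ (m + k)))
        (V (2 ^ (m + k))) ℝ)) ≤ 1 / 2 := by
      have g1 := Om_scalar (w := wT b (2 ^ (m + k))) (s := 4 * tn m) (t := 4 * tn n)
        (by positivity) (by linarith) (H896.wp_t hb.le (by positivity))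
        (H896.wp_t hb.le (by positivity))
      have g2 := hOm (4 * tn n) (by linarith) le_rfl
      linarith
    have hyt2 := yt_two hb (m := m) (k := k) hκ o2 hO2
    refine hyt2.trans ?_
    rw [add_assoc]
    refine add_le_add le_rfl ?_
    have g3 : 560 * e ^ (-th) * ch2 (wT b (2 ^ (m + k))) ((16 * tn m) • (1 : Matrix
        (V (2 ^ (m + k))) (V (2 ^ (m + k))) ℝ)) 0 ≤ 560 * e ^ (-th) *
        (4096 * (e ^ (-(5 * th)) * (2 : ℝ) ^ (-(((m - n : ℕ) : ℝ) / 2)) * Y) + e * y) :=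
      mul_le_mul_of_nonneg_left hch (by positivity)
    refine g3.trans ?_
    have g4 := mul_le_mul_of_nonneg_right (o1 (m - n) hde) hY0
    have g5 := mul_le_mul_of_nonneg_right o3 hx.y0.le
    have hmn : ((m - n : ℕ) : ℝ) = (m : ℝ) - n := by rw [Nat.cast_sub (by omega)]
    rw [hmn] at g4 ⊢
    calc 560 * e ^ (-th) * (4096 * (e ^ (-(5 * th)) * (2 : ℝ) ^ (-(((m : ℝ) - n) / 2)) * Y) +
          e * y) = 560 * e ^ (-th) * (4096 * (e ^ (-(5 * th)) *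
          (2 : ℝ) ^ (-(((m : ℝ) - n) / 2)))) * Y + 560 * e ^ (-th) * e * y := by ring
      _ ≤ _ := add_le_add g4 g5
  refine ((hmain.and (ev_base b1 b2 pf Q)).and (ev_typT (b2 := b2) hb1 h1 hpf Q)).mono ?_
  rintro P c1 - ⟨⟨h2, h3⟩, h4⟩ C1 n m s e e' y Y hx hw hyt hY
  obtain ⟨t1, t2, -⟩ := h3 n m e e' hx.e0 hx.es hw.lo hw.w1 hw.w2
  exact h2 h4 C1 n m s e e' y Y hx hw t1 t2 hyt hY

/-- **`ev_omyt`** in helper30's form -/
theorem ev_omyt {b b1 b2 pf : ℝ} (hb1 : 0 < b1) (h1 : b1 ≤ b) (hpf : 0 < pf) (K : ℝ) (Q : ℕ) :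
    EvC b1 b2 pf Q K fun P c1 C1 => ∀ (n m s : ℕ) (e e' y Y : ℝ), Cx P b C1 c1 n s e y →
      Cw P n m e e' → Good P b m e' → (∀ r, P.TT n e r → yt (2 ^ r) b (4 * tn n) ≤ Y) →
      Y ≤ e ^ (-(P.thp / 20)) * y →
      yt (2 ^ (m + P.kE e')) b (4 * tn m) ≤ 40 * (4 ^ m / 4 ^ (m + P.kE e') *
        om (wT b (2 ^ (m + P.kE e'))) (mt (2 ^ (m + P.kE e')) (4 * tn m)) 1) +
        (2 : ℝ) ^ (-(((m : ℝ) - n) / 19)) * Y + e ^ (3 / 5 : ℝ) * y := by
  refine (ev_omyt0 (b2 := b2) hb1 h1 hpf Q).mono ?_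
  intro P c1 _ h C1 _ _ _ n m s e e' y Y hx hw _ hyt hY
  exact h C1 n m s e e' y Y hx hw hyt hY

end

end Vale.Agent.P159.H415
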