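import Vale.Agent.P159.H415.EvD
import Vale.Agent.P159.H816.Ty2
import Vale.Agent.P159.H239.FamEv

/-!
P159, module CH2 (helper415), part 29: typicality plugged in (helper816): `ev_ch2b`, for each `b` of
the range.
-/

set_option linter.unusedSectionVars false

namespace Vale.Agent.P159.H415

open Finset Matrix Filter Topology
open Vale.Agent.P159.H864 (yt)
open Vale.Agent.P159.H972 (lg tn Par GP Good)
open Vale.Agent.P159.H801 (Ev PS)

noncomputable section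

/-- `TypB` of helper816 gives `TypT` -/
theorem typT_of_B {P : Par} {b : ℝ} (h : H816.TypB P b) : TypT P b :=
  fun n e τ a he hes h1 h2 hG r hr s hs hst _ => (h n e τ a he hes h1 h2 hG r hr s hs).2 hst

/-- `TypT` for each `b ≥ b1` -/
theorem ev_typT {b b1 b2 pf : ℝ} (hb1 : 0 < b1) (h1 : b1 ≤ b) (hpf : 0 < pf) (Q : ℕ) :
    Ev b1 b2 pf Q fun P _ => TypT P b :=
  ((H816.fam_typB (b2 := b2) hb1 h1 hpf).ev Q).mono fun P _ _ h => by
    obtain ⟨N0, h⟩ := h.exists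
    exact typT_of_B h

/-- **CH2, all inputs plugged**: the step and the crude start, for each `b ≥ b1` -/
theorem ev_ch2b {b b1 b2 pf : ℝ} (hb1 : 0 < b1) (h1 : b1 ≤ b) (hpf : 0 < pf) (Q : ℕ) :
    Ev b1 b2 pf Q fun P c1 => c1 ≤ P.th / 256 ∧
      (∀ (c : ℝ) (n m : ℕ) (e e' y y' g g' : ℝ), c ≤ P.th / 256 → CI P b c n m e e' y y' →
        0 ≤ g' → g' ≤ 1 / 2 → g' ≤ g + P.thp / 200 →
        CH2 P b n e (y * e ^ g) → CH2 P b m e' (y' * e' ^ g')) ∧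
      ∀ (n : ℕ) (e y : ℝ), 0 < e → e ≤ P.es → 0 < y → y ^ (39 / 20 : ℝ) ≤ e →
        (∀ r, P.TT n e r → yt (2 ^ r) b (4 * tn n) ≤ e ^ (-(P.thp / 20)) * y) →
        CH2 P b n e (2 * (e ^ (-(P.thp / 20)) * y)) := by
  have hth : Ev b1 b2 pf Q fun P c1 => c1 ≤ P.th / 256 := by
    refine H801.Ev.of ⟨0, fun W _ => ⟨1, one_pos, fun ys _ _ => ⟨0, fun X0 _ => ⟨1, one_pos,
      fun x1 _ _ => ⟨1, one_pos, fun thp _ _ => ⟨1, one_pos, fun th h1 _ => ⟨0, fun C0 _ =>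
      ⟨th / 256, by positivity, fun c1 _ h2 => ⟨1, one_pos, fun P hP => ?_⟩⟩⟩⟩⟩⟩⟩⟩⟩
    rw [hP.eth]
    exact h2
  have h2 := ((ev_ch2c hb1 b2 pf Q).and (ev_ch2 hb1 b2 pf Q)).and (ev_typT (b2 := b2) hb1 h1 hpf Q)
  refine (h2.and hth).mono ?_
  rintro P c1 - ⟨⟨⟨h3, h4⟩, h5⟩, h6⟩
  exact ⟨h6, h3 b h5, fun n e y => (h4 b h5).2 n e y (hb1.trans_le h1)⟩

end

end Vale.Agent.P159.H415
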