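import Vale.Agent.P159.H415.Mono
import Vale.Agent.P159.H896.Four

/-!
P159, module CH2 (helper415), part 8: from the `ℓ²` norm `ch2` at mass `2 t` to the sum
`∑_{|q| ≥ 2} ω_q = Om - 2 ω_1` at mass `t`.
-/

namespace Vale.Agent.P159.H415

open MeasureTheory Finset
open Vale.Agent.P159.H37 (gau Zn Un ZM Zq wM qf qf_smul_one)
open Vale.Agent.P159.H896 (Chn WM WP om Om Mup)
open Vale.Agent.P159.H43 (ch2 chA Phq nm)

noncomputable section

/-! ### a numerical series -/

lemma sum_lor_nat {X : ℝ} (hX : 0 < X) (s : Finset ℕ) :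
    ∑ n ∈ s, X / (X + ((n : ℝ) + 1) ^ 2) ≤ 2 * Real.sqrt X := by
  set r := Real.sqrt X with hr
  have hr0 : 0 < r := Real.sqrt_pos.2 hX
  have hrr : r * r = X := Real.mul_self_sqrt hX.le
  obtain ⟨N, hN⟩ := s.exists_nat_subset_range
  have h1 : ∀ N : ℕ, ∑ n ∈ range N, X / (X + ((n : ℝ) + 1) ^ 2) ≤
      2 * X * (1 / r - 1 / (r + N)) := by
    intro N
    induction N with
    | zero => simp
    | succ N ih =>
      rw [sum_range_succ]
      have hN0 : (0 : ℝ) ≤ N := Nat.cast_nonneg N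
      have h2 : X / (X + ((N : ℝ) + 1) ^ 2) ≤ 2 * X * (1 / (r + N) - 1 / (r + (N + 1))) := by
        rw [div_sub_div _ _ (by positivity) (by positivity), ← mul_div_assoc,
          div_le_div_iff₀ (by positivity) (by positivity)]
        have e : 1 * (r + ((N : ℝ) + 1)) - (r + N) * 1 = 1 := by ring
        rw [e, mul_one]
        have h3 : (r + N) * (r + (N + 1)) ≤ 2 * (X + ((N : ℝ) + 1) ^ 2) := by
          nlinarith [sq_nonneg (r - (N + 1))]
        nlinarith [mul_le_mul_of_nonneg_left h3 hX.le]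
      push_cast
      linarith
  refine (sum_le_sum_of_subset_of_nonneg hN fun n _ _ => by positivity).trans
    ((h1 N).trans ?_)
  have h4 : (0 : ℝ) ≤ 1 / (r + N) := by positivity
  have h5 : 2 * X * (1 / r) = 2 * r := by
    rw [← hrr]; field_simp
  nlinarith [mul_nonneg (by positivity : 0 ≤ 2 * X) h4]

lemma sum_lor_int {X : ℝ} (hX : 0 < X) (Q : Finset ℤ) :
    ∑ q ∈ Q, X / (X + (q : ℝ) ^ 2) ≤ 1 + 4 * Real.sqrt X := by
  classical
  have key : ∀ P : Finset ℤ, (∀ q ∈ P, q ≠ 0) → Set.InjOn Int.natAbs (P : Set ℤ) →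
      ∑ q ∈ P, X / (X + (q : ℝ) ^ 2) ≤ 2 * Real.sqrt X := by
    intro P hP hinj
    have h1 := sum_lor_nat hX (P.image fun q => q.natAbs - 1)
    rw [sum_image] at h1
    · refine le_trans (le_of_eq ?_) h1
      refine sum_congr rfl fun q hq => ?_
      have h3 : 1 ≤ q.natAbs := Nat.one_le_iff_ne_zero.2 (Int.natAbs_ne_zero.2 (hP q hq))
      have h4 : ((q.natAbs - 1 : ℕ) : ℝ) + 1 = (q.natAbs : ℝ) := by
        rw [Nat.cast_sub h3]; push_cast; ring
      rw [h4]
      congr 2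
      rw [Nat.cast_natAbs, Int.cast_abs, sq_abs]
    · intro a ha b hb hab
      have h3 : 1 ≤ a.natAbs := Nat.one_le_iff_ne_zero.2 (Int.natAbs_ne_zero.2 (hP a ha))
      have h3' : 1 ≤ b.natAbs := Nat.one_le_iff_ne_zero.2 (Int.natAbs_ne_zero.2 (hP b hb))
      refine hinj ha hb ?_
      simp only at hab
      omega
  have hsplit : ∑ q ∈ Q, X / (X + (q : ℝ) ^ 2) ≤
      1 + (∑ q ∈ Q.filter (fun q => 0 < q), X / (X + (q : ℝ) ^ 2) +
        ∑ q ∈ Q.filter (fun q => q < 0), X / (X + (q : ℝ) ^ 2)) := by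
    rw [sum_filter, sum_filter, ← sum_add_distrib]
    have h1 : ∑ q ∈ Q, X / (X + (q : ℝ) ^ 2) ≤ ∑ q ∈ Q, ((if q = 0 then (1 : ℝ) else 0) +
        ((if 0 < q then X / (X + (q : ℝ) ^ 2) else 0) +
          (if q < 0 then X / (X + (q : ℝ) ^ 2) else 0))) := by
      refine sum_le_sum fun q _ => ?_
      rcases lt_trichotomy q 0 with h | h | h
      · rw [if_neg (by omega), if_neg (by omega), if_pos h]; simp
      · rw [if_pos h, if_neg (by omega), if_neg (by omega), h]
        simp only [Int.cast_zero]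
        rw [zero_pow two_ne_zero, add_zero, div_self hX.ne']
        simp
      · rw [if_neg (by omega), if_pos h, if_neg (by omega)]; simp
    refine h1.trans ?_
    rw [sum_add_distrib]
    refine add_le_add_left ?_ _
    rw [sum_ite_eq']
    split_ifs <;> norm_num
  refine hsplit.trans ?_
  have h2 := key (Q.filter fun q => 0 < q) (fun q hq => by
    have := (mem_filter.1 hq).2; omega) (fun a ha b hb hab => by
      have h3 := (mem_filter.1 (mem_coe.1 ha)).2
      have h4 := (mem_filter.1 (mem_coe.1 hb)).2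
      omega)
  have h3 := key (Q.filter fun q => q < 0) (fun q hq => by
    have := (mem_filter.1 hq).2; omega) (fun a ha b hb hab => by
      have h3 := (mem_filter.1 (mem_coe.1 ha)).2
      have h4 := (mem_filter.1 (mem_coe.1 hb)).2
      omega)
  linarith

lemma sum_gauss_le {X : ℝ} (hX : 0 < X) (Q : Finset ℤ) :
    ∑ q ∈ Q, Real.exp (-(2 * Real.pi ^ 2 * q ^ 2 / X)) ≤ 1 + 4 * Real.sqrt X := by
  refine (sum_le_sum fun q _ => ?_).trans (sum_lor_int hX Q)
  have hq : 0 ≤ (q : ℝ) ^ 2 := sq_nonneg _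
  have h1 : 1 + (q : ℝ) ^ 2 / X ≤ Real.exp (2 * Real.pi ^ 2 * q ^ 2 / X) := by
    refine le_trans ?_ (Real.add_one_le_exp _)
    have h2 : (q : ℝ) ^ 2 / X ≤ 2 * Real.pi ^ 2 * q ^ 2 / X := by
      refine div_le_div_of_nonneg_right ?_ hX.le
      have : (1 : ℝ) ≤ 2 * Real.pi ^ 2 := by nlinarith [Real.pi_gt_three]
      nlinarith
    linarith
  rw [Real.exp_neg]
  have h3 : X / (X + (q : ℝ) ^ 2) = (1 + (q : ℝ) ^ 2 / X)⁻¹ := by
    field_simp
  rw [h3]
  exact inv_anti₀ (by positivity) h1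

/-! ### the constant mode -/

section

variable {V : Type} [Fintype V] [DecidableEq V] {w : (V → ℤ) → ℝ}

lemma qf_one_one (t : ℝ) : qf (t • (1 : Matrix V V ℝ)) 1 = t * Fintype.card V := by
  rw [qf_smul_one]
  simp

/-- **half step of the activities**: the constant mode gives a Gaussian factor -/
theorem om_half [Nonempty V] {t : ℝ} (ht : 0 < t) (h : WM w (t • (1 : Matrix V V ℝ))) (q : ℤ) :
    om w (t • (1 : Matrix V V ℝ)) q ≤
      Real.exp (-(Real.pi ^ 2 * q ^ 2 / (t * Fintype.card V))) *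
        om w ((2 * t) • (1 : Matrix V V ℝ)) q := by
  have hcard : (0 : ℝ) < Fintype.card V := Nat.cast_pos.2 Fintype.card_pos
  set X : ℝ := t * Fintype.card V with hX
  have hX0 : 0 < X := by positivity
  set σ : ℝ := 1 / (2 * X) with hσ
  have hσ0 : 0 ≤ σ := by positivity
  have hqf : qf (t • (1 : Matrix V V ℝ)) 1 = X := qf_one_one t
  have hσ1 : σ * qf (t • (1 : Matrix V V ℝ)) 1 = 1 / 2 := by
    rw [hqf, hσ]; field_simp
  have hnn : ∀ u : V → ℝ, 0 ≤ qf (t • (1 : Matrix V V ℝ)) u := fun u => by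
    rw [qf_smul_one]
    exact mul_nonneg ht.le (sum_nonneg fun _ _ => sq_nonneg _)
  have h1 := H896.Ph_const h hnn hσ0 (by rw [hσ1]; norm_num) q 0
  have hwU : WM w (Mup (t • (1 : Matrix V V ℝ)) σ) :=
    (H896.chn_dir (M' := t • (1 : Matrix V V ℝ)) (σ := σ) 1 h.sym hnn hσ0
      (by rw [hσ1]; norm_num)).wm h
  rw [H896.Ph_zero h, H896.Ph_zero hwU] at h1
  have h2 : om w (t • (1 : Matrix V V ℝ)) q =
      Real.exp (-(2 * Real.pi ^ 2 * q ^ 2 * σ)) * om w (Mup (t • (1 : Matrix V V ℝ)) σ) q := by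
    exact_mod_cast h1
  -- the upper mass is `2 t` on the constants and `t` on the rest
  set P : Matrix V V ℝ := Matrix.of fun _ _ => (Fintype.card V : ℝ)⁻¹ with hP
  have hPt : P.transpose = P := by
    ext x y
    rfl
  have hPP : P * P = P := by
    ext x y
    rw [Matrix.mul_apply]
    simp only [hP, Matrix.of_apply, sum_const, card_univ, nsmul_eq_mul]
    field_simp
  have hMup : Mup (t • (1 : Matrix V V ℝ)) σ = t • (1 : Matrix V V ℝ) + t • P := by
    unfold Mup
    rw [hσ1]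
    congr 1
    ext x y
    have e1 : ∀ x : V, ((t • (1 : Matrix V V ℝ)).mulVec 1) x = t := by
      intro x
      rw [Matrix.smul_mulVec, Matrix.one_mulVec]
      simp
    rw [Matrix.smul_apply, Matrix.smul_apply, Matrix.vecMulVec_apply, e1, e1, hP,
      Matrix.of_apply, smul_eq_mul, smul_eq_mul, hσ, hX]
    field_simp
    norm_num
  have hch : Chn ((2 * t) • (1 : Matrix V V ℝ)) (t • (1 : Matrix V V ℝ) + t • P)
      (√(1 / (2 * t)) • (1 - P)) ((√(1 / (2 * t)) * (2 * t) / (1 + 1 / (2 * t) * (2 * t))) •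
        (1 - P)) := by
    have hPQ : P * (1 - P) = 0 := by
      rw [Matrix.mul_sub, Matrix.mul_one, hPP, sub_self]
    have hQQ : (1 - P) * (1 - P) = 1 - P := by
      rw [Matrix.sub_mul, Matrix.one_mul, hPQ, sub_zero]
    have h3 := H896.chn_proj (M := (2 * t) • (1 : Matrix V V ℝ)) (Q := 1 - P) (τ := 2 * t)
      (σ := 1 / (2 * t)) (by rw [Matrix.transpose_smul, Matrix.transpose_one])
      (fun u => by
        rw [qf_smul_one]
        exact mul_nonneg (by linarith) (sum_nonneg fun _ _ => sq_nonneg _))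
      (by rw [Matrix.transpose_sub, Matrix.transpose_one, hPt]) hQQ
      (by rw [Matrix.smul_mul, Matrix.one_mul]) (by linarith) (by positivity)
    have e : (2 * t) • (1 : Matrix V V ℝ) - (1 / (2 * t) * (2 * t) ^ 2 /
        (1 + 1 / (2 * t) * (2 * t))) • (1 - P) = t • (1 : Matrix V V ℝ) + t • P := by
      have e1 : 1 / (2 * t) * (2 * t) ^ 2 / (1 + 1 / (2 * t) * (2 * t)) = t := by
        field_simp
        norm_num
      rw [e1, smul_sub, two_mul, add_smul]
      abel
    rw [e] at h3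
    exact h3
  have h4 : om w (t • (1 : Matrix V V ℝ) + t • P) q ≤ om w ((2 * t) • (1 : Matrix V V ℝ)) q := by
    refine H896.om_mono hch ?_ q
    rw [← hMup]
    exact hwU
  rw [h2, hMup]
  have e5 : 2 * Real.pi ^ 2 * (q : ℝ) ^ 2 * σ = Real.pi ^ 2 * q ^ 2 / X := by
    rw [hσ]
    field_simp
  rw [e5]
  exact mul_le_mul_of_nonneg_left h4 (Real.exp_pos _).le

/-- **the sum of the activities `|q| ≥ 2` at mass `t` from `ch2` at mass `2 t`** -/
theorem Om_sub_le [Nonempty V] {t : ℝ} (ht : 0 < t) (h : WP w (t • (1 : Matrix V V ℝ)))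
    (h2 : WM w ((2 * t) • (1 : Matrix V V ℝ))) :
    Om w (t • (1 : Matrix V V ℝ)) - 2 * om w (t • (1 : Matrix V V ℝ)) 1 ≤
      Real.sqrt (1 + 4 * Real.sqrt (t * Fintype.card V)) *
        ch2 w ((2 * t) • (1 : Matrix V V ℝ)) 0 := by
  have hcard : (0 : ℝ) < Fintype.card V := Nat.cast_pos.2 Fintype.card_pos
  set X : ℝ := t * Fintype.card V with hX
  have hX0 : 0 < X := by positivity
  have hs := H896.hasSum_om h
  have hfin : ∀ Q : Finset ℤ, ({0, 1, -1} : Finset ℤ) ⊆ Q →
      ∑ q ∈ Q, om w (t • (1 : Matrix V V ℝ)) q ≤ 1 + 2 * om w (t • (1 : Matrix V V ℝ)) 1 +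
        Real.sqrt (1 + 4 * Real.sqrt X) * ch2 w ((2 * t) • (1 : Matrix V V ℝ)) 0 := by
    intro Q hQ
    rw [← sum_sdiff hQ]
    have e1 : ∑ q ∈ ({0, 1, -1} : Finset ℤ), om w (t • (1 : Matrix V V ℝ)) q =
        1 + 2 * om w (t • (1 : Matrix V V ℝ)) 1 := by
      rw [sum_insert (by decide), sum_insert (by decide), sum_singleton, H896.om_zero h.toWM,
        H896.om_neg h.toWM]
      ring
    rw [e1]
    have hQ2 : ∀ q ∈ Q \ ({0, 1, -1} : Finset ℤ), (2 : ℝ) ≤ |(q : ℝ)| := by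
      intro q hq
      have h3 := (mem_sdiff.1 hq).2
      simp only [mem_insert, mem_singleton] at h3
      have h4 : (2 : ℤ) ≤ |q| := by
        rcases lt_or_ge q 0 with h5 | h5
        · rw [abs_of_neg h5]; omega
        · rw [abs_of_nonneg h5]; omega
      exact_mod_cast h4
    have h5 := nq_le_ch2 (w := w) h2.sym h2.em 0 hQ2
    have h6 : ∑ q ∈ Q \ ({0, 1, -1} : Finset ℤ), om w (t • (1 : Matrix V V ℝ)) q ≤
        Real.sqrt (1 + 4 * Real.sqrt X) * ch2 w ((2 * t) • (1 : Matrix V V ℝ)) 0 := by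
      calc ∑ q ∈ Q \ ({0, 1, -1} : Finset ℤ), om w (t • (1 : Matrix V V ℝ)) q
          ≤ ∑ q ∈ Q \ ({0, 1, -1} : Finset ℤ), Real.exp (-(Real.pi ^ 2 * q ^ 2 / X)) *
            om w ((2 * t) • (1 : Matrix V V ℝ)) q :=
            sum_le_sum fun q _ => om_half ht h.toWM q
        _ ≤ Real.sqrt (∑ q ∈ Q \ ({0, 1, -1} : Finset ℤ),
              Real.exp (-(Real.pi ^ 2 * q ^ 2 / X)) ^ 2) *
            Real.sqrt (∑ q ∈ Q \ ({0, 1, -1} : Finset ℤ),
              om w ((2 * t) • (1 : Matrix V V ℝ)) q ^ 2) :=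
            Real.sum_mul_le_sqrt_mul_sqrt _ _ _
        _ ≤ _ := by
            refine mul_le_mul ?_ ?_ (Real.sqrt_nonneg _) (Real.sqrt_nonneg _)
            · refine Real.sqrt_le_sqrt (le_trans (le_of_eq ?_) (sum_gauss_le hX0
                (Q \ ({0, 1, -1} : Finset ℤ))))
              refine sum_congr rfl fun q _ => ?_
              rw [← Real.exp_nat_mul]
              congr 1
              push_cast
              ring
            · refine le_trans (le_of_eq ?_) h5
              unfold nq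
              congr 1
              refine sum_congr rfl fun q _ => ?_
              rw [norm_Phq_zero h2]
    linarith
  have hlim := le_of_tendsto hs (b := 1 + 2 * om w (t • (1 : Matrix V V ℝ)) 1 +
        Real.sqrt (1 + 4 * Real.sqrt X) * ch2 w ((2 * t) • (1 : Matrix V V ℝ)) 0)
    (Filter.eventually_atTop.2 ⟨{0, 1, -1}, fun Q hQ => hfin Q hQ⟩)
  linarith

end

end

end Vale.Agent.P159.H415
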