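import Vale.Agent.P159.H415.RefT
import Vale.Agent.P159.H415.Sum
import Vale.Agent.P159.H963.NeuD
import Vale.Agent.P159.H363.Inst
import Vale.Agent.P159.H552.In5b
import Vale.Agent.P159.H612.Local3
import Vale.Agent.P159.H159.Inst

/-!
P159, module CH2 (helper415), part 10: **the charges `|q| ≥ 2` on the torus**, one window.
Fine mass `t` (scalar), cells of side `l`, coarse mass `τ` (scalar).
-/

set_option linter.unusedSectionVars false

namespace Vale.Agent.P159.H415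

open MeasureTheory ProbabilityTheory Finset Matrix
open Vale.Agent.P159.H37 (gau Zn Un ZM Zq wM wt qf qf_eq qf_smul Rs cellP)
open Vale.Agent.P159.H764 (NC cm Nt shc UN ZM_cm Zn_cm Un_cm)
open Vale.Agent.P159.H864 (MC cobV cl up cobV_tr_mulVec cobV_mul_tr cellP_eq MC_eq)
open Vale.Agent.P159.H896 (Chn WM WP om Om wp_t chn_row)
open Vale.Agent.P159.H43 (ch2 Phq)
open Vale.Agent.P159.H963 (An GW gw_wT mf_smul nwt ntr)
open Vale.Agent.P159.H552 (lft cutB measurable_cutB cutB_congr cutB_add)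
open Vale.Agent.P159.H145 (cs)
open Vale.Agent.P159.TM.H104 (EM Ex Cv Gr li dU U Cf)
open Vale.Agent.P159.TM.H859 (dirE tn logCut logCut_eq_one)
open Vale.Agent.P159.TM.Spec (V)
open Vale.Agent.P159.TM.SpecC (Tor wT)

noncomputable section

/-! ### `Om` decreases -/

section om

variable {V : Type} [Fintype V] {w : (V → ℤ) → ℝ} {I : Type} [Fintype I]
variable {M M' : Matrix V V ℝ} {B : Matrix V I ℝ} {K : Matrix I V ℝ}

theorem Om_mono (h : Chn M M' B K) (hw' : WP w M') (hw : WP w M) : Om w M' ≤ Om w M := by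
  have h1 := H896.hasSum_om hw'
  have h2 := H896.hasSum_om hw
  have h3 := hasSum_le (fun q => H896.om_mono h hw'.toWM q) h1 h2
  linarith

theorem Om_scalar [DecidableEq V] {s t : ℝ} (hs : 0 < s) (hst : s ≤ t)
    (hw : WP w (s • (1 : Matrix V V ℝ))) (hw2 : WP w (t • (1 : Matrix V V ℝ))) :
    Om w (s • (1 : Matrix V V ℝ)) ≤ Om w (t • (1 : Matrix V V ℝ)) := by
  obtain ⟨K, σ, _, h⟩ := chn_scalar (V := V) hs hst
  exact Om_mono h hw hw2

theorem ch_of_Om [DecidableEq V] {t ω : ℝ} (hw : WP w (t • (1 : Matrix V V ℝ)))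
    (hpos : ∀ F, 0 ≤ Nt w t F) (hω : Om w (t • (1 : Matrix V V ℝ)) ≤ ω) : CH w t ω := by
  intro F
  have h1 := H896.abs_ZM_sub_le hw F 0
  have e : (fun x => F x + 0) = F := by funext x; simp
  rw [e, ZM_cm, Zn_cm] at h1
  exact h1.trans (mul_le_mul_of_nonneg_right hω (hpos F))

end om

variable {N l : ℕ} [NeZero N] [NeZero (N / l)] {b t τ : ℝ}

/-! ### the standing hypotheses -/

lemma wT_one (h : V N → ℤ) : wT b N (h + 1) = wT b N h := by
  have h1 := (H963.grI_wT (N := N) (b := b)) h 1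
  exact h1

lemma Nt_pos_wT (hb : 0 ≤ b) (ht : 0 < t) (F : V N → ℝ) : 0 < Nt (wT b N) t F :=
  Nt_pos (H789.wT_nonneg hb N) (H789.wT_le hb) ⟨0, H789.wT_zero_pos hb⟩ ht F

theorem ch_wT (hb : 0 ≤ b) (ht : 0 < t) {ω : ℝ}
    (hω : Om (wT b N) (t • (1 : Matrix (V N) (V N) ℝ)) ≤ ω) : CH (wT b N) t ω :=
  ch_of_Om (wp_t hb ht) (fun F => (Nt_pos_wT hb ht F).le) hω

lemma Cf_nonneg_wT (hb : 0 ≤ b) (ht : 0 < t) (F : V N → ℝ) (x y : V N) :
    0 ≤ Cf (wT b N) (cm t) F (fun h => (h x : ℝ)) (fun h => (h y : ℝ)) := by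
  have e : TM.H104.bw (wT b N) (cm t : V N → ℝ) = wt N b t := (H864.wt_eq_bw t).symm
  rw [TM.H104.Cf_eq, e]
  have hE : EM (wt N b t) := (wp_t (N := N) hb ht).em
  refine H612.fkg hE (H159.hol_wt hb N t) _ ?_ ?_ ?_ ?_
  · have h1 := Gr.li (fun z : V N => if z = x then (1 : ℝ) else 0)
    have e1 : (li fun z : V N => if z = x then (1 : ℝ) else 0) = fun h : V N → ℤ => (h x : ℝ) := by
      funext h
      simp [li]
    rwa [e1] at h1
  · have h1 := Gr.li (fun z : V N => if z = y then (1 : ℝ) else 0)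
    have e1 : (li fun z : V N => if z = y then (1 : ℝ) else 0) = fun h : V N → ℤ => (h y : ℝ) := by
      funext h
      simp [li]
    rwa [e1] at h1
  · intro h k hk
    show ((h x : ℤ) : ℝ) ≤ (k x : ℝ)
    exact_mod_cast hk x
  · intro h k hk
    show ((h y : ℤ) : ℝ) ≤ (k y : ℝ)
    exact_mod_cast hk y

theorem nc_wT (hb : 0 ≤ b) (ht : 0 < t) {ω : ℝ} (hω1 : ω < 1)
    (hω : Om (wT b N) ((2 * t) • (1 : Matrix (V N) (V N) ℝ)) ≤ ω) : NC (wT b N) t ω where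
  ω0 := (H896.Om_nonneg (wp_t hb (by linarith))).trans hω
  ω1 := hω1
  fkg := Cf_nonneg_wT hb ht
  chg := ch_wT hb (by linarith) hω

/-- the gradient of the free energy in the letters of the language file -/
lemma dU_wT (F g : V N → ℝ) :
    dU (wT b N) (cm t) F g = (∑ x, t * g x * F x) - Ex (wt N b t) (t • F) (li (t • g)) := by
  have e : TM.H104.bw (wT b N) (cm t : V N → ℝ) = wt N b t := (H864.wt_eq_bw t).symm
  unfold TM.H104.dU
  rw [TM.H104.Ex_eq, e]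
  have e1 : TM.H104.mf (cm t) F = t • F := by
    funext x
    simp [TM.H104.mf, cm]
  have e2 : (TM.H870.lin (cm t) g : (V N → ℤ) → ℝ) = li (t • g) := by
    funext h
    simp only [TM.H870.lin, li, cm, Pi.smul_apply, smul_eq_mul]
  rw [e1, e2]

/-! ### the cells -/

/-- the lift of cell fields -/
def Lf (N l : ℕ) [NeZero N] [NeZero (N / l)] : Matrix (V N) (V (N / l)) ℝ :=
  (l : ℝ) • (cobV N l)ᵀ

lemma l_pos' (hl : l ∣ N) : (0 : ℝ) < l := by
  have h1 : 0 < l := Nat.pos_of_dvd_of_pos hl (NeZero.pos N)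
  exact_mod_cast h1

lemma Lf_mulVec (hl : l ∣ N) (φ : V (N / l) → ℝ) : Lf N l *ᵥ φ = lft cl φ := by
  have h0 := (l_pos' hl).ne'
  funext x
  unfold Lf
  rw [smul_mulVec, Pi.smul_apply, cobV_tr_mulVec, smul_eq_mul, ← mul_assoc, mul_inv_cancel₀ h0,
    one_mul]
  rfl

/-- the value of a field on the cells (at the site `up c` of the cell `c`) -/
def rpr (F : V N → ℝ) : V (N / l) → ℝ := fun c => F (up c)

lemma rpr_lft (hl : l ∣ N) (φ : V (N / l) → ℝ) : rpr (lft cl φ) = φ := by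
  funext c
  show φ (cl (up c)) = φ c
  rw [H864.cl_up hl]

lemma measurable_rpr : Measurable (rpr : (V N → ℝ) → V (N / l) → ℝ) :=
  measurable_pi_iff.2 fun c => measurable_pi_apply (up c)

lemma continuous_rpr : Continuous (rpr : (V N → ℝ) → V (N / l) → ℝ) :=
  continuous_pi fun c => continuous_apply (up c)

lemma continuous_lft : Continuous (lft (cl : V N → V (N / l)) : (V (N / l) → ℝ) → V N → ℝ) :=
  continuous_pi fun x => continuous_apply (cl x)

/-- the good set of fine fields -/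
def gdf (G : Set (V (N / l) → ℝ)) : Set (V N → ℝ) :=
  {F | (rpr F : V (N / l) → ℝ) ∈ G ∧ F = lft (cl : V N → V (N / l)) (rpr F : V (N / l) → ℝ)}

lemma measurableSet_gdf {G : Set (V (N / l) → ℝ)} (hG : MeasurableSet G) :
    MeasurableSet (gdf (N := N) G) := by
  refine MeasurableSet.inter (measurable_rpr hG) ?_
  exact (isClosed_eq continuous_id (continuous_lft.comp continuous_rpr)).measurableSet

lemma mem_gdf (hl : l ∣ N) {G : Set (V (N / l) → ℝ)} (φ : V (N / l) → ℝ) :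
    lft cl φ ∈ gdf (N := N) G ↔ φ ∈ G := by
  constructor
  · intro h
    have h1 : (rpr (lft cl φ : V N → ℝ) : V (N / l) → ℝ) ∈ G := h.1
    rwa [rpr_lft hl] at h1
  · intro h
    refine ⟨?_, ?_⟩
    · show (rpr (lft cl φ : V N → ℝ) : V (N / l) → ℝ) ∈ G
      rwa [rpr_lft hl]
    · show lft cl φ = lft (cl : V N → V (N / l)) (rpr (lft cl φ : V N → ℝ) : V (N / l) → ℝ)
      rw [rpr_lft hl]

/-- the cut map on fine fields -/
def ctf (Bc : Finset (V (N / l))) (c : V (N / l)) (F : V N → ℝ) : V N → ℝ :=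
  lft cl (cutB Bc c (rpr F))

lemma cut_ctf (Bc : Finset (V (N / l))) (hBc : ∀ c ∈ Bc, (cl (up c : V N) : V (N / l)) = c)
    {c : V (N / l)} (hc : c ∈ Bc) :
    Cut {x : V N | cl x ∈ Bc} (ctf (N := N) Bc c) where
  meas := (continuous_lft.measurable).comp ((measurable_cutB Bc c).comp measurable_rpr)
  shift F r := by
    unfold ctf
    have e : rpr (fun x => F x + r) = fun c => (rpr F : V (N / l) → ℝ) c + r := rfl
    rw [e, cutB_add]
    rfl
  loc F F' h := by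
    unfold ctf
    rw [cutB_congr hc]
    intro c' hc'
    exact h (up c') (by show cl (up c') ∈ Bc; rw [hBc c' hc']; exact hc')

/-! ### the channel -/

/-- the channel from the scalar mass `t` to the cell mass `τ` -/
lemma chn_cells (hl : l ∣ N) (ht : 0 < t) (hτ : 0 < τ) (hτt : τ ≤ t) :
    ∃ K : Matrix (V (N / l)) (V N) ℝ, Chn (t • (1 : Matrix (V N) (V N) ℝ)) (MC N l t τ)
      ((√(1 / τ - 1 / t) / l) • Lf N l) K := by
  have hl0 := (l_pos' hl).ne'
  set σ := 1 / τ - 1 / t with hσ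
  have hσ0 : 0 ≤ σ := sub_nonneg.2 (one_div_le_one_div_of_le hτ hτt)
  have h1 := chn_row (M := t • (1 : Matrix (V N) (V N) ℝ)) (R := cobV N l) (τ := t) (σ := σ)
    (by rw [transpose_smul, transpose_one])
    (fun u => by
      rw [H37.qf_smul_one]
      exact mul_nonneg ht.le (sum_nonneg fun _ _ => sq_nonneg _))
    (cobV_mul_tr hl) (by rw [Matrix.smul_mul, Matrix.one_mul]) ht.le hσ0
  refine ⟨(√σ * t / (1 + σ * t)) • cobV N l, ?_⟩
  have e1 : (√σ / (l : ℝ)) • Lf N l = √σ • (cobV N l)ᵀ := by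
    unfold Lf
    rw [smul_smul, div_mul_cancel₀ _ hl0]
  have e2 : t • (1 : Matrix (V N) (V N) ℝ) - (σ * t ^ 2 / (1 + σ * t)) •
      ((cobV N l)ᵀ * cobV N l) = MC N l t τ := by
    have e0 : 1 + σ * t = t / τ := by
      rw [hσ, sub_mul, one_div, one_div, inv_mul_cancel₀ ht.ne']
      ring
    have e3 : σ * t ^ 2 / (1 + σ * t) = t - τ := by
      rw [e0, hσ]
      field_simp
    rw [e3, MC_eq, cellP_eq hl]
  rw [e1]
  rw [e2] at h1
  exact h1

/-- **CH2 on the torus**, one window: fine mass `t`, cells of side `l`, coarse mass `τ`.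
`Ac` = neutral stiffness of the cell heights, `G` = good set of cell fields. -/
theorem ch2_torus (hl : l ∣ N) (hb : 0 ≤ b) (ht : 0 < t) (hτ : 0 < τ) (hτt : τ < t)
    {ω : ℝ} (hω : ω ≤ 1 / 2)
    (hOm : Om (wT b N) ((2 * t) • (1 : Matrix (V N) (V N) ℝ)) ≤ ω) {x₀ : V N}
    {Ac : Matrix (V (N / l)) (V (N / l)) ℝ} (hAs : Acᵀ = Ac)
    (hAq : ∀ φ, qf Ac φ = qf (An (wT b N) (t • (1 : Matrix (V N) (V N) ℝ)) t x₀) (lft cl φ))
    {a : ℝ} (ha0 : 0 ≤ a) (ha : ∀ u, (Ac *ᵥ u) ⬝ᵥ u ≤ a * dirE u)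
    {ι : Type} (S : Finset ι) (g : ι → V N → ℝ) (hg1 : ∑ i ∈ S, g i = fun _ => 1)
    (hg : ∀ i ∈ S, t * ∑ x, g i x ^ 2 ≤ 1) (c : ι → V (N / l)) {D : ℕ} {r₀ L : ℝ}
    (hr₀ : 10 ≤ r₀) (hDr : √2 * D ≤ r₀) (hL : 2 ≤ L) (hN : 2 * (L * r₀ + 1) ≤ (N / l : ℕ))
    {G : Set (V (N / l) → ℝ)} (hG : MeasurableSet G) {η ε δ : ℝ} (hε : 0 ≤ ε) (hδ : 0 ≤ δ)
    (hδ1 : δ < 1)
    (hη : ∀ φ ∈ G, Rs (nwt N b t x₀) (ntr (t • (1 : Matrix (V N) (V N) ℝ)) t *ᵥ lft cl φ) ≤ η)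
    (hloc : ∀ φ ∈ G, ∀ i ∈ S, ∀ s ∈ Set.Icc (0 : ℝ) 1,
      |Ex (wt N b t) (t • cs (lft cl φ) s) (li (t • g i)) -
        Ex (wt N b t) (t • cs (lft cl (cutB (H462.box (c i) D) (c i) φ)) s) (li (t • g i))| ≤ ε)
    (hbad : ∫ z, Gᶜ.indicator
        (fun φ => Zn (wT b N) (t • (1 : Matrix (V N) (V N) ℝ)) (lft cl φ))
        ((√(1 / τ - 1 / t) / l) • z) ∂(gau (V (N / l))) ≤
      δ * ∫ z, Zn (wT b N) (t • (1 : Matrix (V N) (V N) ℝ))
        (lft cl ((√(1 / τ - 1 / t) / l) • z)) ∂(gau (V (N / l)))) :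
    ch2 (wT b N) (τ • (1 : Matrix (V N) (V N) ℝ)) 0 ≤
      2 * ω ^ 2 + S.card / (4 * Real.pi) *
        (5 / 2 * (ch2 (wT b N) ((2 * t) • (1 : Matrix (V N) (V N) ℝ)) 0 + 2 * ω ^ 2) *
          (Real.exp (-(8 * Real.pi ^ 2 / (a * ((1 + 68 / r₀) * (2 * Real.pi / Real.log L)) +
              ((1 / τ - 1 / t) / l ^ 2)⁻¹ * (2 * (L * r₀) + 1) ^ 2))) +
            (Real.exp η / (1 - δ) - 1) + 2 * δ) + ε) := by
  classical
  have h2t : 0 < 2 * t := by linarith
  have hl0 := l_pos' hl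
  have hw0 := H789.wT_nonneg hb N
  have hwb := H789.wT_le hb (N := N)
  have hp : ∃ h, 0 < wT b N h := ⟨0, H789.wT_zero_pos hb⟩
  have hs1 : ∀ h, wT b N (h + 1) = wT b N h := wT_one
  set σ0 := 1 / τ - 1 / t with hσ0
  have hσp : 0 < σ0 := sub_pos.2 (one_div_lt_one_div_of_lt hτ hτt)
  set σ := √σ0 / (l : ℝ) with hσ
  have hσσ : σ ^ 2 = σ0 / (l : ℝ) ^ 2 := by
    rw [hσ, div_pow, Real.sq_sqrt hσp.le]
  have hσ2 : 0 < σ ^ 2 := by rw [hσσ]; positivity
  -- channel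
  obtain ⟨K, hch⟩ := chn_cells (N := N) (l := l) hl ht hτ hτt.le
  rw [← hσ0, ← hσ] at hch
  have hwpC : WP (wT b N) (MC N l t τ) := by
    refine H896.wp_wT hb hτ (H864.MC_tr N l t τ) ?_
    exact fun u => H864.qf_MC_ge hl hτt.le u
  -- neutral free energy
  have hnc : NC (wT b N) t ω := nc_wT hb ht (by linarith) hOm
  have hOm1 : Om (wT b N) (t • (1 : Matrix (V N) (V N) ℝ)) ≤ ω :=
    (Om_scalar ht (by linarith) (wp_t hb ht) (wp_t hb h2t)).trans hOm
  have hcc : CH (wT b N) t ω := ch_wT hb ht hOm1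
  set Anm := An (wT b N) (t • (1 : Matrix (V N) (V N) ℝ)) t x₀ with hAnm
  have hUeq : ∀ F, UN (wT b N) t F = qf Anm F / 2 -
      Rs (nwt N b t x₀) (ntr (t • (1 : Matrix (V N) (V N) ℝ)) t *ᵥ F) := by
    intro F
    rw [← Un_cm]
    exact (gw_wT hb).Un_eq (mf_smul ht) x₀ F
  have hU : ∀ F, UN (wT b N) t F ≤ qf Anm F / 2 := by
    intro F
    rw [← Un_cm]
    exact (gw_wT hb).Un_le (mf_smul ht) x₀ F
  have hAn0 : ∀ φ, 0 ≤ qf Ac φ := by
    intro φ
    rw [hAq]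
    exact (gw_wT hb).qf_An_nonneg (mf_smul ht) x₀ _
  obtain ⟨⟨Gs, hGs⟩, hdet⟩ := exists_sqrt hAs hAn0 (σ := σ)
  have hRef := ref_tilt hw0 hwb hp ht hU (Lf := Lf N l) hAs
    (fun φ => by rw [hAq, Lf_mulVec hl]) hAn0 hGs
  -- good set
  have hgm := measurableSet_gdf (N := N) hG
  have hind : ∀ z : V (N / l) → ℝ, (gdf (N := N) G)ᶜ.indicator
      (fun F => Nt (wT b N) t F) ((σ • Lf N l) *ᵥ z) =
      Gᶜ.indicator (fun φ => Zn (wT b N) (t • (1 : Matrix (V N) (V N) ℝ)) (lft cl φ))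
        (σ • z) := by
    intro z
    have e1 : (σ • Lf N l) *ᵥ z = lft cl (σ • z) := by
      rw [smul_mulVec, ← mulVec_smul, Lf_mulVec hl]
    rw [e1]
    by_cases hz : σ • z ∈ G
    · rw [Set.indicator_of_notMem (fun h' : lft cl (σ • z) ∈ (gdf (N := N) G)ᶜ =>
          h' ((mem_gdf hl _).2 hz)),
        Set.indicator_of_notMem (fun h' : σ • z ∈ Gᶜ => h' hz)]
    · rw [Set.indicator_of_mem (show lft cl (σ • z) ∈ (gdf (N := N) G)ᶜ from
          fun h' => hz ((mem_gdf hl _).1 h')),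
        Set.indicator_of_mem (show σ • z ∈ Gᶜ from hz), Zn_cm]
  have hNt : ∀ z : V (N / l) → ℝ, Nt (wT b N) t ((σ • Lf N l) *ᵥ z) =
      Zn (wT b N) (t • (1 : Matrix (V N) (V N) ℝ)) (lft cl (σ • z)) := by
    intro z
    have e1 : (σ • Lf N l) *ᵥ z = lft cl (σ • z) := by
      rw [smul_mulVec, ← mulVec_smul, Lf_mulVec hl]
    rw [e1, Zn_cm]
  have hbad' : ∫ z, (gdf (N := N) G)ᶜ.indicator (fun F => Nt (wT b N) t F)
      ((σ • Lf N l) *ᵥ z) ∂(gau (V (N / l))) ≤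
      δ * ∫ z, Nt (wT b N) t ((σ • Lf N l) *ᵥ z) ∂(gau (V (N / l))) := by
    simp_rw [hind, hNt]
    exact hbad
  have hη' : ∀ F ∈ gdf (N := N) G, RU (wT b N) t Anm F ≤ η := by
    intro F hF
    unfold RU
    rw [hUeq]
    have h1 := hη _ hF.1
    rw [← hF.2] at h1
    linarith
  have hθ := theta_of_good hRef hgm hδ1 hη' hbad'
  -- capacities
  have hΓ := gam_mul hσ2 hdet
  set Γi := Ac + (σ ^ 2)⁻¹ • (1 : Matrix (V (N / l)) (V (N / l)) ℝ) with hΓi
  set κ := a * ((1 + 68 / r₀) * (2 * Real.pi / Real.log L)) +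
    (σ0 / (l : ℝ) ^ 2)⁻¹ * (2 * (L * r₀) + 1) ^ 2 with hκ
  have hcap : ∀ i, (Γi *ᵥ logCut (c i) r₀ L) ⬝ᵥ logCut (c i) r₀ L ≤ κ := by
    intro i
    rw [hκ, ← hσσ]
    exact H363.cap_tor (inv_nonneg.2 hσ2.le) ha ha0 rfl (c i) hr₀ hL hN
  set u : ι → V (N / l) → ℝ := fun i => Gsᵀ *ᵥ (Γi *ᵥ logCut (c i) r₀ L) with hu
  have hcv : ∀ i, Gs *ᵥ (u i) = logCut (c i) r₀ L ∧
      ∑ j, (u i) j ^ 2 = (Γi *ᵥ logCut (c i) r₀ L) ⬝ᵥ logCut (c i) r₀ L := fun i =>
    cap_vec hGs hΓ _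
  have hcentre : ∀ i, c i ∈ H462.box (c i) D := by
    intro i
    rw [H462.mem_box]
    simp
  have hone : ∀ i, logCut (c i) r₀ L (c i) = 1 := by
    intro i
    exact logCut_eq_one ((H363.tn_le_of_box (hcentre i)).trans hDr)
  have hκ0 : ∀ i, 0 < ∑ j, (u i) j ^ 2 := by
    intro i
    refine lt_of_le_of_ne (sum_nonneg fun _ _ => sq_nonneg _) fun h0 => ?_
    have h1 : u i = 0 := by
      funext j
      have h2 := (sum_eq_zero_iff_of_nonneg (fun j _ => sq_nonneg (u i j))).1 h0.symm j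
        (mem_univ j)
      simpa using h2
    have h3 := (hcv i).1
    rw [h1, mulVec_zero] at h3
    have h4 := congrFun h3 (c i)
    rw [hone i] at h4
    simp at h4
  have key := ch2_rec (w := wT b N) hw0 hwb hp hs1 ht hω hnc hcc hch hwpC.toWM
    (wp_t hb h2t).toWM hRef hθ S g hg1 hg (fun i => {x : V N | cl x ∈ H462.box (c i) D})
    (fun i => ctf (N := N) (H462.box (c i) D) (c i))
    (fun i _ => cut_ctf _ (fun c' _ => H864.cl_up hl c') (hcentre i)) u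
    (fun i _ x hx => by
      rw [← mulVec_mulVec, (hcv i).1, Lf_mulVec hl]
      exact logCut_eq_one ((H363.tn_le_of_box hx).trans hDr))
    (fun i _ => hκ0 i) (κ := κ) (fun i _ => by rw [(hcv i).2]; exact hcap i) hgm hε hδ
    (fun F hF i hi => ⟨∑ x, t * g i x * (F x - ctf (N := N) (H462.box (c i) D) (c i) F x),
      fun s hs => by
        have h1 := hloc _ hF.1 i hi s hs
        rw [← hF.2] at h1
        have e1 : ∀ F : V N → ℝ, t • shc F s = t • cs F s := fun F => rfl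
        rw [dU_wT, dU_wT, e1, e1]
        have e2 : (∑ x, t * g i x * shc F s x) - (∑ x, t * g i x *
            shc (ctf (N := N) (H462.box (c i) D) (c i) F) s x) =
            ∑ x, t * g i x * (F x - ctf (N := N) (H462.box (c i) D) (c i) F x) := by
          rw [← sum_sub_distrib]
          refine sum_congr rfl fun x _ => ?_
          unfold shc
          ring
        rw [← e2, show ∀ p q r s : ℝ, p - q - (r - s) - (p - r) = -(q - s) from
          fun p q r s => by ring, abs_neg]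
        exact h1⟩) hbad'
  exact (ch2_cells hl hτ hτt.le (wp_t hb hτ).toWM).trans key

end

end Vale.Agent.P159.H415
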