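import Vale.Agent.P159.H316.St1
import Vale.Agent.P159.H415.EvE

/-!
P159 (helper415): `CHS` of helper316's contract (`H316.St1`), all inputs plugged.
-/

namespace Vale.Agent.P159.H415

open Vale.Agent.P159.H972 (Par)
open Vale.Agent.P159.H801 (Ev)

/-- **`CHS`**, for each `b ≥ b1` -/
theorem ev_chs {b b1 b2 pf : ℝ} (hb1 : 0 < b1) (h1 : b1 ≤ b) (hpf : 0 < pf) (Q : ℕ) :
    Ev b1 b2 pf Q fun P c1 => H316.CHS P b c1 := by
  refine (ev_ch2b (b2 := b2) hb1 h1 hpf Q).mono ?_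
  rintro P c1 - ⟨h2, h3, h4⟩
  exact ⟨fun n m e e' y y' g g' H g0 g1 g2 hZ => h3 c1 n m e e' y y' g g' h2 H g0 g1 g2 hZ,
    fun n e y he hes hy hye hyt => h4 n e y he hes hy hye hyt⟩

end Vale.Agent.P159.H415
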