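import Vale.Agent.P159.H415.Pers1
import Vale.Agent.P159.H316.St0
import Vale.Agent.P159.H316.Yb2
import Vale.Agent.P159.H963.LnkP
import Vale.Agent.P159.H197.Gf3
import Vale.Agent.P159.H889.Vpd
import Vale.Agent.P159.H816.Tyin

/-!
P159 (helper415), persistence of the zero background numbers relative to the activity, part 2:
**`PERS` of helper316's contract from `CRK`** (`ev_pers`).
-/

set_option linter.unusedSectionVars false

namespace Vale.Agent.P159.H415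

open Filter Topology
open Vale.Agent.P159.H864 (yt)
open Vale.Agent.P159.TM.Spec (V)
open Vale.Agent.P159.TM.SpecC (wT)
open Vale.Agent.P159.H896 (om)
open Vale.Agent.P159.H972 (lg tn Par Good GP)
open Vale.Agent.P159.H801 (Ev PS FLC)
open Vale.Agent.P159.H889 (Cx Cw SV TV VB lam nu Dc QP EvC)
open Vale.Agent.P159.H316 (CRK PERS Yn TyIn)

noncomputable section

lemma tn_sq (n i : ℕ) : tn n * ((2 ^ (n + i) : ℕ) : ℝ) ^ 2 = 4 ^ i := by
  have h4 : ∀ j : ℕ, (4 : ℝ) ^ j = (2 ^ j) ^ 2 := by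
    intro j
    rw [← pow_mul, mul_comm, pow_mul]
    norm_num
  unfold H972.tn
  rw [h4, h4]
  push_cast
  rw [pow_add]
  field_simp

lemma four_le_rpow {d : ℕ} : (4 : ℝ) ^ (d / 10) ≤ (2 : ℝ) ^ ((d : ℝ) / 4) := by
  have h3 : (4 : ℝ) ^ (d / 10) = (2 : ℝ) ^ (2 * ((d / 10 : ℕ) : ℝ)) := by
    rw [Real.rpow_mul (by norm_num), Real.rpow_natCast]
    norm_num
  have hdiv : ((d / 10 : ℕ) : ℝ) ≤ (d : ℝ) / 10 := Nat.cast_div_le
  rw [h3]
  refine Real.rpow_le_rpow_of_exponent_le (by norm_num) ?_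
  have : (0 : ℝ) ≤ d := Nat.cast_nonneg d
  linarith

/-- the first harmonic on the torus of the relation -/
lemma om_num {b : ℝ} (hb : 0 < b) {n i : ℕ} {A Y : ℝ} (hA : (4 : ℝ) ^ i ≤ A)
    (hY : yt (2 ^ (n + i)) b (4 * tn n) ≤ Y) (h1 : A * (4 * Y) ≤ 1) :
    om (wT b (2 ^ (n + i))) (tn n • (1 : Matrix (V (2 ^ (n + i))) (V (2 ^ (n + i))) ℝ)) 1 ≤
      A * Y := by
  have ht : 0 < tn n := H972.tn_pos n
  have h2 : yt (2 ^ (n + i)) b (tn n) ≤ 4 * Y :=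
    (H316.yt_four hb ht).trans (by linarith)
  have h0 : 0 ≤ yt (2 ^ (n + i)) b (tn n) := H864.yt_nonneg hb.le ht
  have h3 : tn n * ((2 ^ (n + i) : ℕ) : ℝ) ^ 2 * yt (2 ^ (n + i)) b (tn n) ≤ A * (4 * Y) := by
    rw [tn_sq]
    exact mul_le_mul hA h2 h0 (le_trans (by positivity) hA)
  have h4 := (H316.om_le_yt (N := 2 ^ (n + i)) hb ht (h3.trans h1)).2
  linarith

/-- **the numbers of the step** -/
lemma pers_num {K κ th thp e X Δ E z y Y yn om' η A B : ℝ} (he : 0 < e) (he1 : e ≤ 1)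
    (hz : 0 < z)
    (hyn : yn ≤ e ^ (-(1 * th)) * (z + X * Δ + E + η * om'))
    (hX : X * Δ ≤ z) (hEz : E ≤ e ^ (2 / 5 : ℝ) * z) (hη : η * om' ≤ z)
    (hK : K ≤ e ^ (-(κ * th)) * yn + B * e ^ (-(κ * th)) * Y + e ^ (1 / 2 : ℝ) * y)
    (hB : B ≤ e ^ (thp / 20)) (hY : Y = e ^ (-(thp / 20)) * z)
    (hy : y ≤ e ^ (-(1 / 100 : ℝ)) * z)
    (hA : 4 * (e ^ (-th) * e ^ (-(κ * th))) + e ^ (-(κ * th)) + 1 ≤ A) : K ≤ A * z := by
  have p0 : 0 < e ^ (-(κ * th)) := Real.rpow_pos_of_pos he _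
  have p1 : 0 < e ^ (-th) := Real.rpow_pos_of_pos he _
  have p2 : e ^ (2 / 5 : ℝ) ≤ 1 := Real.rpow_le_one he.le he1 (by norm_num)
  rw [one_mul] at hyn
  have h1 : yn ≤ 4 * e ^ (-th) * z := by
    have : e ^ (2 / 5 : ℝ) * z ≤ z := mul_le_of_le_one_left hz.le p2
    have h2 : z + X * Δ + E + η * om' ≤ 4 * z := by linarith
    calc yn ≤ _ := hyn
      _ ≤ e ^ (-th) * (4 * z) := mul_le_mul_of_nonneg_left h2 p1.le
      _ = _ := by ring
  have h2 : B * e ^ (-(κ * th)) * Y ≤ e ^ (-(κ * th)) * z := by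
    have h3 : B * e ^ (-(thp / 20)) ≤ 1 := by
      calc B * e ^ (-(thp / 20)) ≤ e ^ (thp / 20) * e ^ (-(thp / 20)) :=
            mul_le_mul_of_nonneg_right hB (Real.rpow_nonneg he.le _)
        _ = 1 := by rw [← Real.rpow_add he, add_neg_cancel, Real.rpow_zero]
    rw [hY]
    calc B * e ^ (-(κ * th)) * (e ^ (-(thp / 20)) * z)
        = (B * e ^ (-(thp / 20))) * (e ^ (-(κ * th)) * z) := by ring
      _ ≤ 1 * (e ^ (-(κ * th)) * z) := mul_le_mul_of_nonneg_right h3 (by positivity)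
      _ = _ := one_mul _
  have h3 : e ^ (1 / 2 : ℝ) * y ≤ z := by
    calc e ^ (1 / 2 : ℝ) * y ≤ e ^ (1 / 2 : ℝ) * (e ^ (-(1 / 100 : ℝ)) * z) :=
          mul_le_mul_of_nonneg_left hy (Real.rpow_nonneg he.le _)
      _ = e ^ (49 / 100 : ℝ) * z := by
          rw [← mul_assoc, ← Real.rpow_add he]
          norm_num
      _ ≤ 1 * z := mul_le_mul_of_nonneg_right
          (Real.rpow_le_one he.le he1 (by norm_num)) hz.le
      _ = z := one_mul z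
  have h4 : e ^ (-(κ * th)) * yn ≤ 4 * (e ^ (-th) * e ^ (-(κ * th))) * z := by
    calc e ^ (-(κ * th)) * yn ≤ e ^ (-(κ * th)) * (4 * e ^ (-th) * z) :=
          mul_le_mul_of_nonneg_left h1 p0.le
      _ = _ := by ring
  calc K ≤ _ := hK
    _ ≤ (4 * (e ^ (-th) * e ^ (-(κ * th))) + e ^ (-(κ * th)) + 1) * z := by linarith
    _ ≤ A * z := mul_le_mul_of_nonneg_right hA hz.le

/-- lengths, tori, sizes in a full window, in the order of constants -/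
theorem ev_pn {b1 b2 pf : ℝ} (Q : ℕ) {κ : ℝ} (hκ : 0 ≤ κ) :
    Ev b1 b2 pf Q fun P c1 => c1 ≤ 1 / 4 ∧ 2 ≤ P.C0 ∧ 0 < P.th ∧
      ∀ (n m : ℕ) (e : ℝ), 0 < e → e ≤ P.es → n + P.w e ≤ m → m ≤ n + 4 * P.w e →
        TV P n e (n + (m - n) / 10) ∧ P.TT n e (n + (m - n) / 10) ∧
        (4 : ℝ) ^ ((m - n) / 10) ≤ 2 * e ^ (-(4 / 5 * P.thp)) ∧
        (2 : ℝ) ^ (-(((m : ℝ) - n) / 20)) ≤ e ^ (P.thp / 20) ∧
        32 * e ^ (-(4 / 5 * P.thp)) * (e ^ (-(P.thp / 20)) *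
          (e ^ (-(1 / 100 : ℝ)) * e ^ (20 / 39 : ℝ))) ≤ 1 ∧
        2 * e ^ (-(4 / 5 * P.thp)) * e ^ (-(P.thp / 20)) * e ^ (8 * P.thp) ≤ 1 ∧
        4 * (e ^ (-P.th) * e ^ (-(κ * P.th))) + e ^ (-(κ * P.th)) + 1 ≤
          e ^ (-((κ + 2) * P.th)) := by
  refine H801.Ev.of ⟨0, fun W _ => ⟨1, one_pos, fun ys _ _ => ⟨0, fun X0 _ => ⟨1, one_pos,
    fun x1 hx1 _ => ⟨1 / 100, by norm_num, fun thp ht1 ht2 =>
    ⟨thp / (1000 * (κ + 3)), by positivity,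
    fun th hs1 hs2 => ⟨2, fun C0 hC0 => ⟨1 / 4, by norm_num, fun c1 _ hc2 => ?_⟩⟩⟩⟩⟩⟩⟩⟩
  have hthk : 1000 * (κ + 3) * th ≤ thp := by
    rw [le_div_iff₀ (by positivity)] at hs2
    linarith
  have hth2 : 1000 * th ≤ thp := by nlinarith
  obtain ⟨E, hE, hE1, hN⟩ := le_of_ev ((pn2 hs1 hκ hthk ht2 one_pos).and (pn1 hs1 hth2))
  refine ⟨E, hE, fun P hP => ⟨hc2, by rw [hP.eC0]; exact hC0, by rw [hP.eth]; exact hs1, ?_⟩⟩
  intro n m e he hes hw1 hw2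
  obtain ⟨⟨n1, n2, n3, -, -⟩, n6⟩ := hN e he (hes.trans hP.ees)
  have hw : P.w e = lg thp e := by
    unfold Par.w
    rw [hP.ethp]
  have hkE : P.kE e = lg th e := by
    unfold Par.kE
    rw [hP.eth]
  obtain ⟨m1, m2, m3, m4⟩ := n6 (m - n) (by rw [hw] at hw1; omega) (by rw [hw] at hw2; omega)
  have hq3 : 3 ≤ P.q0 := by
    rw [hP.eq0]
    have : 0 < ⌈x1 / thp⌉₊ := Nat.ceil_pos.2 (by positivity)
    omega
  have hd2 : m - n ≤ 4 * P.w e := by omega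
  have hq1 : 4 * P.w e ≤ (P.q0 - 2) * (4 * P.w e) := Nat.le_mul_of_pos_left _ (by omega)
  have hq2 : 4 * P.w e ≤ P.q0 * (4 * P.w e) := Nat.le_mul_of_pos_left _ (by omega)
  have hmn : ((m - n : ℕ) : ℝ) = (m : ℝ) - n := by
    rw [Nat.cast_sub (by omega)]
  rw [hmn] at m3
  rw [hP.ethp, hP.eth]
  refine ⟨?_, ?_, m2, m3, n1, n2, n3⟩
  · unfold H889.TV
    rw [hkE]
    exact ⟨by omega, by omega⟩
  · unfold Par.TT
    rw [hkE]
    exact ⟨by omega, by omega⟩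

/-- V cells are cells of the state -/
lemma se_of_cx {P : Par} {b C1 c1 : ℝ} {n s : ℕ} {e y : ℝ} (hx : Cx P b C1 c1 n s e y)
    (hC02 : 2 ≤ P.C0) (hC1a : P.C0 ≤ C1) : s ≤ P.sE n e := by
  have he := hx.e0
  have he1 : e ≤ 1 := hx.e1.trans (by norm_num)
  have hlg := lg_le' (c := P.C0) (by linarith) he he1
  have hl2 := Real.log_pos one_lt_two
  have h5 : ((s : ℝ) + (P.C0 * Real.logb 2 (1 / e) + 1)) ≤ n := by
    have h6 := hx.Lg_lo
    have hye : Real.log 2 ≤ C1 * Real.log (1 / y) := by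
      have h7 : y ≤ e ^ (20 / 39 : ℝ) := hx.yle
      have h8 : Real.log (1 / e) * (20 / 39) ≤ Real.log (1 / y) := by
        have h9 := Real.log_le_log hx.y0 h7
        rw [Real.log_rpow he] at h9
        rw [one_div, one_div, Real.log_inv, Real.log_inv]
        linarith
      have h10 : Real.log 2 ≤ Real.log (1 / e) := by
        refine Real.log_le_log (by norm_num) ?_
        rw [le_div_iff₀ he]
        linarith [hx.e1]
      have h11 : 2 ≤ C1 := hC02.trans hC1a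
      nlinarith
    rw [hx.logx] at h6
    unfold H889.Lg at h6
    have h12 : P.C0 * Real.log (1 / e) ≤ C1 * Real.log (1 / e) :=
      mul_le_mul_of_nonneg_right hC1a (Real.log_nonneg ((le_div_iff₀ he).2 (by linarith)))
    have h13 : Real.logb 2 (1 / e) * Real.log 2 = Real.log (1 / e) := by
      unfold Real.logb
      field_simp
    have h14 : ((s : ℝ) + (P.C0 * Real.logb 2 (1 / e) + 1)) * Real.log 2 ≤ n * Real.log 2 := by
      have h15 : ((s : ℝ) + (P.C0 * Real.logb 2 (1 / e) + 1)) * Real.log 2 =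
        s * Real.log 2 + P.C0 * Real.log (1 / e) + Real.log 2 := by
        rw [← h13]
        ring
      rw [h15]
      linarith
    exact le_of_mul_le_mul_right h14 hl2
  have h16 : ((s + lg P.C0 e : ℕ) : ℝ) ≤ n := by
    push_cast
    linarith
  have h17 : s + lg P.C0 e ≤ n := by exact_mod_cast h16
  unfold Par.sE
  omega

/-- the error of the relation -/
lemma om_eta {P : Par} {b C1 c1 : ℝ} {n s i : ℕ} {e y z : ℝ} (hb : 0 < b)
    (hx : Cx P b C1 c1 n s e y) (hzy : e ^ (1 / 100 : ℝ) * z ≤ y)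
    (hY : yt (2 ^ (n + i)) b (4 * tn n) ≤ e ^ (-(P.thp / 20)) * z)
    (m2 : (4 : ℝ) ^ i ≤ 2 * e ^ (-(4 / 5 * P.thp)))
    (n1 : 32 * e ^ (-(4 / 5 * P.thp)) * (e ^ (-(P.thp / 20)) *
      (e ^ (-(1 / 100 : ℝ)) * e ^ (20 / 39 : ℝ))) ≤ 1)
    (n2 : 2 * e ^ (-(4 / 5 * P.thp)) * e ^ (-(P.thp / 20)) * e ^ (8 * P.thp) ≤ 1)
    (hz : 0 < z) :
    e ^ (8 * P.thp) * om (wT b (2 ^ (n + i)))
      (tn n • (1 : Matrix (V (2 ^ (n + i))) (V (2 ^ (n + i))) ℝ)) 1 ≤ z := by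
  have he := hx.e0
  have hzle : z ≤ e ^ (-(1 / 100 : ℝ)) * e ^ (20 / 39 : ℝ) := by
    have h3 : z ≤ e ^ (-(1 / 100 : ℝ)) * y := by
      have h4 := mul_le_mul_of_nonneg_left hzy (Real.rpow_nonneg he.le (-(1 / 100 : ℝ)))
      rwa [← mul_assoc, ← Real.rpow_add he, neg_add_cancel, Real.rpow_zero, one_mul] at h4
    exact h3.trans (mul_le_mul_of_nonneg_left hx.yle (Real.rpow_nonneg he.le _))
  have hom := om_num hb (n := n) (i := i) m2 hY (by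
    have h3 : e ^ (-(P.thp / 20)) * z ≤ e ^ (-(P.thp / 20)) *
        (e ^ (-(1 / 100 : ℝ)) * e ^ (20 / 39 : ℝ)) :=
      mul_le_mul_of_nonneg_left hzle (Real.rpow_nonneg he.le _)
    have h4 := mul_le_mul_of_nonneg_left h3 (Real.rpow_nonneg he.le (-(4 / 5 * P.thp)))
    have h5 : 0 ≤ e ^ (-(4 / 5 * P.thp)) * (e ^ (-(P.thp / 20)) *
        (e ^ (-(1 / 100 : ℝ)) * e ^ (20 / 39 : ℝ))) := by positivity
    linarith)
  calc _ ≤ e ^ (8 * P.thp) * (2 * e ^ (-(4 / 5 * P.thp)) * (e ^ (-(P.thp / 20)) * z)) :=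
        mul_le_mul_of_nonneg_left hom (Real.rpow_nonneg he.le _)
    _ = (2 * e ^ (-(4 / 5 * P.thp)) * e ^ (-(P.thp / 20)) * e ^ (8 * P.thp)) * z := by ring
    _ ≤ 1 * z := mul_le_mul_of_nonneg_right n2 hz.le
    _ = _ := one_mul _

/-- **(PERS) from (CRK)** -/
theorem ev_pers {b b1 b2 pf K κ : ℝ} {Q : ℕ} (hb1 : 0 < b1) (h1 : b1 ≤ b) (h2 : b ≤ b2)
    (hpf : 1 / 2 < pf) (hpf1 : pf ≤ 1) (hκ : 0 ≤ κ) :
    EvC b1 b2 pf Q K fun P c1 C1 => ∀ a : ℕ → ℝ, FLC P b a →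
      Tendsto a atTop (𝓝 (Real.pi / 2)) → ∀ᶠ N0 in atTop, CRK P b C1 c1 κ N0 →
        ∀ A1 : ℝ, PERS P b C1 c1 A1 N0 := by
  have hb : 0 < b := hb1.trans_le h1
  have hlink := LNK.link_Ev (b1 := b1) (b2 := b2) (pf := pf) (C1 := 2) (k := 1) (Q := Q)
    (hb.trans_le h2) hpf hpf1 (by linarith) (by norm_num) one_pos
  have hall := ((((ev_pn (b1 := b1) (b2 := b2) (pf := pf) Q hκ).and hlink).and
    (H816.ev_tyK (b2 := b2) hb1 h1 (by linarith : 0 < pf) Q (show (0 : ℝ) < 8 by norm_num))).and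
    (H197.lo_ev (b1 := b1) (b2 := b2) (pf := pf) K Q)).and
    (ev_core hb1 b2 pf (by linarith) Q κ hκ)
  refine hall.mono ?_
  rintro P c1 - ⟨⟨⟨⟨⟨hc1, hC02, hth0, hpn⟩, hlink⟩, hty⟩, hlo⟩, hcore⟩ C1 hC11 hC1a hC1b a hfl ha
  filter_upwards [eventually_forall_ge_atTop.2 (hlink b a hb h2 hfl ha),
    eventually_forall_ge_atTop.2 (hcore b a h1 h2 hfl ha)] with N0 hL hC hcrk A1
  intro n m s e e' y ζ Δ E hn hx hw hnm hG' hSV hΔ hE hΔz hEz hyz hzy hyt r hr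
  have he := hx.e0
  have hes := hx.es
  have he1 : e ≤ 1 := hx.e1.trans (by norm_num)
  have hC10 : 0 < C1 := by linarith
  obtain ⟨t1, t2, m2, m3, n1, n2, n3⟩ := hpn n m e he hes hnm hw.w2
  obtain ⟨i, hi⟩ : ∃ i : ℕ, i = (m - n) / 10 := ⟨_, rfl⟩
  rw [← hi] at t1 t2 m2
  have hz : 0 < ‖ζ‖ := by
    have h3 : 0 < e ^ (-(1 / 100 : ℝ)) := Real.rpow_pos_of_pos he _
    by_contra hc
    have h4 : ‖ζ‖ = 0 := le_antisymm (not_lt.1 hc) (norm_nonneg ζ)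
    rw [h4, mul_zero] at hyz
    linarith [hx.y0]
  -- the relation
  have hCR := hcrk n m s (n + i) e e' y (e ^ (-(P.thp / 20)) * ‖ζ‖) hn hx hw hG' (by omega)
    (by omega) (by omega) hyt
  -- the cells
  have hsn := hx.sn hC10
  have hlam : (2 : ℝ) ^ s / 2 ^ n ≤ e ^ (2 : ℝ) :=
    (hx.up hC10.le).trans (Real.rpow_le_rpow_of_exponent_ge he he1 (hC02.trans hC1a))
  have hlo' := hlo C1 hC11 hC1b b n s e y hx
  have hlo2 : (n : ℝ) - s ≤ e ^ (-(1 / 2 : ℝ)) :=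
    hlo'.trans (Real.rpow_le_rpow_of_exponent_ge he he1 (by linarith))
  have : NeZero (2 ^ (n + i) / 2 ^ s) := by
    refine ⟨(Nat.div_pos (Nat.pow_le_pow_right (by norm_num) (by omega)) (by positivity)).ne'⟩
  obtain ⟨Lp, hV⟩ := hSV (n + i) t1
  obtain ⟨hU, -⟩ := hL n hn e e (n + i) s he le_rfl hes hx.G t2 hlam hlo2 ζ Δ _ Lp E _ _ _ hV
  have hsE := se_of_cx hx hC02 hC1a
  obtain ⟨τ, a0, hτ1, hτ2, hGP⟩ := hx.G
  have hTy := hty n e τ a0 he hes (hGP e le_rfl hes) (n + i) t2 s hsE hx.ns hlo' (tn n) le_rfl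
    (by have := H972.tn_pos n; linarith)
  have hY := hyt _ t2
  have hη := om_eta hb hx hzy hY m2 n1 n2 hz
  have hXe : (4 : ℝ) ^ (n + i) / 4 ^ n = 4 ^ i := by
    rw [pow_add]
    field_simp
  have hX : (4 : ℝ) ^ (n + i) / 4 ^ n * Δ ≤ ‖ζ‖ := by
    rw [hXe]
    refine le_trans (mul_le_mul_of_nonneg_right ?_ hΔ) hΔz
    rw [hi]
    refine four_le_rpow.trans (le_of_eq ?_)
    rw [Nat.cast_sub (by omega)]
  have hbase := pers_num (th := P.th) he he1 hz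
    (hU (e ^ (8 * P.thp)) (e ^ (8 * P.thp)) hTy) hX hEz hη hCR
    m3 rfl hyz n3
  refine hC m (by omega) e e' y ‖ζ‖ he hes hw.lo hw.hi hw.es hG' hx.y0 hx.yle hx.yL ?_ ?_ hbase
    r hr
  · have h4 := mul_le_mul_of_nonneg_left hyz (Real.rpow_nonneg he.le (1 / 100 : ℝ))
    rwa [← mul_assoc, ← Real.rpow_add he, add_neg_cancel, Real.rpow_zero, one_mul] at h4
  · have h4 := mul_le_mul_of_nonneg_left hzy (Real.rpow_nonneg he.le (-(1 / 100 : ℝ)))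
    rwa [← mul_assoc, ← Real.rpow_add he, neg_add_cancel, Real.rpow_zero, one_mul] at h4

end

end Vale.Agent.P159.H415
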