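import Vale.Agent.P159.H415.Torus
import Vale.Agent.P159.H363.Acl
import Vale.Agent.P159.H114.AE1
import Vale.Agent.P159.H552.In5d

/-!
P159, module CH2 (helper415), part 11: the exact channel law of the neutral cell source in terms of
the cell field (`Ech_cells`), locality from `Far`, and the window theorem in the cell letters
(`ch2_cell`).
-/

set_option linter.unusedSectionVars false

namespace Vale.Agent.P159.H415

open MeasureTheory ProbabilityTheory Finset Matrix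
open Vale.Agent.P159.H37 (gau Zn Un ZM Zq wM wt qf qf_eq qf_smul Rs cellP Zs Gm Ech post Tq)
open Vale.Agent.P159.H764 (NC cm Nt shc UN ZM_cm Zn_cm Un_cm)
open Vale.Agent.P159.H864 (MC cobV cl up cobV_tr_mulVec cobV_mul_tr cellP_eq MC_eq)
open Vale.Agent.P159.H896 (Chn WM WP om Om wp_t chn_row)
open Vale.Agent.P159.H43 (ch2 Phq)
open Vale.Agent.P159.H963 (An GW gw_wT mf_smul nwt ntr nMC obsN Pn Neu mf_MC em_nMC Gnc)
open Vale.Agent.P159.H552 (lft cutB measurable_cutB cutB_congr cutB_add)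
open Vale.Agent.P159.H145 (cs)
open Vale.Agent.P159.H363 (lf acl Rcl lf_eq)
open Vale.Agent.P159.H612 (Far)
open Vale.Agent.P159.TM.H104 (EM Ex Cv Gr li dU U Cf)
open Vale.Agent.P159.TM.H859 (dirE tn logCut logCut_eq_one)
open Vale.Agent.P159.TM.Spec (V)
open Vale.Agent.P159.TM.SpecC (Tor wT)

noncomputable section

variable {N l : ℕ} [NeZero N] [NeZero (N / l)] {b t t1 τ : ℝ}

/-! ### the source of a cell field -/

/-- the neutral source of the lift -/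
lemma src_lf (hl : l ∣ N) (hτ : 0 < τ) (h : τ ≤ t) (F : V (N / l) → ℝ) :
    ntr (MC N l t τ) τ *ᵥ lf N l F =
      (τ * l) • ((cobV N l)ᵀ *ᵥ ((Pn : Matrix (V (N / l)) (V (N / l)) ℝ) *ᵥ F)) := by
  set G : V (N / l) → ℝ := (Pn : Matrix (V (N / l)) (V (N / l)) ℝ) *ᵥ F with hG
  have hGn : Neu G := H963.neu_Pn F
  have hlfG : lf N l F = lf N l G + fun _ => (∑ y, F y) / Fintype.card (V (N / l)) := by
    funext v
    rw [Pi.add_apply]
    unfold lf
    rw [hG, H963.Pn_mulVec]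
    ring
  have hneu : Neu (lf N l G) := by
    rw [lf_eq hl]
    exact (H963.neu_cobV_tr hl hGn).smul _
  have hrow : ∀ x, ∑ y, MC N l t τ x y = τ := (mf_MC hl hτ h).row
  have hntr0 : ntr (MC N l t τ) τ *ᵥ (fun _ => (∑ y, F y) / Fintype.card (V (N / l))) = 0 := by
    have h1 : (fun _ : V N => (∑ y, F y) / (Fintype.card (V (N / l)) : ℝ))
        = ((∑ y, F y) / (Fintype.card (V (N / l)) : ℝ)) • fun _ => (1 : ℝ) := by
      funext v
      simp
    rw [h1, mulVec_smul]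
    have h2 : ntr (MC N l t τ) τ *ᵥ (fun _ => (1 : ℝ)) = 0 := by
      funext v
      have := H963.ntr_row hrow v
      simpa [mulVec, dotProduct] using this
    rw [h2, smul_zero]
  rw [hlfG, mulVec_add, hntr0, add_zero, H963.ntr_of_neu _ _ hneu, lf_eq hl, mulVec_smul,
    H864.MC_mulVec_tr hl, smul_smul]
  congr 1
  ring

lemma sum_Pn_sq (F : V (N / l) → ℝ) :
    qf (Pn : Matrix (V (N / l)) (V (N / l)) ℝ) F =
      ∑ c, ((Pn : Matrix (V (N / l)) (V (N / l)) ℝ) *ᵥ F) c ^ 2 := by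
  have h1 : qf (Pn : Matrix (V (N / l)) (V (N / l)) ℝ) F = F ⬝ᵥ Pn *ᵥ (Pn *ᵥ F) := by
    rw [qf_eq, mulVec_mulVec, H963.Pn_mul_Pn]
  rw [h1, dotProduct_mulVec, ← mulVec_transpose, H963.Pn_transpose]
  exact Finset.sum_congr rfl fun c _ => (pow_two _).symm

/-- the mass part of the energy of a cell field -/
lemma qf_ntr_lf (hl : l ∣ N) (hτ : 0 < τ) (h : τ ≤ t) (F : V (N / l) → ℝ) :
    qf (ntr (MC N l t τ) τ) (lf N l F) =
      (l : ℝ) ^ 2 * τ * qf (Pn : Matrix (V (N / l)) (V (N / l)) ℝ) F := by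
  rw [sum_Pn_sq, qf_eq, src_lf hl hτ h, dotProduct_smul, smul_eq_mul, dotProduct_mulVec,
    vecMul_transpose]
  have h1 : cobV N l *ᵥ lf N l F = (l : ℝ) • F := by
    rw [lf_eq hl, mulVec_smul, mulVec_mulVec, cobV_mul_tr hl, one_mulVec]
  rw [h1, smul_dotProduct, smul_eq_mul]
  have h2 : F ⬝ᵥ ((Pn : Matrix (V (N / l)) (V (N / l)) ℝ) *ᵥ F) =
      ∑ c, ((Pn : Matrix (V (N / l)) (V (N / l)) ℝ) *ᵥ F) c ^ 2 := by
    rw [← sum_Pn_sq, qf_eq]
  rw [h2]
  ring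

/-- `Zn` of the lift in terms of the source partition function -/
lemma Zn_lf_src (hb : 0 ≤ b) (hl : l ∣ N) (hτ : 0 < τ) (h : τ ≤ t) (F : V (N / l) → ℝ) :
    Zn (wT b N) (MC N l t τ) (lf N l F) =
      Zn (wT b N) (MC N l t τ) 0 / Zs (nMC N l b t τ 0) 0 *
        (Zs (nMC N l b t τ 0) (ntr (MC N l t τ) τ *ᵥ lf N l F) *
          Real.exp (-((l : ℝ) ^ 2 * τ * qf (Pn : Matrix (V (N / l)) (V (N / l)) ℝ) F / 2))) := by
  have hE := em_nMC hb hl hτ h (0 : V N)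
  have hZ0 := (H37.Zs_pos hE 0).ne'
  rw [H363.Zn_lf hb hl hτ h]
  have h1 : qf (acl N l b t τ) F = (l : ℝ) ^ 2 * τ * qf (Pn : Matrix (V (N / l)) (V (N / l)) ℝ) F
      - qf (Gm (nMC N l b t τ 0)) (ntr (MC N l t τ) τ *ᵥ lf N l F) := by
    rw [← H363.qf_An_lf hl hτ h, H963.qf_An (mf_MC hl hτ h).symm, qf_ntr_lf hl hτ h]
    rfl
  have h2 : Zs (nMC N l b t τ 0) (ntr (MC N l t τ) τ *ᵥ lf N l F) =
      Zs (nMC N l b t τ 0) 0 * Real.exp (Rcl N l b t τ F +
        qf (Gm (nMC N l b t τ 0)) (ntr (MC N l t τ) τ *ᵥ lf N l F) / 2) := by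
    have h3 := H114.Zs_eq hE (ntr (MC N l t τ) τ *ᵥ lf N l F)
    rw [h3, Real.exp_add]
    rfl
  rw [h2, h1]
  have e1 : ∀ (A B C D E : ℝ), B ≠ 0 → A / B * (B * D * E) = A * (D * E) := by
    intro A B C D E hB
    field_simp
  rw [e1 _ _ 0 _ _ hZ0, ← Real.exp_add, ← Real.exp_add]
  congr 2
  ring

/-! ### the exact channel law in terms of the cell field -/

lemma Pn_idem (F : V (N / l) → ℝ) :
    (Pn : Matrix (V (N / l)) (V (N / l)) ℝ) *ᵥ ((Pn : Matrix (V (N / l)) (V (N / l)) ℝ) *ᵥ F) =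
      Pn *ᵥ F := by
  rw [mulVec_mulVec, H963.Pn_mul_Pn]

/-- **the exact channel law**: level `t1` below the prior `τ`, neutral model, is the law of the
cell field with i.i.d. noise weighted by the neutral partition function -/
theorem Ech_cells (hb : 0 ≤ b) (hl : l ∣ N) (hτ : 0 < τ) (h1 : τ < t1) (h2 : t1 ≤ t)
    {Φ : (V N → ℝ) → ℝ} (hΦ : Measurable Φ) :
    Ech (nMC N l b t τ 0) 0 (obsN N l (t1 - τ)) Φ =
      (∫ z, Φ (ntr (MC N l t t1) t1 *ᵥ lf N l ((√(1 / τ - 1 / t1) / l) • z)) *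
          Zn (wT b N) (MC N l t t1) (lf N l ((√(1 / τ - 1 / t1) / l) • z)) ∂(gau (V (N / l)))) /
        ∫ z, Zn (wT b N) (MC N l t t1) (lf N l ((√(1 / τ - 1 / t1) / l) • z))
          ∂(gau (V (N / l))) := by
  classical
  have ht1 : 0 < t1 := hτ.trans h1
  have hl0 := l_pos' hl
  have hE := em_nMC hb hl ht1 h2 (0 : V N)
  have hZ0 := H37.Zs_pos hE 0
  have hN0 := (gw_wT hb).Zn_pos (mf_MC hl ht1 h2) (0 : V N → ℝ)
  set C := Zn (wT b N) (MC N l t t1) 0 / Zs (nMC N l b t t1 0) 0 with hC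
  have hCp : 0 < C := div_pos hN0 hZ0
  set σ := √(1 / τ - 1 / t1) / (l : ℝ) with hσ
  have hσ0 : 0 ≤ 1 / τ - 1 / t1 := sub_nonneg.2 (one_div_le_one_div_of_le hτ h1.le)
  set r := √(τ / t1) with hr
  have hr2 : r ^ 2 = τ / t1 := Real.sq_sqrt (by positivity)
  set Q : Matrix (V (N / l)) (V (N / l)) ℝ := ((t1 - τ) / τ) • Pn with hQ
  set G : Matrix (V (N / l)) (V (N / l)) ℝ := r • Pn + (1 - Pn) with hG
  have hPt : (Pn : Matrix (V (N / l)) (V (N / l)) ℝ)ᵀ = Pn := H963.Pn_transpose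
  have hPP : (Pn : Matrix (V (N / l)) (V (N / l)) ℝ) * Pn = Pn := H963.Pn_mul_Pn
  have hq0 : 0 ≤ (t1 - τ) / τ := div_nonneg (by linarith) hτ.le
  have hQt : Qᵀ = Q := by rw [hQ, transpose_smul, hPt]
  have hQ0 : ∀ φ, 0 ≤ qf Q φ := by
    intro φ
    rw [hQ, H864.qf_smul_mat, sum_Pn_sq]
    exact mul_nonneg hq0 (sum_nonneg fun _ _ => sq_nonneg _)
  have hpd : ∀ v : V (N / l) → ℝ, v ≠ 0 → 0 < qf (1 + (1 : ℝ) ^ 2 • Q) v := fun v hv =>
    pd_one_add hQ0 (sq_nonneg 1) v hv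
  -- the square root
  have hGG : G * Gᵀ = (τ / t1) • Pn + (1 - Pn) := by
    have e1 : Gᵀ = G := by
      rw [hG, transpose_add, transpose_smul, transpose_sub, transpose_one, hPt]
    rw [e1, hG]
    have e2 : (Pn : Matrix (V (N / l)) (V (N / l)) ℝ) * (1 - Pn) = 0 := by
      rw [Matrix.mul_sub, Matrix.mul_one, hPP, sub_self]
    have e3 : (1 - (Pn : Matrix (V (N / l)) (V (N / l)) ℝ)) * Pn = 0 := by
      rw [Matrix.sub_mul, Matrix.one_mul, hPP, sub_self]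
    have e4 : (1 - (Pn : Matrix (V (N / l)) (V (N / l)) ℝ)) * (1 - Pn) = 1 - Pn := by
      rw [Matrix.mul_sub, Matrix.mul_one, e3, sub_zero]
    rw [Matrix.add_mul, Matrix.mul_add, Matrix.mul_add, Matrix.smul_mul, Matrix.mul_smul,
      Matrix.smul_mul, Matrix.mul_smul, e2, e3, e4, hPP, smul_smul, smul_zero,
      add_zero, zero_add, ← pow_two, hr2]
  have hGG2 : G * Gᵀ = (1 : ℝ) ^ 2 • (1 + (1 : ℝ) ^ 2 • Q)⁻¹ := by
    rw [one_pow, one_smul, one_smul, hGG]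
    symm
    refine Matrix.inv_eq_left_inv ?_
    have e5 : (1 : Matrix (V (N / l)) (V (N / l)) ℝ) + Q = (t1 / τ) • Pn + (1 - Pn) := by
      have e6 : t1 / τ = (t1 - τ) / τ + 1 := by field_simp; ring
      rw [e6, add_smul, one_smul]
      abel
    rw [e5]
    have e2 : (Pn : Matrix (V (N / l)) (V (N / l)) ℝ) * (1 - Pn) = 0 := by
      rw [Matrix.mul_sub, Matrix.mul_one, hPP, sub_self]
    have e3 : (1 - (Pn : Matrix (V (N / l)) (V (N / l)) ℝ)) * Pn = 0 := by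
      rw [Matrix.sub_mul, Matrix.one_mul, hPP, sub_self]
    have e4 : (1 - (Pn : Matrix (V (N / l)) (V (N / l)) ℝ)) * (1 - Pn) = 1 - Pn := by
      rw [Matrix.mul_sub, Matrix.mul_one, e3, sub_zero]
    rw [Matrix.add_mul, Matrix.mul_add, Matrix.mul_add, Matrix.smul_mul, Matrix.mul_smul,
      Matrix.smul_mul, Matrix.mul_smul, e2, e3, e4, hPP, smul_smul, smul_zero,
      add_zero, smul_zero, zero_add]
    have e7 : τ / t1 * (t1 / τ) = 1 := by field_simp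
    rw [e7, one_smul]
    abel
  have htc := H663.tc_pos hQt hpd 0
  -- action on a field
  have hGz : ∀ z : V (N / l) → ℝ, (Pn : Matrix (V (N / l)) (V (N / l)) ℝ) *ᵥ (G *ᵥ z) =
      r • (Pn *ᵥ z) := by
    intro z
    have e3 : (Pn : Matrix (V (N / l)) (V (N / l)) ℝ) * (1 - Pn) = 0 := by
      rw [Matrix.mul_sub, Matrix.mul_one, hPP, sub_self]
    rw [mulVec_mulVec, hG, Matrix.mul_add, e3, add_zero, Matrix.mul_smul, hPP, smul_mulVec]
  have hobs : (obsN N l (t1 - τ))ᵀ = √(t1 - τ) •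
      ((cobV N l)ᵀ * (Pn : Matrix (V (N / l)) (V (N / l)) ℝ)) := by
    unfold H963.obsN
    rw [transpose_smul, transpose_mul, hPt]
  have hsc : t1 * l * (σ * r) = √(t1 - τ) := by
    have e8 : σ * r = √(t1 - τ) / (t1 * l) := by
      rw [hσ, hr, div_mul_eq_mul_div, ← Real.sqrt_mul hσ0]
      have e9 : (1 / τ - 1 / t1) * (τ / t1) = (t1 - τ) / t1 ^ 2 := by
        field_simp
      rw [e9, Real.sqrt_div (by linarith), Real.sqrt_sq ht1.le, div_div]
    rw [e8]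
    field_simp
  have hsrc : ∀ z : V (N / l) → ℝ, ntr (MC N l t t1) t1 *ᵥ lf N l (σ • (G *ᵥ z)) =
      (obsN N l (t1 - τ))ᵀ *ᵥ z := by
    intro z
    rw [src_lf hl ht1 h2, mulVec_smul, hGz, hobs, smul_mulVec, ← mulVec_mulVec, smul_smul,
      mulVec_smul, smul_smul, hsc]
  have hen : ∀ z : V (N / l) → ℝ, (l : ℝ) ^ 2 * t1 *
      qf (Pn : Matrix (V (N / l)) (V (N / l)) ℝ) (σ • (G *ᵥ z)) = qf Q (G *ᵥ z) := by
    intro z
    rw [qf_smul, hQ, H864.qf_smul_mat, hσ, div_pow, Real.sq_sqrt hσ0]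
    have e10 : (l : ℝ) ^ 2 * t1 * ((1 / τ - 1 / t1) / (l : ℝ) ^ 2 *
        qf (Pn : Matrix (V (N / l)) (V (N / l)) ℝ) (G *ᵥ z)) =
        (t1 - τ) / τ * qf (Pn : Matrix (V (N / l)) (V (N / l)) ℝ) (G *ᵥ z) := by
      field_simp
    exact e10
  -- the key identity
  have hlfc : Continuous (lf N l : (V (N / l) → ℝ) → V N → ℝ) :=
    continuous_pi fun v => continuous_apply (cl v)
  have hZc : Continuous fun F : V (N / l) → ℝ => Zn (wT b N) (MC N l t t1) (lf N l F) := by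
    have e11 : (fun F : V (N / l) → ℝ => Zn (wT b N) (MC N l t t1) (lf N l F)) = fun F =>
        Zn (wT b N) (MC N l t t1) 0 * (Real.exp (-(qf (acl N l b t t1) F / 2))
        * Real.exp (Rcl N l b t t1 F)) := by
      funext F
      exact H363.Zn_lf hb hl ht1 h2 F
    rw [e11]
    have hR : Continuous (Rcl N l b t t1) := by
      unfold H363.Rcl
      refine (H114.continuous_Rs hE).comp ?_
      have : Continuous fun F : V (N / l) → ℝ => ntr (MC N l t t1) t1 *ᵥ lf N l F := by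
        unfold Matrix.mulVec dotProduct lf
        fun_prop
      exact this
    have hq := H663.qf_cont (acl N l b t t1)
    fun_prop
  have key : ∀ Ψ : (V N → ℝ) → ℝ, Measurable Ψ →
      ∫ z, Ψ (ntr (MC N l t t1) t1 *ᵥ lf N l (σ • z)) *
          Zn (wT b N) (MC N l t t1) (lf N l (σ • z)) ∂(gau (V (N / l))) =
        H663.tc ((1 : ℝ) ^ 2) Q 0 * (C * ∫ g, Ψ ((obsN N l (t1 - τ))ᵀ *ᵥ g) *
          Zs (nMC N l b t t1 0) ((obsN N l (t1 - τ))ᵀ *ᵥ g) ∂(gau (V (N / l)))) := by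
    intro Ψ hΨ
    have hm : StronglyMeasurable fun z : V (N / l) → ℝ =>
        (Ψ (ntr (MC N l t t1) t1 *ᵥ lf N l (σ • z)) *
          Zn (wT b N) (MC N l t t1) (lf N l (σ • z))) * Real.exp (qf Q z / 2) := by
      refine Measurable.stronglyMeasurable ?_
      have m1 : Measurable fun z : V (N / l) → ℝ => ntr (MC N l t t1) t1 *ᵥ lf N l (σ • z) := by
        have : Continuous fun z : V (N / l) → ℝ => ntr (MC N l t t1) t1 *ᵥ lf N l (σ • z) := by
          unfold Matrix.mulVec dotProduct lf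
          fun_prop
        exact this.measurable
      have m2 : Measurable fun z : V (N / l) → ℝ =>
          Zn (wT b N) (MC N l t t1) (lf N l (σ • z)) := (hZc.comp (by fun_prop)).measurable
      have m3 : Measurable fun z : V (N / l) → ℝ => Real.exp (qf Q z / 2) :=
        (Real.continuous_exp.comp ((H663.qf_cont Q).div_const 2)).measurable
      exact ((hΨ.comp m1).mul m2).mul m3
    have h3 := H663.tilt_pd (I := V (N / l)) (σ := (1 : ℝ)) hQt hpd hGG2 0 hm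
    simp only [zero_add, mulVec_zero, one_smul, smul_eq_mul] at h3
    have e12 : ∀ z : V (N / l) → ℝ, Real.exp (-(qf Q z / 2)) *
        ((Ψ (ntr (MC N l t t1) t1 *ᵥ lf N l (σ • z)) *
          Zn (wT b N) (MC N l t t1) (lf N l (σ • z))) * Real.exp (qf Q z / 2)) =
        Ψ (ntr (MC N l t t1) t1 *ᵥ lf N l (σ • z)) *
          Zn (wT b N) (MC N l t t1) (lf N l (σ • z)) := by
      intro z
      have : Real.exp (-(qf Q z / 2)) * Real.exp (qf Q z / 2) = 1 := by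
        rw [← Real.exp_add]
        simp
      linear_combination (Ψ (ntr (MC N l t t1) t1 *ᵥ lf N l (σ • z)) *
          Zn (wT b N) (MC N l t t1) (lf N l (σ • z))) * this
    simp_rw [e12] at h3
    rw [h3, ← integral_const_mul C]
    congr 1
    refine integral_congr_ae (Filter.Eventually.of_forall fun g => ?_)
    simp only
    rw [Zn_lf_src hb hl ht1 h2, hsrc, hen, ← hC]
    have : Real.exp (-(qf Q (G *ᵥ g) / 2)) * Real.exp (qf Q (G *ᵥ g) / 2) = 1 := by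
      rw [← Real.exp_add]
      simp
    linear_combination (Ψ ((obsN N l (t1 - τ))ᵀ *ᵥ g) * C *
      Zs (nMC N l b t t1 0) ((obsN N l (t1 - τ))ᵀ *ᵥ g)) * this
  have k1 := key Φ hΦ
  have k2 := key (fun _ => 1) measurable_const
  simp only [one_mul] at k2
  unfold H37.Ech
  rw [H963.post_nMC hl b h1.le 0]
  simp only [zero_add]
  rw [k1, k2, mul_div_mul_left _ _ htc.ne', mul_div_mul_left _ _ hCp.ne']

/-! ### locality -/

/-- `T⁰` from the neutral `R` at the doubled source -/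
theorem T0_le_Rs {V' : Type} [Fintype V'] [DecidableEq V'] [Nonempty V'] {w : (V' → ℤ) → ℝ}
    {M : Matrix V' V' ℝ} {m : ℝ} (hw : GW w) (hM : H963.MF M m) (x₀ : V') (F : V' → ℝ) :
    H145.T0 w M F ≤ Rs (H963.nM w M m x₀) ((2 : ℝ) • (ntr M m *ᵥ F)) := by
  have h0 := hw.Zn_pos hM (0 : V' → ℝ)
  have hL : ∀ F, H145.L0 w M F - H145.L0 w M 0 = -Un w M F := by
    intro F
    unfold H145.L0 H37.Un
    rw [Real.log_div (hw.Zn_pos hM F).ne' h0.ne', neg_neg]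
  have h1 := hL F
  have h2 := hL ((2 : ℝ) • F)
  rw [hw.Un_eq hM x₀] at h1 h2
  have h3 : qf (An w M m x₀) ((2 : ℝ) • F) = 4 * qf (An w M m x₀) F := by
    rw [qf_smul]
    norm_num
  have h4 : 0 ≤ Rs (H963.nM w M m x₀) (ntr M m *ᵥ F) :=
    H789.Rs_nonneg (hw.em_nM hM x₀) (hw.ev_nM M m x₀) (hw.pk_nM hM x₀) _
  rw [mulVec_smul, h3] at h2
  unfold H145.T0
  linarith

lemma oscZ_wT (hb : 0 ≤ b) (ht : 0 < t) {ω : ℝ}
    (hOm : Om (wT b N) (t • (1 : Matrix (V N) (V N) ℝ)) ≤ ω) :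
    H145.OscZ (wT b N) (H145.mt N t) ω := by
  intro F c _
  have h1 := H896.abs_ZM_sub_le (wp_t (N := N) hb ht) F c
  refine h1.trans (mul_le_mul_of_nonneg_right hOm ?_)
  exact ((gw_wT hb).Zn_pos (mf_smul ht) F).le

/-- locality of the mean of a local function, from `Far` and the neutral `R(2 ·)` at the two ends -/
theorem loc_ex (hb : 0 ≤ b) (ht : 0 < t) {ω : ℝ} (hω : ω ≤ 1 / 2)
    (hOm : Om (wT b N) (t • (1 : Matrix (V N) (V N) ℝ)) ≤ ω) {F F' g : V N → ℝ}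
    {A A' r ρ : ℝ} (hA : 0 ≤ A) (hA' : 0 ≤ A') (hr : 0 ≤ r)
    (hf : Far (wt N b t) (t • g) (t • (F - F')) A A' r) {x₀ : V N}
    (h0 : Rs (nwt N b t x₀) ((2 : ℝ) •
      (ntr (t • (1 : Matrix (V N) (V N) ℝ)) t *ᵥ F)) ≤ ρ)
    (h1 : Rs (nwt N b t x₀) ((2 : ℝ) •
      (ntr (t • (1 : Matrix (V N) (V N) ℝ)) t *ᵥ F')) ≤ ρ) (c : ℝ) :
    |Ex (wt N b t) (t • cs F c) (li (t • g)) - Ex (wt N b t) (t • cs F' c) (li (t • g))| ≤
      Real.exp ((ρ + 16 * ω) / 2) * A * A' * r := by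
  have hE : EM (wt N b t) := (wp_t (N := N) hb ht).em
  have hE' : EM (wM (wT b N) (H145.mt N t)) := hE
  have e1 : t • cs F c = t • cs F' c + t • (F - F') := by
    rw [← smul_add]
    congr 1
    funext v
    simp only [cs, Pi.add_apply, Pi.sub_apply]
    ring
  obtain ⟨s, hs, hse⟩ := H612.Ex_li_diff hE (t • cs F' c) (t • (F - F')) (t • g)
  rw [e1, hse]
  refine (hf.bg _).trans ?_
  have e4 : t • cs F' c + s • (t • (F - F')) = t • cs (F' + s • (F - F')) c := by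
    funext v
    simp only [cs, Pi.add_apply, Pi.sub_apply, Pi.smul_apply, smul_eq_mul]
    ring
  rw [e4]
  have hO := oscZ_wT (N := N) hb ht hOm
  have h2 := (abs_le.1 (H145.Tq_le_T0 H145.per_wT H145.mt_symm hE' hO hω (F' + s • (F - F')) c)).2
  rw [H145.mt_mulVec] at h2
  have h3 : H145.T0 (wT b N) (H145.mt N t) (F' + s • (F - F')) ≤ ρ := by
    refine (T0_le_Rs (gw_wT hb) (mf_smul ht) x₀ _).trans ?_
    have hc := H789.Rs_convex ((gw_wT hb).em_nM (mf_smul (N := N) ht) x₀)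
      ((gw_wT hb).ev_nM (t • (1 : Matrix (V N) (V N) ℝ)) t x₀)
      ((gw_wT hb).pk_nM (mf_smul (N := N) ht) x₀)
    have e5 : (2 : ℝ) • (ntr (t • (1 : Matrix (V N) (V N) ℝ)) t *ᵥ (F' + s • (F - F'))) =
        (1 - s) • ((2 : ℝ) • (ntr (t • (1 : Matrix (V N) (V N) ℝ)) t *ᵥ F')) +
        s • ((2 : ℝ) • (ntr (t • (1 : Matrix (V N) (V N) ℝ)) t *ᵥ F)) := by
      rw [mulVec_add, mulVec_smul, mulVec_sub]
      module
    rw [e5]
    refine (hc.2 (Set.mem_univ _) (Set.mem_univ _) (by linarith [hs.2]) hs.1 (by ring)).trans ?_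
    have h5 : (1 - s) * Rs (nwt N b t x₀) ((2 : ℝ) •
        (ntr (t • (1 : Matrix (V N) (V N) ℝ)) t *ᵥ F')) ≤ (1 - s) * ρ :=
      mul_le_mul_of_nonneg_left h1 (by linarith [hs.2])
    have h6 : s * Rs (nwt N b t x₀) ((2 : ℝ) •
        (ntr (t • (1 : Matrix (V N) (V N) ℝ)) t *ᵥ F)) ≤ s * ρ :=
      mul_le_mul_of_nonneg_left h0 hs.1
    have h7 : (1 - s) * ρ + s * ρ = ρ := by ring
    calc _ ≤ (1 - s) * ρ + s * ρ := add_le_add h5 h6
      _ = ρ := h7
  have h8 : Tq (wt N b t) (t • cs (F' + s • (F - F')) c) ≤ ρ + 16 * ω := by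
    have e6 : Tq (wt N b t) (t • cs (F' + s • (F - F')) c) =
      Tq (wM (wT b N) (H145.mt N t)) (t • cs (F' + s • (F - F')) c) := rfl
    rw [e6]
    linarith
  gcongr

/-! ### the window theorem in the cell letters -/

/-- **CH2, one window, cell letters.** `acl` = neutral Hessian of the cell fields, good set `Gd` of
sources, bad set in the exact channel law of the prior mass `τ`. -/
theorem ch2_cell (hl : l ∣ N) (hb : 0 ≤ b) (ht : 0 < t) (hτ : 0 < τ) (hτt : τ < t)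
    {ω : ℝ} (hω : ω ≤ 1 / 2)
    (hOm : Om (wT b N) ((2 * t) • (1 : Matrix (V N) (V N) ℝ)) ≤ ω)
    {a : ℝ} (ha0 : 0 ≤ a) (ha : ∀ u, (acl N l b t t *ᵥ u) ⬝ᵥ u ≤ a * dirE u)
    {ι : Type} (S : Finset ι) (g : ι → V N → ℝ) (hg1 : ∑ i ∈ S, g i = fun _ => 1)
    (hg : ∀ i ∈ S, t * ∑ x, g i x ^ 2 ≤ 1) (c : ι → V (N / l)) {D : ℕ} {r₀ L : ℝ}
    (hr₀ : 10 ≤ r₀) (hDr : √2 * D ≤ r₀) (hL : 2 ≤ L) (hN : 2 * (L * r₀ + 1) ≤ (N / l : ℕ))
    {Gd : Set (V N → ℝ)} (hG : MeasurableSet Gd) {η ε δ : ℝ} (hε : 0 ≤ ε) (hδ : 0 ≤ δ)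
    (hδ1 : δ < 1) (hη : ∀ J ∈ Gd, Rs (nwt N b t 0) J ≤ η)
    (hloc : ∀ φ, ntr (t • (1 : Matrix (V N) (V N) ℝ)) t *ᵥ lf N l φ ∈ Gd → ∀ i ∈ S,
      ∀ s ∈ Set.Icc (0 : ℝ) 1,
      |Ex (wt N b t) (t • cs (lf N l φ) s) (li (t • g i)) -
        Ex (wt N b t) (t • cs (lf N l (cutB (H462.box (c i) D) (c i) φ)) s) (li (t • g i))| ≤ ε)
    (hbad : Ech (nMC N l b t τ 0) 0 (obsN N l (t - τ)) (Gdᶜ.indicator fun _ => 1) ≤ δ) :
    ch2 (wT b N) (τ • (1 : Matrix (V N) (V N) ℝ)) 0 ≤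
      2 * ω ^ 2 + S.card / (4 * Real.pi) *
        (5 / 2 * (ch2 (wT b N) ((2 * t) • (1 : Matrix (V N) (V N) ℝ)) 0 + 2 * ω ^ 2) *
          (Real.exp (-(8 * Real.pi ^ 2 / (a * ((1 + 68 / r₀) * (2 * Real.pi / Real.log L)) +
              ((1 / τ - 1 / t) / l ^ 2)⁻¹ * (2 * (L * r₀) + 1) ^ 2))) +
            (Real.exp η / (1 - δ) - 1) + 2 * δ) + ε) := by
  have hMt : MC N l t t = t • (1 : Matrix (V N) (V N) ℝ) := H864.MC_self N l t
  have hcont : Continuous fun φ : V (N / l) → ℝ =>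
      ntr (t • (1 : Matrix (V N) (V N) ℝ)) t *ᵥ lf N l φ := by
    unfold Matrix.mulVec dotProduct lf
    fun_prop
  set G : Set (V (N / l) → ℝ) := {φ | ntr (t • (1 : Matrix (V N) (V N) ℝ)) t *ᵥ lf N l φ ∈ Gd}
    with hGdef
  have hGm : MeasurableSet G := hcont.measurable hG
  refine ch2_torus hl hb ht hτ hτt hω hOm (x₀ := 0) (Ac := acl N l b t t)
    (H363.ti_acl hb hl ht le_rfl).transpose ?_ ha0 ha S g hg1 hg c hr₀ hDr hL hN hGm hε hδ hδ1
    (fun φ hφ => hη _ hφ) (fun φ hφ => hloc φ hφ) ?_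
  · intro φ
    have h1 := H363.qf_An_lf (b := b) hl ht le_rfl φ
    rw [hMt] at h1
    exact h1.symm
  · have h1 := Ech_cells (t1 := t) (t := t) hb hl hτ hτt le_rfl
      (Φ := Gdᶜ.indicator fun _ => 1) (measurable_const.indicator hG.compl)
    rw [hMt] at h1
    rw [h1] at hbad
    have hZp : ∀ z : V (N / l) → ℝ, 0 < Zn (wT b N) (t • (1 : Matrix (V N) (V N) ℝ))
        (lf N l ((√(1 / τ - 1 / t) / l) • z)) := fun z => (gw_wT hb).Zn_pos (mf_smul ht) _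
    have hi : Integrable (fun z : V (N / l) → ℝ => Zn (wT b N) (t • (1 : Matrix (V N) (V N) ℝ))
        (lf N l ((√(1 / τ - 1 / t) / l) • z))) (gau (V (N / l))) := by
      have h2 := int_Nt (H789.wT_nonneg hb N) (H789.wT_le hb) ⟨0, H789.wT_zero_pos hb⟩ ht
        (I := V (N / l)) ((√(1 / τ - 1 / t) / l) • Lf N l)
      refine h2.congr (Filter.Eventually.of_forall fun z => ?_)
      simp only
      rw [smul_mulVec, ← mulVec_smul, Lf_mulVec hl, ← Zn_cm]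
      rfl
    have hpos : 0 < ∫ z, Zn (wT b N) (t • (1 : Matrix (V N) (V N) ℝ))
        (lf N l ((√(1 / τ - 1 / t) / l) • z)) ∂(gau (V (N / l))) := by
      rw [integral_pos_iff_support_of_nonneg (fun z => (hZp z).le) hi]
      have : Function.support (fun z : V (N / l) → ℝ =>
          Zn (wT b N) (t • (1 : Matrix (V N) (V N) ℝ))
            (lf N l ((√(1 / τ - 1 / t) / l) • z))) = Set.univ := by
        ext z
        exact ⟨fun _ => Set.mem_univ _, fun _ => (hZp z).ne'⟩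
      rw [this]
      simp
    rw [div_le_iff₀ hpos] at hbad
    refine le_trans (le_of_eq ?_) hbad
    refine integral_congr_ae (Filter.Eventually.of_forall fun z => ?_)
    simp only
    by_cases hz : (√(1 / τ - 1 / t) / l) • z ∈ G
    · have hz' : ntr (t • (1 : Matrix (V N) (V N) ℝ)) t *ᵥ
          lf N l ((√(1 / τ - 1 / t) / l) • z) ∈ Gd := hz
      rw [Set.indicator_of_notMem (fun h' : (√(1 / τ - 1 / t) / l) • z ∈ Gᶜ => h' hz),
        Set.indicator_of_notMem (fun h' : ntr (t • (1 : Matrix (V N) (V N) ℝ)) t *ᵥ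
          lf N l ((√(1 / τ - 1 / t) / l) • z) ∈ Gdᶜ => h' hz'), zero_mul]
    · have hz' : ntr (t • (1 : Matrix (V N) (V N) ℝ)) t *ᵥ
          lf N l ((√(1 / τ - 1 / t) / l) • z) ∈ Gdᶜ := hz
      rw [Set.indicator_of_mem (show (√(1 / τ - 1 / t) / l) • z ∈ Gᶜ from hz),
        Set.indicator_of_mem hz', one_mul]
      rfl

end

end Vale.Agent.P159.H415
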