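import Vale.Agent.P159.H415.CloseC
import Vale.Agent.P159.H801.ParEv

/-!
P159, module CH2 (helper415), part 27: **CH2 in the letters of `Good`** (order of constants of
helper801): the crude start (`ch2_crude`) and the step (`ev_ch2`).
-/

set_option linter.unusedSectionVars false

namespace Vale.Agent.P159.H415

open Finset Matrix Filter Topology
open Vale.Agent.P159.H896 (Om WP WM om)
open Vale.Agent.P159.H43 (ch2)
open Vale.Agent.P159.H864 (yt)
open Vale.Agent.P159.TM.Spec (V Rng)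
open Vale.Agent.P159.TM.SpecC (wT)
open Vale.Agent.P159.H972 (lg tn Par RNG GP Good)
open Vale.Agent.P159.H801 (Ev PS)

noncomputable section

/-- crude bound -/
theorem ch2_le_Om {V' : Type} [Fintype V'] [DecidableEq V'] {w : (V' → ℤ) → ℝ}
    {M : Matrix V' V' ℝ} (h : WP w M) : ch2 w M 0 ≤ Om w M := by
  have h1 := H43.hasSum_ch2 (w := w) h.toWM.sym h.toWM.em 0
  have hO := H896.Om_nonneg h
  have hsum : Summable fun q : ℤ => if q = 0 then 0 else om w M q := by
    refine Summable.of_nonneg_of_le (fun q => ?_) (fun q => ?_) (H896.summable_om h)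
    · by_cases hq : q = 0
      · rw [if_pos hq]
      · rw [if_neg hq]
        exact H896.om_nonneg h.toWM q
    · by_cases hq : q = 0
      · rw [if_pos hq]
        exact H896.om_nonneg h.toWM q
      · rw [if_neg hq]
  have h2 : HasSum (fun q : ℤ => Om w M * if q = 0 then 0 else om w M q) (Om w M * Om w M) := by
    have h3 := hsum.hasSum.mul_left (Om w M)
    rw [← H896.Om_eq h] at h3
    exact h3
  have h3 : ch2 w M 0 ^ 2 ≤ Om w M ^ 2 := by
    rw [pow_two (Om w M)]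
    refine hasSum_le (fun q => ?_) h1 h2
    by_cases hq : q = 0 ∨ q = 1 ∨ q = -1
    · rw [if_pos hq]
      refine mul_nonneg hO ?_
      by_cases hq0 : q = 0
      · rw [if_pos hq0]
      · rw [if_neg hq0]
        exact H896.om_nonneg h.toWM q
    · rw [if_neg hq]
      have hq0 : q ≠ 0 := fun h0 => hq (Or.inl h0)
      rw [if_neg hq0, norm_Phq_zero h.toWM, pow_two]
      have h4 := H896.two_om_le h hq0
      have h5 := H896.om_nonneg h.toWM q
      exact mul_le_mul_of_nonneg_right (by linarith) h5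
  exact (abs_le_of_sq_le_sq' h3 hO).2

/-- **CH2 at the start** -/
theorem ch2_crude {P : Par} {b : ℝ} (hb : 0 < b) {n : ℕ} {e Y : ℝ}
    (hY : ∀ r, P.TT n e r → yt (2 ^ r) b (4 * tn n) ≤ Y ∧ 4 * ((2 ^ (r - n)) ^ 2 * Y) ≤ 1) :
    CH2 P b n e (2 * Y) := by
  intro r hr
  obtain ⟨h1, h2⟩ := hY r hr
  have ht := tn_pos' n
  have hnr : n ≤ r := by
    have := hr.1
    omega
  have h3 := Om_yt hb hnr (T := 4 * tn n) (by linarith) le_rfl h1 h2
  have h4 := ch2_le_Om (H896.wp_t (N := 2 ^ r) hb.le (t := 4 * tn n) (by linarith))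
  refine (h4.trans h3).trans (le_of_eq ?_)
  ring

/-- typicality at the natural mass (`TypB` of helper816, second part) -/
def TypT (P : Par) (b : ℝ) : Prop :=
  ∀ (n : ℕ) (e τ a : ℝ), 0 < e → e ≤ P.es → tn n ≤ τ → τ ≤ 4 * tn n → GP P b a n e τ →
    ∀ r, P.TT n e r → ∀ s, 0 < s → s < tn n → ∀ _ : NeZero (2 ^ r / 2 ^ P.sE n e),
      H239.TypE (2 ^ r) (2 ^ P.sE n e) b (tn n) s (e ^ (-(P.th / 16)))
        (e ^ (1 / 20 : ℝ)) (Real.exp (-(e ^ (-(P.th / 16)))))

/-- the inputs of one step of CH2: two states, the window, the sizes `y`, `y'`, the zero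
background numbers -/
structure CI (P : Par) (b c1 : ℝ) (n m : ℕ) (e e' y y' : ℝ) : Prop where
  e0 : 0 < e
  es : e ≤ P.es
  ee : e / 2 ≤ e'
  es' : e' ≤ P.es
  w1 : 20 * n + P.w e ≤ 20 * m
  w2 : m ≤ n + 4 * P.w e
  G : Good P b n e
  G' : Good P b m e'
  y0 : 0 < y
  y0' : 0 < y'
  ye : y ^ (39 / 20 : ℝ) ≤ e
  ye' : y' ^ (39 / 20 : ℝ) ≤ e'
  hv : Real.log (1 / y') ≤ e' ^ (-c1)
  vy : yt (2 ^ (m + P.kE e')) b (4 * tn n) ≤ e ^ (-(P.thp / 20)) * y
  vy' : ∀ r, P.TT m e' r → yt (2 ^ r) b (4 * tn m) ≤ e' ^ (-(P.thp / 20)) * y'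
  yy : y ≤ (2 : ℝ) ^ (1 / 4 * ((m - n : ℕ) : ℝ)) * y'

/-- **the step of CH2 in the letters of `Good`** -/
theorem ev_ch2 {b1 : ℝ} (hb1 : 0 < b1) (b2 pf : ℝ) (Q : ℕ) :
    Ev b1 b2 pf Q fun P c1 => ∀ b : ℝ, TypT P b →
      (∀ (n m : ℕ) (e e' y y' g g' : ℝ), CI P b c1 n m e e' y y' → g' ≤ 1 / 2 →
        (2 : ℝ) ^ (-(3 / 20 * ((m - n : ℕ) : ℝ))) * e ^ g ≤ e' ^ g' →
        CH2 P b n e (y * e ^ g) → CH2 P b m e' (y' * e' ^ g')) ∧
      ∀ (n : ℕ) (e y : ℝ), 0 < b → 0 < e → e ≤ P.es → 0 < y → y ^ (39 / 20 : ℝ) ≤ e →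
        (∀ r, P.TT n e r → yt (2 ^ r) b (4 * tn n) ≤ e ^ (-(P.thp / 20)) * y) →
        CH2 P b n e (2 * (e ^ (-(P.thp / 20)) * y)) := by
  obtain ⟨W₀, h⟩ := ch2_next' hb1 b2
  refine H801.Ev.of ⟨W₀, fun W hW => ?_⟩
  obtain ⟨ys0, X, hys0, h⟩ := h W hW
  refine ⟨ys0, hys0, fun ys hy1 hy2 => ⟨X, fun X0 hX0 => ⟨1 / 4000, by norm_num,
    fun x1 hx1 hx1' => ⟨min (1 / 4000) (1 / (16000 * ((Q : ℝ) + 3))), by positivity,
    fun thp ht1 ht2 => ⟨thp / 1000, by positivity, fun th hs1 hs2 => ⟨1, fun C0 hC0 => ?_⟩⟩⟩⟩⟩⟩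
  have t1 : thp ≤ 1 / 4000 := ht2.trans (min_le_left _ _)
  have t2 : ((Q : ℝ) + 3) * thp ≤ 1 / 16000 := by
    have h3 := ht2.trans (min_le_right _ _)
    have h4 : (0 : ℝ) < 16000 * ((Q : ℝ) + 3) := by positivity
    rw [le_div_iff₀ h4] at h3
    linarith
  obtain ⟨q1, hq1⟩ : ∃ q1 : ℕ, q1 = Q + ⌈x1 / thp⌉₊ + 2 := ⟨_, rfl⟩
  have hq : th + 4 * q1 * thp ≤ 1 / 500 := by
    have h2 : (⌈x1 / thp⌉₊ : ℝ) ≤ x1 / thp + 1 := (Nat.ceil_lt_add_one (by positivity)).le
    have h3 : (⌈x1 / thp⌉₊ : ℝ) * thp ≤ x1 + thp := by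
      calc (⌈x1 / thp⌉₊ : ℝ) * thp ≤ (x1 / thp + 1) * thp := by gcongr
        _ = x1 + thp := by field_simp
    have h4 : (q1 : ℝ) * thp ≤ x1 + (Q + 3) * thp := by
      rw [hq1]
      push_cast
      linarith
    linarith
  obtain ⟨Ea, hEa, h⟩ := h th thp C0 q1 hs1 (by linarith) (by linarith) (by linarith)
    (by linarith)
  obtain ⟨Ec, hEc, hEc2, hc⟩ := le_of_ev ((sc1' (C0 := C0) hs1 (by linarith : 1000 * th ≤ thp)
    (by linarith)).and (sc13 q1 hs1 ht1 t1 hq))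
  refine ⟨th / 256, by positivity, fun c1 hc1 hc2 => ?_⟩
  obtain ⟨Eb, hEb, hEb2, hb⟩ := close_num q1 hs1 (by linarith) ht1 t1 hq hc1 hc2
  refine ⟨min Ea (min Eb Ec), lt_min hEa (lt_min hEb hEc), fun P hP b hT => ⟨?_, ?_⟩⟩
  · intro n m e e' y y' g g' H hg' hgg hZ
    have he := H.e0
    have hesE : P.es ≤ min Ea (min Eb Ec) := hP.ees
    have hEsa : P.es ≤ Ea := hesE.trans (min_le_left _ _)
    have hEsb : P.es ≤ Eb := hesE.trans ((min_le_right _ _).trans (min_le_left _ _))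
    have hEsc : P.es ≤ Ec := hesE.trans ((min_le_right _ _).trans (min_le_right _ _))
    have he' : 0 < e' := by linarith [H.ee]
    have hw : P.w e = lg thp e := by
      unfold Par.w
      rw [hP.ethp]
    have hw' : P.w e' = lg thp e' := by
      unfold Par.w
      rw [hP.ethp]
    have hkE : P.kE e = lg th e := by
      unfold Par.kE
      rw [hP.eth]
    have hkE' : P.kE e' = lg th e' := by
      unfold Par.kE
      rw [hP.eth]
    have hw2 := H.w2
    have hw1 := H.w1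
    have hd1 : lg thp e ≤ 20 * (m - n) := by rw [hw] at hw1; omega
    have hd2 : m - n ≤ 4 * lg thp e := by rw [hw] at hw2; omega
    have hnm : n ≤ m := by omega
    obtain ⟨c0, c2, c3⟩ := hb e e' y y' g g' (m - n) he (H.es.trans hEsb) H.ee (H.es'.trans hEsb)
      H.y0 H.y0' H.ye H.ye' H.hv hd2 H.yy hg' hgg
    obtain ⟨⟨s1, s1'⟩, -⟩ := hc e he (H.es.trans hEsc)
    obtain ⟨-, hdk, -, -⟩ := s1 (m - n) hd1
    obtain ⟨τ, a, hτ1, hτ2, hG⟩ := H.G
    have hGe := hG e le_rfl H.es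
    obtain ⟨τ', a', hτ1', hτ2', hG'⟩ := H.G'
    have hGe' := hG' e' le_rfl H.es'
    -- the base torus
    have hk1 : lg th e' ≤ lg th e + 1 := lg_near hs1.le (by linarith) he H.ee
    have hq2 : 2 ≤ P.q0 := by
      rw [hP.eq0]
      omega
    have hqq : P.q0 ≤ q1 := by rw [hP.eq0, hq1]
    have hTT : P.TT n e (m + P.kE e') := by
      unfold Par.TT
      rw [hkE, hkE', hw]
      have h1 : 2 * (4 * lg thp e) ≤ P.q0 * (4 * lg thp e) := Nat.mul_le_mul_right _ hq2
      exact ⟨by omega, by omega⟩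
    have hkq : m + P.kE e' - n ≤ lg th e + q1 * (4 * lg thp e) := by
      have h1 : P.q0 * (4 * lg thp e) ≤ q1 * (4 * lg thp e) := Nat.mul_le_mul_right _ hqq
      unfold Par.TT at hTT
      rw [hkE, hw] at hTT
      omega
    have htm : 4 * tn m < tn n := by
      have h4 : (256 : ℝ) ≤ 4 ^ (m - n) := by
        calc (256 : ℝ) = 4 ^ 4 := by norm_num
          _ ≤ 4 ^ (m - n) := pow_le_pow_right₀ (by norm_num) (by
            have := (s1 (m - n) hd1).1
            omega)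
      have h5 : tn m = tn n / 4 ^ (m - n) := by
        rw [← tn_add]
        congr 1
        omega
      have h6 := tn_pos' n
      rw [h5]
      have : tn n / 4 ^ (m - n) ≤ tn n / 256 := div_le_div_of_nonneg_left h6.le (by norm_num) h4
      linarith
    have hty := hT n e τ a he H.es hτ1 hτ2 hGe _ hTT (4 * tn m) (by
      have := tn_pos' m
      linarith) htm
    rw [hP.eth] at hty
    have hvy := H.vy
    rw [hP.ethp] at hvy
    have hstep := h P hP.eb1 hP.eb2 hP.eW (by rw [hP.eys]; exact hy2) (by rw [hP.eX0]; exact hX0)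
      hP.eth hP.ethp hP.eC0 hqq hq2 b n m e e' (y * e ^ g) (e ^ (-(thp / 20)) * y)
      (e' ^ (-(thp / 20)) * y') he (H.es.trans hEsa) H.ee (H.es'.trans hEsa) hw1 hw2 (by
        have := hGe.nE
        rw [hP.eC0] at this
        omega) (hGe.rng _ (Or.inl hTT)).1 (fun r hr => (hGe'.rng r (Or.inl hr)).2) hty hZ hvy
      (c2 _ hkq) (fun r hr => ⟨by
        have := H.vy' r hr
        rwa [hP.ethp] at this, c3 _ (by
          have h1 : P.q0 * (4 * lg thp e') ≤ q1 * (4 * lg thp e') := Nat.mul_le_mul_right _ hqq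
          unfold Par.TT at hr
          rw [hkE', hw'] at hr
          omega)⟩)
    exact hstep.mono c0
  · intro n e y hb0 he hes hy hye hyt
    have hEsc : P.es ≤ Ec := hP.ees.trans ((min_le_right _ _).trans (min_le_right _ _))
    obtain ⟨-, s13⟩ := hc e he (hes.trans hEsc)
    have hw : P.w e = lg thp e := by
      unfold Par.w
      rw [hP.ethp]
    have hkE : P.kE e = lg th e := by
      unfold Par.kE
      rw [hP.eth]
    have hqq : P.q0 ≤ q1 := by rw [hP.eq0, hq1]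
    have hyb := y_le hy hye
    refine ch2_crude hb0 fun r hr => ⟨hyt r hr, ?_⟩
    rw [hP.ethp]
    have h1 : r - n ≤ lg th e + q1 * (4 * lg thp e) := by
      have h1 : P.q0 * (4 * lg thp e) ≤ q1 * (4 * lg thp e) := Nat.mul_le_mul_right _ hqq
      unfold Par.TT at hr
      rw [hkE, hw] at hr
      omega
    refine le_trans ?_ (s13 (r - n) h1)
    refine mul_le_mul_of_nonneg_left (mul_le_mul_of_nonneg_left ?_ (by positivity)) (by norm_num)
    exact mul_le_mul_of_nonneg_left hyb (Real.rpow_pos_of_pos he _).le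

end

end Vale.Agent.P159.H415
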