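import Vale.Agent.P159.H864.Cel4
import Vale.Agent.P159.H363.Acl
import Vale.Agent.P159.H513.Cor2
import Vale.Agent.P159.H767.Bridge

/-!
P159, module CH2 (helper415), part 14: upper bound of the cell Hessian `acl` by the Laplacian with
a slope below `13/5`, from the one scale hypothesis `QK` of the torus (natural mass `T = ξ⁻²`).
-/

set_option linter.unusedSectionVars false

namespace Vale.Agent.P159.H415

open Finset Matrix
open Vale.Agent.P159.H37 (qf qf_eq Ght)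
open Vale.Agent.P159.H864 (TI sym rd rd1 cen lapM Wl ti_lapM sym_lapM als)
open Vale.Agent.P159.H963 (Gnh Gnc Gn nwt)
open Vale.Agent.P159.H363 (acl)
open Vale.Agent.P159.TM.H764 (EE cN Gh QK EE_nonneg pw)
open Vale.Agent.P159.TM.H859 (dirE)
open Vale.Agent.P159.TM.Spec (V GT)

noncomputable section

variable {N l : ℕ} [NeZero N] [NeZero (N / l)] {b T : ℝ}

/-- at smooth cell momenta the two Laplacians agree up to one percent -/
lemma EE_cen_sharp (hl : l ∣ N) {p : V N} (hp : cen l p)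
    (hs : EE (rd p : V (N / l)) ≤ 1 / 100) :
    (l : ℝ) ^ 2 * EE p ≤ 101 / 100 * EE (rd p : V (N / l)) := by
  have key : ∀ z : ZMod N, 2 * l * z.valMinAbs.natAbs ≤ N →
      1 - cN (rd1 z : ZMod (N / l)) ≤ 1 / 200 →
      (l : ℝ) ^ 2 * (1 - cN z) ≤ 101 / 100 * (1 - cN (rd1 z : ZMod (N / l))) := by
    intro z hz hsm
    have h1 := H864.pw_cen hz
    have hlp : (0 : ℝ) < l := by exact_mod_cast H864.l_pos hl
    have h2 : cN (rd1 z : ZMod (N / l)) = Real.cos (l * pw z) := by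
      have h3 : (rd1 z : ZMod (N / l)) = ((z.valMinAbs : ℤ) : ZMod (N / l)) := by
        rw [← H864.rd1_intCast hl, ZMod.coe_valMinAbs]
      rw [h3, TM.H764.cN_int]
      congr 1
      unfold pw
      have hNl := H864.Nl (N := N) hl
      have hn : (0 : ℝ) < ((N / l : ℕ) : ℝ) := by exact_mod_cast NeZero.pos (N / l)
      rw [← hNl]
      field_simp
    rw [h2] at hsm ⊢
    rw [TM.H764.cN_pw]
    have h4 : |(l : ℝ) * pw z| ≤ Real.pi := by
      rw [abs_mul, abs_of_pos hlp, mul_comm]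
      exact h1
    have h5 := TM.H764.one_sub_cos_low h4
    have h6 := Real.one_sub_sq_div_two_le_cos (x := pw z)
    obtain ⟨θ, hθ⟩ : ∃ θ : ℝ, θ = l * pw z := ⟨_, rfl⟩
    rw [← hθ] at h4 h5 hsm ⊢
    have hpi : Real.pi ^ 2 ≤ 10 := by
      have := Real.pi_lt_d2
      nlinarith [Real.pi_pos]
    have h7 : θ ^ 2 ≤ 1 / 40 := by
      have h8 : 2 / 10 * θ ^ 2 ≤ 2 / Real.pi ^ 2 * θ ^ 2 := by
        refine mul_le_mul_of_nonneg_right ?_ (sq_nonneg _)
        exact div_le_div_of_nonneg_left (by norm_num) (by positivity) hpi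
      linarith
    have h8 : |θ| ≤ 1 := by
      rw [← Real.sqrt_sq_eq_abs]
      refine Real.sqrt_le_one.2 ?_
      linarith
    have h9 := Real.cos_bound h8
    have h10 := (abs_le.1 h9).2
    have h11 : |θ| ^ 4 = θ ^ 2 * θ ^ 2 := by
      rw [← abs_pow, abs_of_nonneg (by positivity)]
      ring
    rw [h11] at h10
    have h12 : θ ^ 2 * θ ^ 2 ≤ θ ^ 2 * (1 / 40) := mul_le_mul_of_nonneg_left h7 (sq_nonneg _)
    have h13 : (l : ℝ) ^ 2 * (1 - Real.cos (pw z)) ≤ θ ^ 2 / 2 := by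
      have h14 : (l : ℝ) ^ 2 * (1 - Real.cos (pw z)) ≤ (l : ℝ) ^ 2 * (pw z ^ 2 / 2) :=
        mul_le_mul_of_nonneg_left (by linarith) (by positivity)
      have e : (l : ℝ) ^ 2 * (pw z ^ 2 / 2) = θ ^ 2 / 2 := by
        rw [hθ]
        ring
      linarith
    have h15 : 0 ≤ θ ^ 2 := sq_nonneg _
    linarith
  have hc : ∀ z : ZMod (N / l), 0 ≤ 1 - cN z := fun z => by
    have := TM.H764.cN_le_one z
    linarith
  have e1 : EE p = 2 * (1 - cN p.1) + 2 * (1 - cN p.2) := rfl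
  have e2 : EE (rd p : V (N / l)) =
      2 * (1 - cN (rd1 p.1 : ZMod (N / l))) + 2 * (1 - cN (rd1 p.2 : ZMod (N / l))) := rfl
  rw [e2] at hs
  have g1 := hc (rd1 p.1)
  have g2 := hc (rd1 p.2)
  have h1 := key p.1 hp.1 (by linarith)
  have h2 := key p.2 hp.2 (by linarith)
  rw [e1, e2]
  nlinarith

/-- the symbol of the cell Hessian at `k ≠ 0`, one alias -/
lemma sym_acl_alias (hb : 0 ≤ b) (hl : l ∣ N) (hT : 0 < T) {p : V N} {k : V (N / l)}
    (hpk : rd p = k) (hk : k ≠ 0) {A m : ℝ}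
    (h : T * (1 - T * Gnh N b T p) ≤ A * EE p + m) :
    sym (acl N l b T T) k ≤ (l : ℝ) ^ 2 * ((A + T * (l : ℝ) ^ 2) * EE p + m) := by
  have h1 : Gnh N b T p * Wl l p ≤ sym (Gnc N l b T T) k := by
    rw [H963.Gnc_self, H864.sym_Gc hl (H963.ti_Gn hb hT), ← hpk]
    unfold als
    exact Finset.single_le_sum (f := fun q : V N => sym (Gn N b T) q * Wl l q)
      (s := univ.filter fun q : V N => (rd q : V (N / l)) = rd p)
      (fun q _ => mul_nonneg (H963.Gnh_nonneg hb hT q) (H864.Wl_nonneg q))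
      (Finset.mem_filter.2 ⟨Finset.mem_univ p, rfl⟩)
  have h2 := H864.one_sub_Wl_le (l := l) hl p
  have h3 : T * Gnh N b T p ≤ 1 := by
    have h4 := H963.Gnh_le (N := N) hb hT p
    calc T * Gnh N b T p ≤ T * T⁻¹ := mul_le_mul_of_nonneg_left h4 hT.le
      _ = 1 := mul_inv_cancel₀ hT.ne'
  have h4 : 0 ≤ T * Gnh N b T p := mul_nonneg hT.le (H963.Gnh_nonneg hb hT p)
  rw [H363.sym_acl, if_neg hk, mul_one]
  have h5 : T * (1 - T * sym (Gnc N l b T T) k) ≤ T * (1 - T * Gnh N b T p) +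
      T * ((l : ℝ) ^ 2 * EE p) := by
    have h6 : T * (T * (Gnh N b T p * Wl l p)) ≤ T * (T * sym (Gnc N l b T T) k) :=
      mul_le_mul_of_nonneg_left (mul_le_mul_of_nonneg_left h1 hT.le) hT.le
    have h7 : T * (T * Gnh N b T p * (1 - Wl l p)) ≤ T * ((l : ℝ) ^ 2 * EE p) := by
      refine mul_le_mul_of_nonneg_left ?_ hT.le
      have h8 : 0 ≤ (l : ℝ) ^ 2 * EE p := mul_nonneg (sq_nonneg _) (EE_nonneg p)
      calc T * Gnh N b T p * (1 - Wl l p) ≤ T * Gnh N b T p * ((l : ℝ) ^ 2 * EE p) :=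
            mul_le_mul_of_nonneg_left h2 h4
        _ ≤ 1 * ((l : ℝ) ^ 2 * EE p) := mul_le_mul_of_nonneg_right h3 h8
        _ = _ := one_mul _
    nlinarith
  have h9 : (l : ℝ) ^ 2 * T - (l : ℝ) ^ 2 * T ^ 2 * sym (Gnc N l b T T) k =
      (l : ℝ) ^ 2 * (T * (1 - T * sym (Gnc N l b T T) k)) := by ring
  rw [h9]
  refine mul_le_mul_of_nonneg_left ?_ (sq_nonneg _)
  linarith

/-- **upper bound of the cell Hessian** -/
theorem acl_upper (hb : 0 < b) (hl : l ∣ N) (hT : 0 < T) (hTl : T * (l : ℝ) ^ 2 ≤ 1 / 50) {m : ℝ}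
    (hm : 0 ≤ m) (h : ∀ p : V N, p ≠ 0 → T * (1 - T * Gnh N b T p) ≤ 5 / 2 * EE p + m)
    (u : V (N / l) → ℝ) :
    (acl N l b T T *ᵥ u) ⬝ᵥ u ≤ 13 / 5 * dirE u + (l : ℝ) ^ 2 * m * ∑ x, u x ^ 2 := by
  have hlm : 0 ≤ (l : ℝ) ^ 2 * m := mul_nonneg (sq_nonneg _) hm
  have key : ∀ k : V (N / l), sym (acl N l b T T) k ≤ 13 / 5 * EE k + (l : ℝ) ^ 2 * m := by
    intro k
    have hE := EE_nonneg k
    by_cases hk : k = 0
    · rw [hk, H363.sym_acl_zero hl hb.le hT le_rfl, TM.H764.EE_zero]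
      linarith
    · by_cases hs : EE k ≤ 1 / 100
      · obtain ⟨p, hp, hpk⟩ := H864.exists_cen hl k
        have hp0 : p ≠ 0 := by
          rintro rfl
          rw [H864.rd_zero hl] at hpk
          exact hk hpk.symm
        have h1 := sym_acl_alias hb.le hl hT hpk hk (h p hp0)
        have h2 := EE_cen_sharp hl hp (by rw [hpk]; exact hs)
        rw [hpk] at h2
        have h3 : 0 ≤ EE p := EE_nonneg p
        have h4 : (5 / 2 + T * (l : ℝ) ^ 2) * ((l : ℝ) ^ 2 * EE p) ≤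
            (5 / 2 + 1 / 50) * (101 / 100 * EE k) :=
          mul_le_mul (by linarith) h2 (mul_nonneg (sq_nonneg _) h3) (by norm_num)
        have e : (l : ℝ) ^ 2 * ((5 / 2 + T * (l : ℝ) ^ 2) * EE p + m) =
            (5 / 2 + T * (l : ℝ) ^ 2) * ((l : ℝ) ^ 2 * EE p) + (l : ℝ) ^ 2 * m := by ring
        rw [e] at h1
        linarith
      · push Not at hs
        have h1 := H363.sym_acl_le hb.le hl hT le_rfl k (b := b)
        linarith
  have hti := H363.ti_acl (b := b) hb.le hl hT le_rfl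
  have h1 : TI ((13 / 5 : ℝ) • (lapM : Matrix (V (N / l)) (V (N / l)) ℝ) +
      ((l : ℝ) ^ 2 * m) • (1 : Matrix (V (N / l)) (V (N / l)) ℝ) - acl N l b T T) :=
    ((ti_lapM.smul _).add (TI.one.smul _)).sub hti
  have h2 := (H864.psd_iff h1).2 (fun k => by
    rw [H864.sym_sub, H864.sym_add, H864.sym_smul, H864.sym_smul, sym_lapM, H864.sym_one]
    have := key k
    linarith) u
  rw [H864.qf_sub_mat, H37.qf_add_mat, H864.qf_smul_mat, H864.qf_smul_mat, H513.qf_lapM'] at h2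
  have h3 : qf (1 : Matrix (V (N / l)) (V (N / l)) ℝ) u = ∑ x, u x ^ 2 := by
    rw [qf_eq, one_mulVec]
    unfold dotProduct
    exact sum_congr rfl fun x _ => by ring
  rw [h3, qf_eq, dotProduct_comm] at h2
  linarith

/-- the hypothesis of `acl_upper` at the natural mass from `QK` -/
lemma neu_upper (hb : 0 ≤ b) {ξ : ℕ} (hξ : 0 < ξ) {y : ℝ} (h : QK (ξ : ℝ) (GT N b ξ) y (5 / 2))
    (p : V N) (hp : p ≠ 0) :
    1 / (ξ : ℝ) ^ 2 * (1 - 1 / (ξ : ℝ) ^ 2 * Gnh N b (1 / (ξ : ℝ) ^ 2) p) ≤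
      5 / 2 * EE p + 1 / (ξ : ℝ) ^ 2 * y := by
  have hξR : (0 : ℝ) < ξ := by exact_mod_cast hξ
  have h1 := h p
  have h2 := H963.Ght_le_Gnh (N := N) hb (t := 1 / (ξ : ℝ) ^ 2) (by positivity) hp
  rw [H767.Ght_eq] at h2
  have h3 : Gh (GT N b ξ) p = Gh (TM.H41.G b N (ξ : ℝ)) p := rfl
  rw [← h3] at h2
  have h4 := h1.trans h2
  have h5 : 1 / (ξ : ℝ) ^ 2 * (1 / (ξ : ℝ) ^ 2 * ((1 - y) * (ξ : ℝ) ^ 2 -
      5 / 2 * (ξ : ℝ) ^ 4 * EE p)) ≤
      1 / (ξ : ℝ) ^ 2 * (1 / (ξ : ℝ) ^ 2 * Gnh N b (1 / (ξ : ℝ) ^ 2) p) :=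
    mul_le_mul_of_nonneg_left (mul_le_mul_of_nonneg_left h4 (by positivity)) (by positivity)
  have e : 1 / (ξ : ℝ) ^ 2 * (1 / (ξ : ℝ) ^ 2 * ((1 - y) * (ξ : ℝ) ^ 2 -
      5 / 2 * (ξ : ℝ) ^ 4 * EE p)) = 1 / (ξ : ℝ) ^ 2 - 1 / (ξ : ℝ) ^ 2 * y - 5 / 2 * EE p := by
    field_simp
  rw [e] at h5
  linarith

end

end Vale.Agent.P159.H415
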