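import Vale.Agent.P159.H415.Win
import Vale.Agent.P159.H896.Chm
import Vale.Agent.P159.H43.Osc

/-!
P159, module CH2 (helper415), part 4: all charges `|q| ≥ 2` together, in the letters
`ch2 w M F = (∑_{|q| ≥ 2} |Φ_q(F)|²)^{1/2}` of `H43/Neu2` and `Chn` of `H896/Flow`.
-/

namespace Vale.Agent.P159.H415

open MeasureTheory ProbabilityTheory Finset
open Vale.Agent.P159.H37 (gau Zn Un ZM Zq wM)
open Vale.Agent.P159.H764
open Vale.Agent.P159.H896 (ph continuous_ph norm_ph Chn WM cN)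
open Vale.Agent.P159.H43 (ch2 nm hat Phq)
open Vale.Agent.P159.TM.H870 (gr Zr lin)
open Vale.Agent.P159.TM.H104 (EM dU U)

noncomputable section

/-! ### a numerical series -/

lemma sum_nat_inv (s : Finset ℕ) : ∑ n ∈ s, 1 / ((n : ℝ) + 2) ^ 2 ≤ 1 := by
  obtain ⟨N, hN⟩ := s.exists_nat_subset_range
  have h1 : ∀ N : ℕ, ∑ n ∈ range N, 1 / ((n : ℝ) + 2) ^ 2 ≤ 1 - 1 / ((N : ℝ) + 1) := by
    intro N
    induction N with
    | zero => simp
    | succ N ih =>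
      rw [sum_range_succ]
      have h2 : 1 / ((N : ℝ) + 2) ^ 2 ≤ 1 / ((N : ℝ) + 1) - 1 / ((N : ℝ) + 2) := by
        rw [div_sub_div _ _ (by positivity) (by positivity), div_le_div_iff₀ (by positivity)
          (by positivity)]
        nlinarith [(Nat.cast_nonneg N : (0 : ℝ) ≤ N)]
      push_cast
      have h3 : (N : ℝ) + 1 + 1 = N + 2 := by ring
      rw [h3]
      linarith
  refine (sum_le_sum_of_subset_of_nonneg hN fun n _ _ => by positivity).trans ((h1 N).trans ?_)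
  have : (0 : ℝ) ≤ 1 / ((N : ℝ) + 1) := by positivity
  linarith

lemma sum_int_inv (Q : Finset ℤ) :
    ∑ q ∈ Q, (if q = 0 ∨ q = 1 ∨ q = -1 then 0 else 1 / (q : ℝ) ^ 2) ≤ 2 := by
  classical
  have key : ∀ P : Finset ℤ, (∀ q ∈ P, 2 ≤ |q|) → Set.InjOn Int.natAbs (P : Set ℤ) →
      ∑ q ∈ P, 1 / (q : ℝ) ^ 2 ≤ 1 := by
    intro P hP hinj
    have h1 := sum_nat_inv (P.image fun q => q.natAbs - 2)
    rw [sum_image] at h1
    · refine le_trans (le_of_eq ?_) h1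
      refine sum_congr rfl fun q hq => ?_
      have h2 := hP q hq
      have h3 : 2 ≤ q.natAbs := by
        rw [Int.abs_eq_natAbs] at h2
        omega
      have h4 : ((q.natAbs - 2 : ℕ) : ℝ) + 2 = (q.natAbs : ℝ) := by
        rw [Nat.cast_sub h3]; push_cast; ring
      rw [h4]
      congr 1
      rw [Nat.cast_natAbs, Int.cast_abs, sq_abs]
    · intro a ha b hb hab
      have h2 := hP a ha
      have h2' := hP b hb
      rw [Int.abs_eq_natAbs] at h2 h2'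
      refine hinj ha hb ?_
      simp only at hab
      omega
  have h1 : ∑ q ∈ Q, (if q = 0 ∨ q = 1 ∨ q = -1 then 0 else 1 / (q : ℝ) ^ 2) =
      ∑ q ∈ Q.filter (fun q => 2 ≤ q), 1 / (q : ℝ) ^ 2 +
        ∑ q ∈ Q.filter (fun q => q ≤ -2), 1 / (q : ℝ) ^ 2 := by
    rw [sum_filter, sum_filter, ← sum_add_distrib]
    refine sum_congr rfl fun q _ => ?_
    by_cases h0 : q = 0 ∨ q = 1 ∨ q = -1
    · rw [if_pos h0, if_neg (by omega), if_neg (by omega), add_zero]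
    · rw [if_neg h0]
      rcases lt_or_ge q 0 with h | h
      · rw [if_neg (by omega), if_pos (by omega), zero_add]
      · rw [if_pos (by omega), if_neg (by omega), add_zero]
  rw [h1]
  have h2 := key (Q.filter fun q => 2 ≤ q) (fun q hq => by
    have := (mem_filter.1 hq).2
    rw [abs_of_nonneg (by omega)]; exact this) (fun a ha b hb hab => by
      have h3 := (mem_filter.1 (mem_coe.1 ha)).2
      have h4 := (mem_filter.1 (mem_coe.1 hb)).2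
      omega)
  have h3 := key (Q.filter fun q => q ≤ -2) (fun q hq => by
    have := (mem_filter.1 hq).2
    rw [abs_of_nonpos (by omega)]; omega) (fun a ha b hb hab => by
      have h3 := (mem_filter.1 (mem_coe.1 ha)).2
      have h4 := (mem_filter.1 (mem_coe.1 hb)).2
      omega)
  linarith

/-- Bessel on the circle -/
lemma bessel {f : ℝ → ℝ} (hf : Continuous f) {B : ℝ} (hB : 0 ≤ B) (hb : ∀ s, |f s| ≤ B)
    (Q : Finset ℤ) : ∑ q ∈ Q, ‖∫ s in (0 : ℝ)..1, (f s : ℂ) * ph q s‖ ^ 2 ≤ B ^ 2 := by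
  have h1 := H43.hasSum_hat hf
  have h2 : ∑ q ∈ Q, ‖hat f q‖ ^ 2 ≤ nm f ^ 2 :=
    sum_le_hasSum Q (fun q _ => sq_nonneg _) h1
  have h3 : nm f ≤ B := H43.nm_le hf hB fun u _ => hb u
  exact h2.trans (pow_le_pow_left₀ (H43.nm_nonneg f) h3 2)

section model

variable {V : Type} [Fintype V] {w : (V → ℤ) → ℝ} {Wb : ℝ}
variable {I I' : Type} [Fintype I] [Fintype I']

lemma Phq_eq_ratio [DecidableEq V] {t : ℝ} {M' : Matrix V V ℝ} {A : Matrix V I ℝ}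
    {Kc : Matrix I V ℝ} (hch : Chn (t • (1 : Matrix V V ℝ)) M' A Kc) (hwm : WM w M') (q : ℤ) :
    Phq w M' q 0 = (∫ z, Sc w t q (A.mulVec z) ∂(gau I)) /
      ((∫ z, Nt w t (A.mulVec z) ∂(gau I) : ℝ) : ℂ) := by
  have h1 := H896.chn_Zq hch hwm q 0
  have h2 := H896.chn_Zn hch hwm 0
  simp only [zero_add, Zq_eq_Sc] at h1
  simp only [zero_add, Zn_cm] at h2
  have hc : 0 < cN (t • (1 : Matrix V V ℝ)) A := H896.cN_pos hch.nn
  have h3 := H896.Zn_pos hwm 0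
  rw [h1, h2]
  unfold Phq
  push_cast
  rw [mul_div_mul_left]
  exact_mod_cast hc.ne'

/-- the quadratic terms of all the charges together -/
lemma jensen_pq (hw0 : ∀ h, 0 ≤ w h) (hwb : ∀ h, w h ≤ Wb)
    (hp : ∃ h, 0 < w h) (hs : ∀ h, w (h + 1) = w h)
    {t ω : ℝ} (ht : 0 < t) (hω : ω ≤ 1 / 2) (hc : CH w t ω) (A : Matrix V I ℝ)
    (Q : Finset ℤ) (hQ : ∀ q ∈ Q, q ≠ 0) :
    ∑ q ∈ Q, ((∫ z, ‖Pq w t q (A.mulVec z) + Wh w t q (A.mulVec z)‖ *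
      Nt w t (A.mulVec z) ∂(gau I)) / ∫ z, Nt w t (A.mulVec z) ∂(gau I)) ^ 2 ≤
      (2 * ω ^ 2) ^ 2 := by
  set N0 := ∫ z, Nt w t (A.mulVec z) ∂(gau I) with hN0
  have hN0p : 0 < N0 := int_Nt_pos hw0 hwb hp ht A
  have hm : ∀ q, Measurable fun z : I → ℝ => ‖Pq w t q (A.mulVec z) + Wh w t q (A.mulVec z)‖ :=
    fun q => (((continuous_Pq hw0 hwb hp ht q).add (continuous_Wh hw0 hwb hp ht q)).comp
      (cont_mulVec A)).norm.measurable
  have hb : ∀ q, q ≠ 0 → ∀ F, ‖Pq w t q F + Wh w t q F‖ ≤ 2 * ω ^ 2 := fun q hq =>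
    Pq_add_Wh hw0 hwb hp hs ht hω hc hq
  have hNi := int_Nt hw0 hwb hp ht A
  have i1 : ∀ q, q ≠ 0 → Integrable (fun z =>
      ‖Pq w t q (A.mulVec z) + Wh w t q (A.mulVec z)‖ * Nt w t (A.mulVec z)) (gau I) :=
    fun q hq => hNi.bdd_mul (c := 2 * ω ^ 2) (hm q).aestronglyMeasurable
      (Filter.Eventually.of_forall fun z => by
        rw [norm_norm]; exact hb q hq _)
  have i2 : ∀ q, q ≠ 0 → Integrable (fun z =>
      ‖Pq w t q (A.mulVec z) + Wh w t q (A.mulVec z)‖ ^ 2 * Nt w t (A.mulVec z)) (gau I) :=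
    fun q hq => hNi.bdd_mul (c := (2 * ω ^ 2) ^ 2) ((hm q).pow_const 2).aestronglyMeasurable
      (Filter.Eventually.of_forall fun z => by
        rw [norm_pow, norm_norm]
        exact pow_le_pow_left₀ (norm_nonneg _) (hb q hq _) 2)
  have hj : ∀ q, q ≠ 0 → ((∫ z, ‖Pq w t q (A.mulVec z) + Wh w t q (A.mulVec z)‖ *
      Nt w t (A.mulVec z) ∂(gau I)) / N0) ^ 2 ≤
      (∫ z, ‖Pq w t q (A.mulVec z) + Wh w t q (A.mulVec z)‖ ^ 2 *
        Nt w t (A.mulVec z) ∂(gau I)) / N0 := by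
    intro q hq
    have hv := vrW_nonneg (P := gau I)
      (X := fun z => ‖Pq w t q (A.mulVec z) + Wh w t q (A.mulVec z)‖) hNi (i1 q hq) (i2 q hq)
      hN0p (fun z => (Nt_pos hw0 hwb hp ht _).le)
    unfold vrW mnW at hv
    linarith
  refine (sum_le_sum fun q hq => hj q (hQ q hq)).trans ?_
  rw [← sum_div, ← integral_finsetSum Q fun q hq => i2 q (hQ q hq), div_le_iff₀ hN0p,
    ← integral_const_mul]
  refine integral_mono_of_nonneg (Filter.Eventually.of_forall fun z =>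
    sum_nonneg fun q _ => mul_nonneg (sq_nonneg _) (Nt_pos hw0 hwb hp ht _).le)
    (hNi.const_mul _) (Filter.Eventually.of_forall fun z => ?_)
  simp only
  rw [← sum_mul]
  refine mul_le_mul_of_nonneg_right ?_ (Nt_pos hw0 hwb hp ht _).le
  obtain ⟨f, hf, hfb, hfe⟩ := Pq_Wh_hat hw0 hwb hp hs ht hω hc (A.mulVec z)
  have h2 : ∑ q ∈ Q, ‖Pq w t q (A.mulVec z) + Wh w t q (A.mulVec z)‖ ^ 2 =
      ∑ q ∈ Q, ‖∫ s in (0 : ℝ)..1, (f s : ℂ) * ph q s‖ ^ 2 :=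
    sum_congr rfl fun q hq => by rw [hfe q (hQ q hq)]
  rw [h2]
  exact bessel hf (by positivity) hfb Q

/-- from the bounds of the single charges to `ch2` -/
lemma ch2_of_bounds [DecidableEq V] {M' : Matrix V V ℝ} (hwm : WM w M') {a : ℤ → ℝ} {x Y : ℝ}
    (hY : 0 ≤ Y)
    (ha : ∀ Q : Finset ℤ, (∀ q ∈ Q, q ≠ 0) → ∑ q ∈ Q, a q ^ 2 ≤ (2 * x ^ 2) ^ 2)
    (hb : ∀ q : ℤ, ¬(q = 0 ∨ q = 1 ∨ q = -1) → ‖Phq w M' q 0‖ ≤ a q + Y / Real.pi * (1 / |(q : ℝ)|)) :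
    ch2 w M' 0 ≤ 3 * x ^ 2 + Y := by
  have hsum := H43.hasSum_ch2 (w := w) hwm.sym hwm.em 0
  have hX0 : 0 ≤ 3 * x ^ 2 + Y := by positivity
  have hfin : ∀ Q : Finset ℤ, ∑ q ∈ Q, (if q = 0 ∨ q = 1 ∨ q = -1 then 0 else
      ‖Phq w M' q 0‖ ^ 2) ≤ (3 * x ^ 2 + Y) ^ 2 := by
    intro Q
    have h1 : ∑ q ∈ Q, (if q = 0 ∨ q = 1 ∨ q = -1 then 0 else ‖Phq w M' q 0‖ ^ 2) ≤
        ∑ q ∈ Q, ((if q = 0 ∨ q = 1 ∨ q = -1 then 0 else 2 * a q ^ 2) +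
          2 * (Y / Real.pi) ^ 2 *
            (if q = 0 ∨ q = 1 ∨ q = -1 then 0 else 1 / (q : ℝ) ^ 2)) := by
      refine sum_le_sum fun q _ => ?_
      by_cases hq : q = 0 ∨ q = 1 ∨ q = -1
      · rw [if_pos hq, if_pos hq, if_pos hq]; simp
      · rw [if_neg hq, if_neg hq, if_neg hq]
        have h4 : ‖Phq w M' q 0‖ ^ 2 ≤ (a q + Y / Real.pi * (1 / |(q : ℝ)|)) ^ 2 :=
          pow_le_pow_left₀ (norm_nonneg _) (hb q hq) 2
        have h5 : (1 / |(q : ℝ)|) ^ 2 = 1 / (q : ℝ) ^ 2 := by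
          rw [div_pow, one_pow, sq_abs]
        have h6 : (Y / Real.pi * (1 / |(q : ℝ)|)) ^ 2 = (Y / Real.pi) ^ 2 * (1 / (q : ℝ) ^ 2) := by
          rw [mul_pow, h5]
        have h7 := sq_nonneg (a q - Y / Real.pi * (1 / |(q : ℝ)|))
        linarith [h7, h4, h6]
    refine h1.trans ?_
    rw [sum_add_distrib, ← mul_sum]
    have h2 := sum_int_inv Q
    have h3 : ∑ q ∈ Q, (if q = 0 ∨ q = 1 ∨ q = -1 then 0 else 2 * a q ^ 2) ≤
        2 * (2 * x ^ 2) ^ 2 := by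
      have h4 := ha (Q.filter fun q => ¬(q = 0 ∨ q = 1 ∨ q = -1)) fun q hq => by
        have := (mem_filter.1 hq).2
        push Not at this
        exact this.1
      have h5 : ∑ q ∈ Q, (if q = 0 ∨ q = 1 ∨ q = -1 then 0 else 2 * a q ^ 2) =
          2 * ∑ q ∈ Q.filter (fun q => ¬(q = 0 ∨ q = 1 ∨ q = -1)), a q ^ 2 := by
        rw [sum_filter, mul_sum]
        refine sum_congr rfl fun q _ => ?_
        by_cases hq : q = 0 ∨ q = 1 ∨ q = -1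
        · rw [if_pos hq, if_neg (not_not.2 hq), mul_zero]
        · rw [if_neg hq, if_pos hq]
      rw [h5]
      linarith
    have h6 : 2 * (Y / Real.pi) ^ 2 * ∑ q ∈ Q,
        (if q = 0 ∨ q = 1 ∨ q = -1 then 0 else 1 / (q : ℝ) ^ 2) ≤ 2 * (Y / Real.pi) ^ 2 * 2 :=
      mul_le_mul_of_nonneg_left h2 (by positivity)
    have h7 : (Y / Real.pi) ^ 2 ≤ (Y / 2) ^ 2 := by
      refine pow_le_pow_left₀ (by positivity) ?_ 2
      exact div_le_div_of_nonneg_left hY (by norm_num) Real.two_le_pi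
    have h8 : (Y / 2) ^ 2 = Y ^ 2 / 4 := by ring
    have h9 : (3 * x ^ 2 + Y) ^ 2 = 9 * (x ^ 2) ^ 2 + 6 * (x ^ 2 * Y) + Y ^ 2 := by ring
    have h10 : (2 * x ^ 2) ^ 2 = 4 * (x ^ 2) ^ 2 := by ring
    have h11 : 0 ≤ x ^ 2 * Y := by positivity
    have h12 : 0 ≤ (x ^ 2) ^ 2 := by positivity
    rw [h9]
    rw [h10] at h3
    rw [h8] at h7
    linarith
  have h1 : ch2 w M' 0 ^ 2 ≤ (3 * x ^ 2 + Y) ^ 2 := le_of_tendsto' hsum fun Q => hfin Q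
  exact (abs_le_of_sq_le_sq' h1 hX0).2

/-- **CH2**: all the charges `|q| ≥ 2` after one window. -/
theorem ch2_window [DecidableEq V] (hw0 : ∀ h, 0 ≤ w h) (hwb : ∀ h, w h ≤ Wb)
    (hp : ∃ h, 0 < w h) (hs : ∀ h, w (h + 1) = w h)
    {t ω : ℝ} (ht : 0 < t) (hω : ω ≤ 1 / 2) (h : NC w t ω) (hc : CH w t ω)
    {M' : Matrix V V ℝ} {A : Matrix V I ℝ} {Kc : Matrix I V ℝ}
    (hch : Chn (t • (1 : Matrix V V ℝ)) M' A Kc) (hwm : WM w M')
    {A' : Matrix V I' ℝ} {R : (V → ℝ) → ℝ} {K : ℝ} (hR : Ref w t A A' R K)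
    {θ : ℝ} (hθ : ∫ z, Real.exp (R (A'.mulVec z)) ∂(gau I') ≤ 1 + θ)
    {ι : Type*} (S : Finset ι) (g : ι → V → ℝ) (hg1 : ∑ i ∈ S, g i = fun _ => 1)
    (hg : ∀ i ∈ S, t * ∑ x, g i x ^ 2 ≤ 1) (B : ι → Set V) (cut : ι → (V → ℝ) → V → ℝ)
    (hcut : ∀ i ∈ S, Cut (B i) (cut i)) (u : ι → I' → ℝ)
    (hu : ∀ i ∈ S, ∀ x ∈ B i, A'.mulVec (u i) x = 1) (hu0 : ∀ i ∈ S, 0 < ∑ j, u i j ^ 2) {κ : ℝ}
    (hκ0 : 0 < κ) (hκ : ∀ i ∈ S, ∑ j, u i j ^ 2 ≤ κ) {good : Set (V → ℝ)}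
    (hgm : MeasurableSet good)
    {ε δ : ℝ} (hε : 0 ≤ ε) (hδ : 0 ≤ δ)
    (hloc : ∀ F ∈ good, ∀ i ∈ S, ∀ s ∈ Set.Icc (0 : ℝ) 1,
      |dU w (cm t) (shc F s) (g i) - dU w (cm t) (shc (cut i F) s) (g i)| ≤ ε)
    (hbad : ∫ z, goodᶜ.indicator (fun F => Nt w t F) (A.mulVec z) ∂(gau I) ≤
      δ * ∫ z, Nt w t (A.mulVec z) ∂(gau I)) :
    ch2 w M' 0 ≤ 3 * ω ^ 2 + S.card / 2 *
      (5 * ω * (Real.exp (-(8 * Real.pi ^ 2 / κ)) + θ) + ε + 10 * ω * δ) := by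
  have hω0 := h.ω0
  have hN0p : 0 < ∫ z, Nt w t (A.mulVec z) ∂(gau I) := int_Nt_pos hw0 hwb hp ht A
  set E := 5 * ω * (Real.exp (-(8 * Real.pi ^ 2 / κ)) + θ) + ε + 10 * ω * δ with hE
  have hθ0 : 0 ≤ θ := by
    have h3 : (1 : ℝ) ≤ ∫ z, Real.exp (R (A'.mulVec z)) ∂(gau I') := by
      have : ∫ _z : I' → ℝ, (1 : ℝ) ∂(gau I') = 1 := by simp
      rw [← this]
      exact integral_mono (integrable_const 1) hR.Ri fun z => Real.one_le_exp (hR.R0 _)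
    linarith
  have hE0 : 0 ≤ E := by
    rw [hE]
    have := (Real.exp_pos (-(8 * Real.pi ^ 2 / κ))).le
    positivity
  refine ch2_of_bounds hwm (by positivity)
    (jensen_pq hw0 hwb hp hs ht hω hc A) fun q hq => ?_
  push Not at hq
  have hq0 : (q : ℝ) ≠ 0 := by exact_mod_cast hq.1
  have hqa : 0 < |(q : ℝ)| := abs_pos.2 hq0
  have h1 := window_pre hw0 hwb hp hs ht hω h hc hq.1 hR hθ S g hg1 hg B cut hcut u hu hu0 hκ hgm
    hε hloc hbad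
  have h4 : (4 : ℝ) ≤ (q : ℝ) ^ 2 := by
    have : (4 : ℤ) ≤ q ^ 2 := by
      rcases lt_or_ge q 0 with h | h
      · have : q ≤ -2 := by omega
        nlinarith
      · have : 2 ≤ q := by omega
        nlinarith
    exact_mod_cast this
  have h5 : Real.exp (-(2 * Real.pi ^ 2 * q ^ 2 / κ)) ≤ Real.exp (-(8 * Real.pi ^ 2 / κ)) := by
    refine Real.exp_le_exp.2 (neg_le_neg ?_)
    refine div_le_div_of_nonneg_right ?_ hκ0.le
    have := mul_le_mul_of_nonneg_left h4 (by positivity : 0 ≤ 2 * Real.pi ^ 2)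
    linarith
  have h6 : 5 * ω * (Real.exp (-(2 * Real.pi ^ 2 * q ^ 2 / κ)) + θ) + ε + 10 * ω * δ ≤ E := by
    rw [hE]
    have := mul_le_mul_of_nonneg_left (add_le_add_left h5 θ) (by positivity : 0 ≤ 5 * ω)
    linarith
  have h7 : 0 ≤ (S.card : ℝ) / (2 * Real.pi * |(q : ℝ)|) := by positivity
  have h8 := mul_le_mul_of_nonneg_left h6 h7
  have h9 : (S.card : ℝ) / (2 * Real.pi * |(q : ℝ)|) * E =
      S.card / 2 * E / Real.pi * (1 / |(q : ℝ)|) := by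
    field_simp
  rw [Phq_eq_ratio hch hwm q, norm_div, Complex.norm_real, Real.norm_eq_abs, abs_of_pos hN0p,
    div_le_iff₀ hN0p, add_mul, div_mul_cancel₀ _ hN0p.ne', ← h9]
  refine h1.trans (add_le_add_right ?_ _)
  exact mul_le_mul_of_nonneg_right h8 hN0p.le

end model

end

end Vale.Agent.P159.H415
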