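import Vale.Agent.P159.H415.WinS

/-!
P159, module CH2 (helper415), part 26: **the step of CH2 closes** relative to the size `y` of the
state (`close_num`).
-/

set_option linter.unusedSectionVars false

namespace Vale.Agent.P159.H415

open Finset Matrix Filter Topology
open Vale.Agent.P159.H972 (lg tn Par RNG)

noncomputable section

/-- the square of the zero background number of level `n` -/
lemma sc9 {thp : ℝ} (h0 : 0 < thp) (h1 : thp ≤ 1 / 4000) :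
    ∀ᶠ e in 𝓝[>] (0 : ℝ), ∀ (d : ℕ) (e' : ℝ), d ≤ 4 * lg thp e → e / 2 ≤ e' →
      e ^ (-(26 * thp)) * (e ^ (-(thp / 20))) ^ 2 * (e ^ (20 / 39 : ℝ) *
        (2 : ℝ) ^ (1 / 4 * (d : ℝ))) ≤ 1 / 8 * e' ^ (1 / 2 : ℝ) := by
  filter_upwards [ev_half, ev_lgb 1000] with e he g1 d e' hd hee
  have he1 : e ≤ 1 := he.2.trans (by norm_num)
  have l2 := lg_le' (c := thp) h0.le he.1 he1
  obtain ⟨u, hu⟩ : ∃ u : ℝ, u = Real.logb 2 (1 / e) := ⟨_, rfl⟩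
  rw [← hu] at l2 g1
  have pw : ∀ c : ℝ, e ^ (-c) = (2 : ℝ) ^ (c * u) := fun c => by rw [hu, two_rpow_logb he.1]
  have pw' : ∀ c : ℝ, e ^ c = (2 : ℝ) ^ (-(c * u)) := fun c => by
    rw [← neg_neg c, pw (-c)]
    congr 1
    ring
  have hdR2 : (d : ℝ) ≤ 4 * lg thp e := by exact_mod_cast hd
  have h2 : (2 : ℝ) ^ (-(1 / 2 * (u + 1))) ≤ e' ^ (1 / 2 : ℝ) := by
    have h3 : (e / 2) ^ (1 / 2 : ℝ) ≤ e' ^ (1 / 2 : ℝ) :=
      Real.rpow_le_rpow (by linarith [he.1]) hee (by norm_num)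
    refine le_trans (le_of_eq ?_) h3
    rw [Real.div_rpow he.1.le (by norm_num), pw', ← Real.rpow_sub (by norm_num)]
    congr 1
    ring
  have h3 : (1 / 8 : ℝ) = (2 : ℝ) ^ (-3 : ℝ) := by
    rw [Real.rpow_neg (by norm_num)]
    norm_num
  have hu1 : thp * u ≤ 1 / 4000 * u := mul_le_mul_of_nonneg_right h1 (by linarith)
  calc e ^ (-(26 * thp)) * (e ^ (-(thp / 20))) ^ 2 * (e ^ (20 / 39 : ℝ) *
        (2 : ℝ) ^ (1 / 4 * (d : ℝ))) ≤ 1 / 8 * (2 : ℝ) ^ (-(1 / 2 * (u + 1))) := by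
        rw [pw, pw, pw', h3, ← Real.rpow_natCast, ← Real.rpow_mul (by norm_num),
          ← Real.rpow_add (by norm_num), ← Real.rpow_add (by norm_num),
          ← Real.rpow_add (by norm_num), ← Real.rpow_add (by norm_num)]
        refine Real.rpow_le_rpow_of_exponent_le (by norm_num) ?_
        push_cast
        linarith
    _ ≤ _ := mul_le_mul_of_nonneg_left h2 (by norm_num)

/-- the square of the zero background number of level `m` -/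
lemma sc10 {th thp : ℝ} (q1 : ℕ) (h0 : 0 < thp) (h1 : thp ≤ 1 / 4000)
    (hq : th + 4 * q1 * thp ≤ 1 / 500) :
    ∀ᶠ e in 𝓝[>] (0 : ℝ), e ^ (-(3 * (th + 4 * q1 * thp))) * (e ^ (-(thp / 20))) ^ 2 *
      e ^ (20 / 39 : ℝ) ≤ 1 / 8 * e ^ (1 / 2 : ℝ) := by
  filter_upwards [ev_half, ev_lgb 1000] with e he g1
  obtain ⟨u, hu⟩ : ∃ u : ℝ, u = Real.logb 2 (1 / e) := ⟨_, rfl⟩
  rw [← hu] at g1
  have pw : ∀ c : ℝ, e ^ (-c) = (2 : ℝ) ^ (c * u) := fun c => by rw [hu, two_rpow_logb he.1]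
  have pw' : ∀ c : ℝ, e ^ c = (2 : ℝ) ^ (-(c * u)) := fun c => by
    rw [← neg_neg c, pw (-c)]
    congr 1
    ring
  have h3 : (1 / 8 : ℝ) = (2 : ℝ) ^ (-3 : ℝ) := by
    rw [Real.rpow_neg (by norm_num)]
    norm_num
  have hu1 : thp * u ≤ 1 / 4000 * u := mul_le_mul_of_nonneg_right h1 (by linarith)
  have hu2 : (th + 4 * q1 * thp) * u ≤ 1 / 500 * u := mul_le_mul_of_nonneg_right hq (by linarith)
  rw [pw, pw, pw', pw', h3, ← Real.rpow_natCast, ← Real.rpow_mul (by norm_num),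
    ← Real.rpow_add (by norm_num), ← Real.rpow_add (by norm_num), ← Real.rpow_add (by norm_num)]
  refine Real.rpow_le_rpow_of_exponent_le (by norm_num) ?_
  push_cast
  linarith

/-- the exponentially small errors of level `n` -/
lemma sc11 {th c1 : ℝ} (h0 : 0 < th) (hth1 : th ≤ 1) (h1 : 0 < c1) (h2 : c1 ≤ th / 256) :
    ∀ᶠ e in 𝓝[>] (0 : ℝ), ∀ e' : ℝ, e / 2 ≤ e' →
      Real.exp (-(e ^ (-(th / 128)))) ≤ 1 / 8 * (Real.exp (-(e' ^ (-c1))) * e' ^ (1 / 2 : ℝ)) := by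
  filter_upwards [ev_half, ev_const 3 (c := th / 256) (by positivity),
    ev_log (3 * Real.log 2 + 1 / 2 * Real.log 2) (1 / 2 * Real.log 2) (c := th / 256)
      (by positivity)] with e he g1 g2 e' hee
  have he1 : e ≤ 1 := he.2.trans (by norm_num)
  have he2 : 0 < e / 2 := by linarith [he.1]
  have he0 : 0 < e' := he2.trans_le hee
  obtain ⟨u, hu⟩ : ∃ u : ℝ, u = Real.logb 2 (1 / e) := ⟨_, rfl⟩
  rw [← hu] at g2
  have pw : ∀ c : ℝ, e ^ (-c) = (2 : ℝ) ^ (c * u) := fun c => by rw [hu, two_rpow_logb he.1]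
  have pw' : ∀ c : ℝ, e ^ c = (2 : ℝ) ^ (-(c * u)) := fun c => by
    rw [← neg_neg c, pw (-c)]
    congr 1
    ring
  have h2' : (2 : ℝ) ^ (-(1 / 2 * (u + 1))) ≤ e' ^ (1 / 2 : ℝ) := by
    have h3 : (e / 2) ^ (1 / 2 : ℝ) ≤ e' ^ (1 / 2 : ℝ) :=
      Real.rpow_le_rpow he2.le hee (by norm_num)
    refine le_trans (le_of_eq ?_) h3
    rw [Real.div_rpow he.1.le (by norm_num), pw', ← Real.rpow_sub (by norm_num)]
    congr 1
    ring
  have h4 : e' ^ (-c1) ≤ 2 * e ^ (-(th / 256)) := by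
    have h5 : e' ^ (-c1) ≤ (e / 2) ^ (-c1) := Real.rpow_le_rpow_of_nonpos he2 hee (by linarith)
    have h6 : (e / 2) ^ (-c1) ≤ 2 * e ^ (-c1) := by
      rw [Real.div_rpow he.1.le (by norm_num), Real.rpow_neg (by norm_num : (0 : ℝ) ≤ 2), div_inv_eq_mul,
        mul_comm]
      refine mul_le_mul_of_nonneg_right ?_ (Real.rpow_pos_of_pos he.1 _).le
      calc (2 : ℝ) ^ c1 ≤ 2 ^ (1 : ℝ) := Real.rpow_le_rpow_of_exponent_le (by norm_num) (by linarith)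
        _ = 2 := Real.rpow_one 2
    have h7 : e ^ (-c1) ≤ e ^ (-(th / 256)) :=
      Real.rpow_le_rpow_of_exponent_ge he.1 he1 (by linarith)
    linarith
  have h8 : (1 / 8 : ℝ) * (2 : ℝ) ^ (-(1 / 2 * (u + 1))) =
      Real.exp (-(3 * Real.log 2 + 1 / 2 * Real.log 2 + 1 / 2 * Real.log 2 * u)) := by
    have h3 : (1 / 8 : ℝ) = (2 : ℝ) ^ (-3 : ℝ) := by
      rw [Real.rpow_neg (by norm_num)]
      norm_num
    rw [h3, ← Real.rpow_add (by norm_num), Real.rpow_def_of_pos (by norm_num)]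
    congr 1
    ring
  calc Real.exp (-(e ^ (-(th / 128)))) ≤ Real.exp (-(e' ^ (-c1))) *
        Real.exp (-(3 * Real.log 2 + 1 / 2 * Real.log 2 + 1 / 2 * Real.log 2 * u)) := by
        rw [← Real.exp_add]
        refine Real.exp_le_exp.2 ?_
        have h9 : e ^ (-(th / 128)) = e ^ (-(th / 256)) * e ^ (-(th / 256)) := by
          rw [← Real.rpow_add he.1]
          congr 1
          ring
        have h10 : 3 * e ^ (-(th / 256)) ≤ e ^ (-(th / 128)) := by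
          rw [h9]
          exact mul_le_mul_of_nonneg_right g1 (Real.rpow_pos_of_pos he.1 _).le
        linarith
    _ = Real.exp (-(e' ^ (-c1))) * (1 / 8 * (2 : ℝ) ^ (-(1 / 2 * (u + 1)))) := by rw [h8]
    _ ≤ Real.exp (-(e' ^ (-c1))) * (1 / 8 * e' ^ (1 / 2 : ℝ)) := by
        refine mul_le_mul_of_nonneg_left ?_ (Real.exp_pos _).le
        exact mul_le_mul_of_nonneg_left h2' (by norm_num)
    _ = _ := by ring

/-- the exponentially small errors of level `m` -/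
lemma sc12 {th c1 : ℝ} (h0 : 0 < th) (h2 : c1 ≤ th / 256) :
    ∀ᶠ e in 𝓝[>] (0 : ℝ),
      Real.exp (-(e ^ (-(th / 4)))) ≤ 1 / 8 * (Real.exp (-(e ^ (-c1))) * e ^ (1 / 2 : ℝ)) := by
  filter_upwards [ev_half, ev_const 2 (c := th / 8) (by positivity),
    ev_log (3 * Real.log 2) (1 / 2 * Real.log 2) (c := th / 8) (by positivity)] with e he g1 g2
  have he1 : e ≤ 1 := he.2.trans (by norm_num)
  obtain ⟨u, hu⟩ : ∃ u : ℝ, u = Real.logb 2 (1 / e) := ⟨_, rfl⟩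
  rw [← hu] at g2
  have pw : ∀ c : ℝ, e ^ (-c) = (2 : ℝ) ^ (c * u) := fun c => by rw [hu, two_rpow_logb he.1]
  have pw' : ∀ c : ℝ, e ^ c = (2 : ℝ) ^ (-(c * u)) := fun c => by
    rw [← neg_neg c, pw (-c)]
    congr 1
    ring
  have h8 : (1 / 8 : ℝ) * e ^ (1 / 2 : ℝ) =
      Real.exp (-(3 * Real.log 2 + 1 / 2 * Real.log 2 * u)) := by
    have h3 : (1 / 8 : ℝ) = (2 : ℝ) ^ (-3 : ℝ) := by
      rw [Real.rpow_neg (by norm_num)]
      norm_num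
    rw [h3, pw', ← Real.rpow_add (by norm_num), Real.rpow_def_of_pos (by norm_num)]
    congr 1
    ring
  have e1 : 1 / 8 * (Real.exp (-(e ^ (-c1))) * e ^ (1 / 2 : ℝ)) =
      Real.exp (-(e ^ (-c1))) * (1 / 8 * e ^ (1 / 2 : ℝ)) := by ring
  rw [e1, h8, ← Real.exp_add]
  refine Real.exp_le_exp.2 ?_
  have h7 : e ^ (-c1) ≤ e ^ (-(th / 8)) :=
    Real.rpow_le_rpow_of_exponent_ge he.1 he1 (by linarith)
  have h9 : e ^ (-(th / 4)) = e ^ (-(th / 8)) * e ^ (-(th / 8)) := by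
    rw [← Real.rpow_add he.1]
    congr 1
    ring
  have h10 : 2 * e ^ (-(th / 8)) ≤ e ^ (-(th / 4)) := by
    rw [h9]
    exact mul_le_mul_of_nonneg_right g1 (Real.rpow_pos_of_pos he.1 _).le
  linarith

/-- small activity on the tori of the level -/
lemma sc13 {th thp : ℝ} (q1 : ℕ) (hth : 0 < th) (h0 : 0 < thp) (h1 : thp ≤ 1 / 4000)
    (hq : th + 4 * q1 * thp ≤ 1 / 500) :
    ∀ᶠ e in 𝓝[>] (0 : ℝ), ∀ k : ℕ, k ≤ lg th e + q1 * (4 * lg thp e) →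
      4 * ((2 ^ k) ^ 2 * (e ^ (-(thp / 20)) * e ^ (20 / 39 : ℝ))) ≤ 1 := by
  filter_upwards [ev_half, ev_lgb (8 + 16 * q1)] with e he g1 k hk
  have he1 : e ≤ 1 := he.2.trans (by norm_num)
  have l2 := lg_le' (c := thp) h0.le he.1 he1
  have l3 := lg_le' (c := th) hth.le he.1 he1
  obtain ⟨u, hu⟩ : ∃ u : ℝ, u = Real.logb 2 (1 / e) := ⟨_, rfl⟩
  rw [← hu] at g1 l2 l3
  have hq0 : (0 : ℝ) ≤ q1 := Nat.cast_nonneg _
  have u0 : 0 ≤ u := by linarith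
  have pw : ∀ c : ℝ, e ^ (-c) = (2 : ℝ) ^ (c * u) := fun c => by rw [hu, two_rpow_logb he.1]
  have pw' : ∀ c : ℝ, e ^ c = (2 : ℝ) ^ (-(c * u)) := fun c => by
    rw [← neg_neg c, pw (-c)]
    congr 1
    ring
  have hkR : (k : ℝ) ≤ lg th e + q1 * (4 * lg thp e) := by exact_mod_cast hk
  have hq' : (q1 : ℝ) * (4 * lg thp e) ≤ q1 * (4 * (thp * u + 1)) := by gcongr
  have h5 : (k : ℝ) ≤ (1 + 4 * (q1 : ℝ)) + (th + 4 * q1 * thp) * u := by nlinarith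
  have hu1 : thp * u ≤ 1 / 4000 * u := mul_le_mul_of_nonneg_right h1 u0
  have hu2 : (th + 4 * q1 * thp) * u ≤ 1 / 500 * u := mul_le_mul_of_nonneg_right hq u0
  have e1 : (2 : ℝ) ^ (k * 2) = (2 : ℝ) ^ ((k * 2 : ℕ) : ℝ) := (Real.rpow_natCast _ _).symm
  rw [← pow_mul, e1, pw, pw', show (4 : ℝ) = (2 : ℝ) ^ (2 : ℝ) by norm_num,
    ← Real.rpow_add (by norm_num), ← Real.rpow_add (by norm_num), ← Real.rpow_add (by norm_num)]
  refine Real.rpow_le_one_of_one_le_of_nonpos (by norm_num) ?_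
  push_cast
  linarith

/-- `y ≤ e ^ (20 / 39)` -/
lemma y_le {y e : ℝ} (hy : 0 < y) (h : y ^ (39 / 20 : ℝ) ≤ e) : y ≤ e ^ (20 / 39 : ℝ) := by
  have h1 : 0 ≤ y ^ (39 / 20 : ℝ) := (Real.rpow_pos_of_pos hy _).le
  have h2 := Real.rpow_le_rpow h1 h (show (0 : ℝ) ≤ 20 / 39 by norm_num)
  rwa [← Real.rpow_mul hy.le, show (39 / 20 : ℝ) * (20 / 39) = 1 by norm_num, Real.rpow_one] at h2

/-- `exp (-(e ^ (-c1))) ≤ y` -/
lemma y_ge {y e c1 : ℝ} (hy : 0 < y) (h : Real.log (1 / y) ≤ e ^ (-c1)) :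
    Real.exp (-(e ^ (-c1))) ≤ y := by
  rw [one_div, Real.log_inv] at h
  calc Real.exp (-(e ^ (-c1))) ≤ Real.exp (Real.log y) := Real.exp_le_exp.2 (by linarith)
    _ = y := Real.exp_log hy

/-- **the sum of the errors of one step** -/
theorem close_num {th thp c1 : ℝ} (q1 : ℕ) (hth : 0 < th) (hth1 : th ≤ 1) (h0 : 0 < thp)
    (h1 : thp ≤ 1 / 4000) (hq : th + 4 * q1 * thp ≤ 1 / 500) (hc1 : 0 < c1) (hc2 : c1 ≤ th / 256) :
    ∃ E0 : ℝ, 0 < E0 ∧ E0 ≤ 1 / 2 ∧ ∀ (e e' y y' g g' : ℝ) (d : ℕ), 0 < e → e ≤ E0 → e / 2 ≤ e' →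
      e' ≤ E0 → 0 < y → 0 < y' → y ^ (39 / 20 : ℝ) ≤ e → y' ^ (39 / 20 : ℝ) ≤ e' →
      Real.log (1 / y') ≤ e' ^ (-c1) → d ≤ 4 * lg thp e → y ≤ (2 : ℝ) ^ (1 / 4 * (d : ℝ)) * y' →
      g' ≤ 1 / 2 → (2 : ℝ) ^ (-(3 / 20 * (d : ℝ))) * e ^ g ≤ e' ^ g' →
      1 / 2 * (2 : ℝ) ^ (-(2 / 5 * (d : ℝ))) * (y * e ^ g) +
        e ^ (-(26 * thp)) * (e ^ (-(thp / 20)) * y) ^ 2 +
        e' ^ (-(3 * (th + 4 * q1 * thp))) * (e' ^ (-(thp / 20)) * y') ^ 2 +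
        Real.exp (-(e ^ (-(th / 128)))) + Real.exp (-(e' ^ (-(th / 4)))) ≤ y' * e' ^ g' ∧
      (∀ k : ℕ, k ≤ lg th e + q1 * (4 * lg thp e) →
        4 * ((2 ^ k) ^ 2 * (e ^ (-(thp / 20)) * y)) ≤ 1) ∧
      ∀ k : ℕ, k ≤ lg th e' + q1 * (4 * lg thp e') →
        4 * ((2 ^ k) ^ 2 * (e' ^ (-(thp / 20)) * y')) ≤ 1 := by
  obtain ⟨E0, hE0, hE2, hE⟩ := le_of_ev (((sc9 h0 h1).and (sc10 (th := th) q1 h0 h1 hq)).and
    (((sc11 hth hth1 hc1 hc2).and (sc12 hth hc2)).and (sc13 q1 hth h0 h1 hq)))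
  refine ⟨E0, hE0, hE2, ?_⟩
  intro e e' y y' g g' d he heE hee he'E hy hy' hy1 hy2 hv hd hyy hg' hgg
  have he' : 0 < e' := by linarith
  have he1 : e' ≤ 1 := he'E.trans (hE2.trans (by norm_num))
  obtain ⟨⟨s9, -⟩, ⟨s11, -⟩, s13⟩ := hE e he heE
  obtain ⟨⟨-, s10'⟩, ⟨-, s12'⟩, s13'⟩ := hE e' he' he'E
  have hyb := y_le hy hy1
  have hyb' := y_le hy' hy2
  have hyg := y_ge hy' hv
  have hh : e' ^ (1 / 2 : ℝ) ≤ e' ^ g' := Real.rpow_le_rpow_of_exponent_ge he' he1 hg'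
  have hp2 : 0 < e' ^ (1 / 2 : ℝ) := Real.rpow_pos_of_pos he' _
  refine ⟨?_, fun k hk => ?_, fun k hk => ?_⟩
  · have t1 : 1 / 2 * (2 : ℝ) ^ (-(2 / 5 * (d : ℝ))) * (y * e ^ g) ≤ 1 / 2 * (y' * e' ^ g') := by
      have a0 : 0 < e ^ g := Real.rpow_pos_of_pos he _
      have a1 : (2 : ℝ) ^ (-(2 / 5 * (d : ℝ))) * (2 : ℝ) ^ (1 / 4 * (d : ℝ)) =
          (2 : ℝ) ^ (-(3 / 20 * (d : ℝ))) := by
        rw [← Real.rpow_add (by norm_num)]
        congr 1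
        ring
      have a2 : (0 : ℝ) < (2 : ℝ) ^ (-(2 / 5 * (d : ℝ))) := by positivity
      calc 1 / 2 * (2 : ℝ) ^ (-(2 / 5 * (d : ℝ))) * (y * e ^ g) ≤
            1 / 2 * (2 : ℝ) ^ (-(2 / 5 * (d : ℝ))) * ((2 : ℝ) ^ (1 / 4 * (d : ℝ)) * y' * e ^ g) := by
            refine mul_le_mul_of_nonneg_left ?_ (by positivity)
            exact mul_le_mul_of_nonneg_right hyy a0.le
        _ = 1 / 2 * (y' * (((2 : ℝ) ^ (-(2 / 5 * (d : ℝ))) * (2 : ℝ) ^ (1 / 4 * (d : ℝ))) *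
            e ^ g)) := by ring
        _ ≤ 1 / 2 * (y' * e' ^ g') := by
            rw [a1]
            refine mul_le_mul_of_nonneg_left ?_ (by norm_num)
            exact mul_le_mul_of_nonneg_left hgg hy'.le
    have t2 : e ^ (-(26 * thp)) * (e ^ (-(thp / 20)) * y) ^ 2 ≤ 1 / 8 * (y' * e' ^ (1 / 2 : ℝ)) := by
      have a3 := s9 d e' hd hee
      have a4 : 0 < e ^ (-(26 * thp)) * (e ^ (-(thp / 20))) ^ 2 := by
        have := Real.rpow_pos_of_pos he (-(26 * thp))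
        have := Real.rpow_pos_of_pos he (-(thp / 20))
        positivity
      calc e ^ (-(26 * thp)) * (e ^ (-(thp / 20)) * y) ^ 2 =
            e ^ (-(26 * thp)) * (e ^ (-(thp / 20))) ^ 2 * (y * y) := by ring
        _ ≤ e ^ (-(26 * thp)) * (e ^ (-(thp / 20))) ^ 2 * (e ^ (20 / 39 : ℝ) *
            ((2 : ℝ) ^ (1 / 4 * (d : ℝ)) * y')) := by
            refine mul_le_mul_of_nonneg_left ?_ a4.le
            exact mul_le_mul hyb hyy hy.le (Real.rpow_pos_of_pos he _).le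
        _ = e ^ (-(26 * thp)) * (e ^ (-(thp / 20))) ^ 2 * (e ^ (20 / 39 : ℝ) *
            (2 : ℝ) ^ (1 / 4 * (d : ℝ))) * y' := by ring
        _ ≤ 1 / 8 * e' ^ (1 / 2 : ℝ) * y' := mul_le_mul_of_nonneg_right a3 hy'.le
        _ = _ := by ring
    have t3 : e' ^ (-(3 * (th + 4 * q1 * thp))) * (e' ^ (-(thp / 20)) * y') ^ 2 ≤
        1 / 8 * (y' * e' ^ (1 / 2 : ℝ)) := by
      have a4 : 0 < e' ^ (-(3 * (th + 4 * q1 * thp))) * (e' ^ (-(thp / 20))) ^ 2 := by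
        have := Real.rpow_pos_of_pos he' (-(3 * (th + 4 * q1 * thp)))
        have := Real.rpow_pos_of_pos he' (-(thp / 20))
        positivity
      calc e' ^ (-(3 * (th + 4 * q1 * thp))) * (e' ^ (-(thp / 20)) * y') ^ 2 =
            e' ^ (-(3 * (th + 4 * q1 * thp))) * (e' ^ (-(thp / 20))) ^ 2 * (y' * y') := by ring
        _ ≤ e' ^ (-(3 * (th + 4 * q1 * thp))) * (e' ^ (-(thp / 20))) ^ 2 *
            (e' ^ (20 / 39 : ℝ) * y') := by
            refine mul_le_mul_of_nonneg_left ?_ a4.le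
            exact mul_le_mul_of_nonneg_right hyb' hy'.le
        _ = e' ^ (-(3 * (th + 4 * q1 * thp))) * (e' ^ (-(thp / 20))) ^ 2 *
            e' ^ (20 / 39 : ℝ) * y' := by ring
        _ ≤ 1 / 8 * e' ^ (1 / 2 : ℝ) * y' := mul_le_mul_of_nonneg_right s10' hy'.le
        _ = _ := by ring
    have b0 : Real.exp (-(e' ^ (-c1))) * e' ^ (1 / 2 : ℝ) ≤ y' * e' ^ (1 / 2 : ℝ) :=
      mul_le_mul_of_nonneg_right hyg hp2.le
    have t4 := s11 e' hee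
    have t6 : y' * e' ^ (1 / 2 : ℝ) ≤ y' * e' ^ g' := mul_le_mul_of_nonneg_left hh hy'.le
    linarith
  · refine le_trans ?_ (s13 k hk)
    refine mul_le_mul_of_nonneg_left (mul_le_mul_of_nonneg_left ?_ (by positivity)) (by norm_num)
    exact mul_le_mul_of_nonneg_left hyb (Real.rpow_pos_of_pos he _).le
  · refine le_trans ?_ (s13' k hk)
    refine mul_le_mul_of_nonneg_left (mul_le_mul_of_nonneg_left ?_ (by positivity)) (by norm_num)
    exact mul_le_mul_of_nonneg_left hyb' (Real.rpow_pos_of_pos he' _).le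

end

end Vale.Agent.P159.H415
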