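import Vale.Agent.P159.H415.CellT
import Vale.Agent.P159.H859.Win

/-!
P159, module CH2 (helper415), part 12: **the charges `|q| ≥ 2` on the torus**, one window, general cuts.
Fine mass `t` (scalar), cells of side `l`, coarse mass `τ` (scalar).
-/

set_option linter.unusedSectionVars false

namespace Vale.Agent.P159.H415

open MeasureTheory ProbabilityTheory Finset Matrix
open Vale.Agent.P159.H37 (gau Zn Un ZM Zq wM wt qf qf_eq qf_smul Rs cellP Zs Gm Ech post Tq)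
open Vale.Agent.P159.H764 (NC cm Nt shc UN ZM_cm Zn_cm Un_cm)
open Vale.Agent.P159.H864 (MC cobV cl up cobV_tr_mulVec cobV_mul_tr cellP_eq MC_eq)
open Vale.Agent.P159.H896 (Chn WM WP om Om wp_t chn_row)
open Vale.Agent.P159.H43 (ch2 Phq)
open Vale.Agent.P159.H963 (An GW gw_wT mf_smul nwt ntr nMC obsN Pn Neu mf_MC em_nMC Gnc)
open Vale.Agent.P159.H552 (lft cutB measurable_cutB cutB_congr cutB_add)
open Vale.Agent.P159.H145 (cs)
open Vale.Agent.P159.H363 (lf acl Rcl lf_eq)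
open Vale.Agent.P159.H612 (Far)
open Vale.Agent.P159.TM.H104 (EM Ex Cv Gr li dU U Cf)
open Vale.Agent.P159.TM.H859 (dirE tn logCut logCut_eq_one)
open Vale.Agent.P159.TM.Spec (V)
open Vale.Agent.P159.TM.SpecC (Tor wT)

noncomputable section

variable {N l : ℕ} [NeZero N] [NeZero (N / l)] {b t τ : ℝ}

lemma cut_lft (hl : l ∣ N) {Bc : Set (V (N / l))} {kap : (V (N / l) → ℝ) → V (N / l) → ℝ}
    (h : Cut Bc kap) :
    Cut {x : V N | cl x ∈ Bc} fun F : V N → ℝ => lft cl (kap (rpr F)) where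
  meas := (continuous_lft.measurable).comp (h.meas.comp measurable_rpr)
  shift F r := by
    have e : rpr (fun x => F x + r) = fun c => (rpr F : V (N / l) → ℝ) c + r := rfl
    rw [e, h.shift]
    rfl
  loc F F' hF := by
    rw [h.loc (rpr F) (rpr F')]
    intro c' hc'
    exact hF (up c') (by show cl (up c') ∈ Bc; rw [H864.cl_up hl c']; exact hc')

/-- **CH2 on the torus**, one window: fine mass `t`, cells of side `l`, coarse mass `τ`.
`Ac` = neutral stiffness of the cell heights, `G` = good set of cell fields. -/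
theorem ch2_torusA (hl : l ∣ N) (hb : 0 ≤ b) (ht : 0 < t) (hτ : 0 < τ) (hτt : τ < t)
    {ω : ℝ} (hω : ω ≤ 1 / 2)
    (hOm : Om (wT b N) ((2 * t) • (1 : Matrix (V N) (V N) ℝ)) ≤ ω) {x₀ : V N}
    {Ac : Matrix (V (N / l)) (V (N / l)) ℝ} (hAs : Acᵀ = Ac)
    (hAq : ∀ φ, qf Ac φ = qf (An (wT b N) (t • (1 : Matrix (V N) (V N) ℝ)) t x₀) (lft cl φ))
    {a m : ℝ} (ha0 : 0 ≤ a) (hm0 : 0 ≤ m)
    (ha : ∀ u, (Ac *ᵥ u) ⬝ᵥ u ≤ a * dirE u + m * ∑ x, u x ^ 2)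
    {ι : Type} (S : Finset ι) (g : ι → V N → ℝ) (hg1 : ∑ i ∈ S, g i = fun _ => 1)
    (hg : ∀ i ∈ S, t * ∑ x, g i x ^ 2 ≤ 1) (c : ι → V (N / l)) {D : ℕ} {r₀ L : ℝ}
    (Bc : ι → Set (V (N / l))) (hBc : ∀ i ∈ S, ∀ x ∈ Bc i, x ∈ H462.box (c i) D)
    (kap : ι → (V (N / l) → ℝ) → V (N / l) → ℝ) (hkap : ∀ i ∈ S, Cut (Bc i) (kap i))
    (hr₀ : 10 ≤ r₀) (hDr : √2 * D ≤ r₀) (hL : 2 ≤ L) (hN : 2 * (L * r₀ + 1) ≤ (N / l : ℕ))
    {G : Set (V (N / l) → ℝ)} (hG : MeasurableSet G) {η ε δ : ℝ} (hε : 0 ≤ ε) (hδ : 0 ≤ δ)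
    (hδ1 : δ < 1)
    (hη : ∀ φ ∈ G, Rs (nwt N b t x₀) (ntr (t • (1 : Matrix (V N) (V N) ℝ)) t *ᵥ lft cl φ) ≤ η)
    (hloc : ∀ φ ∈ G, ∀ i ∈ S, ∀ s ∈ Set.Icc (0 : ℝ) 1,
      |Ex (wt N b t) (t • cs (lft cl φ) s) (li (t • g i)) -
        Ex (wt N b t) (t • cs (lft cl (kap i φ)) s) (li (t • g i))| ≤ ε)
    (hbad : ∫ z, Gᶜ.indicator
        (fun φ => Zn (wT b N) (t • (1 : Matrix (V N) (V N) ℝ)) (lft cl φ))
        ((√(1 / τ - 1 / t) / l) • z) ∂(gau (V (N / l))) ≤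
      δ * ∫ z, Zn (wT b N) (t • (1 : Matrix (V N) (V N) ℝ))
        (lft cl ((√(1 / τ - 1 / t) / l) • z)) ∂(gau (V (N / l)))) :
    ch2 (wT b N) (τ • (1 : Matrix (V N) (V N) ℝ)) 0 ≤
      2 * ω ^ 2 + S.card / (4 * Real.pi) *
        (5 / 2 * (ch2 (wT b N) ((2 * t) • (1 : Matrix (V N) (V N) ℝ)) 0 + 2 * ω ^ 2) *
          (Real.exp (-(8 * Real.pi ^ 2 / (a * ((1 + 68 / r₀) * (2 * Real.pi / Real.log L)) +
              (((1 / τ - 1 / t) / l ^ 2)⁻¹ + m) * (2 * (L * r₀) + 1) ^ 2))) +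
            (Real.exp η / (1 - δ) - 1) + 2 * δ) + ε) := by
  classical
  have h2t : 0 < 2 * t := by linarith
  have hl0 := l_pos' hl
  have hw0 := H789.wT_nonneg hb N
  have hwb := H789.wT_le hb (N := N)
  have hp : ∃ h, 0 < wT b N h := ⟨0, H789.wT_zero_pos hb⟩
  have hs1 : ∀ h, wT b N (h + 1) = wT b N h := wT_one
  set σ0 := 1 / τ - 1 / t with hσ0
  have hσp : 0 < σ0 := sub_pos.2 (one_div_lt_one_div_of_lt hτ hτt)
  set σ := √σ0 / (l : ℝ) with hσ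
  have hσσ : σ ^ 2 = σ0 / (l : ℝ) ^ 2 := by
    rw [hσ, div_pow, Real.sq_sqrt hσp.le]
  have hσ2 : 0 < σ ^ 2 := by rw [hσσ]; positivity
  -- channel
  obtain ⟨K, hch⟩ := chn_cells (N := N) (l := l) hl ht hτ hτt.le
  rw [← hσ0, ← hσ] at hch
  have hwpC : WP (wT b N) (MC N l t τ) := by
    refine H896.wp_wT hb hτ (H864.MC_tr N l t τ) ?_
    exact fun u => H864.qf_MC_ge hl hτt.le u
  -- neutral free energy
  have hnc : NC (wT b N) t ω := nc_wT hb ht (by linarith) hOm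
  have hOm1 : Om (wT b N) (t • (1 : Matrix (V N) (V N) ℝ)) ≤ ω :=
    (Om_scalar ht (by linarith) (wp_t hb ht) (wp_t hb h2t)).trans hOm
  have hcc : CH (wT b N) t ω := ch_wT hb ht hOm1
  set Anm := An (wT b N) (t • (1 : Matrix (V N) (V N) ℝ)) t x₀ with hAnm
  have hUeq : ∀ F, UN (wT b N) t F = qf Anm F / 2 -
      Rs (nwt N b t x₀) (ntr (t • (1 : Matrix (V N) (V N) ℝ)) t *ᵥ F) := by
    intro F
    rw [← Un_cm]
    exact (gw_wT hb).Un_eq (mf_smul ht) x₀ F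
  have hU : ∀ F, UN (wT b N) t F ≤ qf Anm F / 2 := by
    intro F
    rw [← Un_cm]
    exact (gw_wT hb).Un_le (mf_smul ht) x₀ F
  have hAn0 : ∀ φ, 0 ≤ qf Ac φ := by
    intro φ
    rw [hAq]
    exact (gw_wT hb).qf_An_nonneg (mf_smul ht) x₀ _
  obtain ⟨⟨Gs, hGs⟩, hdet⟩ := exists_sqrt hAs hAn0 (σ := σ)
  have hRef := ref_tilt hw0 hwb hp ht hU (Lf := Lf N l) hAs
    (fun φ => by rw [hAq, Lf_mulVec hl]) hAn0 hGs
  -- good set
  have hgm := measurableSet_gdf (N := N) hG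
  have hind : ∀ z : V (N / l) → ℝ, (gdf (N := N) G)ᶜ.indicator
      (fun F => Nt (wT b N) t F) ((σ • Lf N l) *ᵥ z) =
      Gᶜ.indicator (fun φ => Zn (wT b N) (t • (1 : Matrix (V N) (V N) ℝ)) (lft cl φ))
        (σ • z) := by
    intro z
    have e1 : (σ • Lf N l) *ᵥ z = lft cl (σ • z) := by
      rw [smul_mulVec, ← mulVec_smul, Lf_mulVec hl]
    rw [e1]
    by_cases hz : σ • z ∈ G
    · rw [Set.indicator_of_notMem (fun h' : lft cl (σ • z) ∈ (gdf (N := N) G)ᶜ =>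
          h' ((mem_gdf hl _).2 hz)),
        Set.indicator_of_notMem (fun h' : σ • z ∈ Gᶜ => h' hz)]
    · rw [Set.indicator_of_mem (show lft cl (σ • z) ∈ (gdf (N := N) G)ᶜ from
          fun h' => hz ((mem_gdf hl _).1 h')),
        Set.indicator_of_mem (show σ • z ∈ Gᶜ from hz), Zn_cm]
  have hNt : ∀ z : V (N / l) → ℝ, Nt (wT b N) t ((σ • Lf N l) *ᵥ z) =
      Zn (wT b N) (t • (1 : Matrix (V N) (V N) ℝ)) (lft cl (σ • z)) := by
    intro z
    have e1 : (σ • Lf N l) *ᵥ z = lft cl (σ • z) := by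
      rw [smul_mulVec, ← mulVec_smul, Lf_mulVec hl]
    rw [e1, Zn_cm]
  have hbad' : ∫ z, (gdf (N := N) G)ᶜ.indicator (fun F => Nt (wT b N) t F)
      ((σ • Lf N l) *ᵥ z) ∂(gau (V (N / l))) ≤
      δ * ∫ z, Nt (wT b N) t ((σ • Lf N l) *ᵥ z) ∂(gau (V (N / l))) := by
    simp_rw [hind, hNt]
    exact hbad
  have hη' : ∀ F ∈ gdf (N := N) G, RU (wT b N) t Anm F ≤ η := by
    intro F hF
    unfold RU
    rw [hUeq]
    have h1 := hη _ hF.1
    rw [← hF.2] at h1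
    linarith
  have hθ := theta_of_good hRef hgm hδ1 hη' hbad'
  -- capacities
  have hΓ := gam_mul hσ2 hdet
  set Γi := Ac + (σ ^ 2)⁻¹ • (1 : Matrix (V (N / l)) (V (N / l)) ℝ) with hΓi
  set κ := a * ((1 + 68 / r₀) * (2 * Real.pi / Real.log L)) +
    ((σ0 / (l : ℝ) ^ 2)⁻¹ + m) * (2 * (L * r₀) + 1) ^ 2 with hκ
  have hcap : ∀ i, (Γi *ᵥ logCut (c i) r₀ L) ⬝ᵥ logCut (c i) r₀ L ≤ κ := by
    intro i
    rw [hκ, ← hσσ]
    refine H363.cap_tor (AN := Ac - m • (1 : Matrix (V (N / l)) (V (N / l)) ℝ)) (a := a)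
      (add_nonneg (inv_nonneg.2 hσ2.le) hm0) (fun u => ?_) ha0 ?_ (c i) hr₀ hL hN
    · have h1 := ha u
      have h2 : ((m • (1 : Matrix (V (N / l)) (V (N / l)) ℝ)) *ᵥ u) ⬝ᵥ u = m * ∑ x, u x ^ 2 := by
        rw [smul_mulVec, one_mulVec, smul_dotProduct, smul_eq_mul]
        congr 1
        unfold dotProduct
        exact sum_congr rfl fun x _ => by ring
      rw [sub_mulVec, sub_dotProduct, h2]
      linarith
    · rw [hΓi, add_smul]
      abel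
  set u : ι → V (N / l) → ℝ := fun i => Gsᵀ *ᵥ (Γi *ᵥ logCut (c i) r₀ L) with hu
  have hcv : ∀ i, Gs *ᵥ (u i) = logCut (c i) r₀ L ∧
      ∑ j, (u i) j ^ 2 = (Γi *ᵥ logCut (c i) r₀ L) ⬝ᵥ logCut (c i) r₀ L := fun i =>
    cap_vec hGs hΓ _
  have hcentre : ∀ i, c i ∈ H462.box (c i) D := by
    intro i
    rw [H462.mem_box]
    simp
  have hone : ∀ i, logCut (c i) r₀ L (c i) = 1 := by
    intro i
    exact logCut_eq_one ((H363.tn_le_of_box (hcentre i)).trans hDr)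
  have hκ0 : ∀ i, 0 < ∑ j, (u i) j ^ 2 := by
    intro i
    refine lt_of_le_of_ne (sum_nonneg fun _ _ => sq_nonneg _) fun h0 => ?_
    have h1 : u i = 0 := by
      funext j
      have h2 := (sum_eq_zero_iff_of_nonneg (fun j _ => sq_nonneg (u i j))).1 h0.symm j
        (mem_univ j)
      simpa using h2
    have h3 := (hcv i).1
    rw [h1, mulVec_zero] at h3
    have h4 := congrFun h3 (c i)
    rw [hone i] at h4
    simp at h4
  have key := ch2_rec (w := wT b N) hw0 hwb hp hs1 ht hω hnc hcc hch hwpC.toWM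
    (wp_t hb h2t).toWM hRef hθ S g hg1 hg (fun i => {x : V N | cl x ∈ Bc i})
    (fun i F => lft cl (kap i (rpr F)))
    (fun i hi => cut_lft hl (hkap i hi)) u
    (fun i hi x hx => by
      rw [← mulVec_mulVec, (hcv i).1, Lf_mulVec hl]
      exact logCut_eq_one ((H363.tn_le_of_box (hBc i hi _ hx)).trans hDr))
    (fun i _ => hκ0 i) (κ := κ) (fun i _ => by rw [(hcv i).2]; exact hcap i) hgm hε hδ
    (fun F hF i hi => ⟨∑ x, t * g i x * (F x - (lft cl (kap i (rpr F)) : V N → ℝ) x),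
      fun s hs => by
        have h1 := hloc _ hF.1 i hi s hs
        rw [← hF.2] at h1
        have e1 : ∀ F : V N → ℝ, t • shc F s = t • cs F s := fun F => rfl
        rw [dU_wT, dU_wT, e1, e1]
        have e2 : (∑ x, t * g i x * shc F s x) - (∑ x, t * g i x *
            shc ((lft cl (kap i (rpr F)) : V N → ℝ)) s x) =
            ∑ x, t * g i x * (F x - (lft cl (kap i (rpr F)) : V N → ℝ) x) := by
          rw [← sum_sub_distrib]
          refine sum_congr rfl fun x _ => ?_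
          unfold shc
          ring
        rw [← e2, show ∀ p q r s : ℝ, p - q - (r - s) - (p - r) = -(q - s) from
          fun p q r s => by ring, abs_neg]
        exact h1⟩) hbad'
  exact (ch2_cells hl hτ hτt.le (wp_t hb hτ).toWM).trans key

variable {t1 : ℝ}

/-- **CH2, one window, cell letters.** `acl` = neutral Hessian of the cell fields, good set `Gd` of
sources, bad set in the exact channel law of the prior mass `τ`. -/
theorem ch2_cellA (hl : l ∣ N) (hb : 0 ≤ b) (ht : 0 < t) (hτ : 0 < τ) (hτt : τ < t)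
    {ω : ℝ} (hω : ω ≤ 1 / 2)
    (hOm : Om (wT b N) ((2 * t) • (1 : Matrix (V N) (V N) ℝ)) ≤ ω)
    {a m : ℝ} (ha0 : 0 ≤ a) (hm0 : 0 ≤ m)
    (ha : ∀ u, (acl N l b t t *ᵥ u) ⬝ᵥ u ≤ a * dirE u + m * ∑ x, u x ^ 2)
    {ι : Type} (S : Finset ι) (g : ι → V N → ℝ) (hg1 : ∑ i ∈ S, g i = fun _ => 1)
    (hg : ∀ i ∈ S, t * ∑ x, g i x ^ 2 ≤ 1) (c : ι → V (N / l)) {D : ℕ} {r₀ L : ℝ}
    (Bc : ι → Set (V (N / l))) (hBc : ∀ i ∈ S, ∀ x ∈ Bc i, x ∈ H462.box (c i) D)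
    (kap : ι → (V (N / l) → ℝ) → V (N / l) → ℝ) (hkap : ∀ i ∈ S, Cut (Bc i) (kap i))
    (hr₀ : 10 ≤ r₀) (hDr : √2 * D ≤ r₀) (hL : 2 ≤ L) (hN : 2 * (L * r₀ + 1) ≤ (N / l : ℕ))
    {Gd : Set (V N → ℝ)} (hG : MeasurableSet Gd) {η ε δ : ℝ} (hε : 0 ≤ ε) (hδ : 0 ≤ δ)
    (hδ1 : δ < 1) (hη : ∀ J ∈ Gd, Rs (nwt N b t 0) J ≤ η)
    (hloc : ∀ φ, ntr (t • (1 : Matrix (V N) (V N) ℝ)) t *ᵥ lf N l φ ∈ Gd → ∀ i ∈ S,
      ∀ s ∈ Set.Icc (0 : ℝ) 1,
      |Ex (wt N b t) (t • cs (lf N l φ) s) (li (t • g i)) -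
        Ex (wt N b t) (t • cs (lf N l (kap i φ)) s) (li (t • g i))| ≤ ε)
    (hbad : Ech (nMC N l b t τ 0) 0 (obsN N l (t - τ)) (Gdᶜ.indicator fun _ => 1) ≤ δ) :
    ch2 (wT b N) (τ • (1 : Matrix (V N) (V N) ℝ)) 0 ≤
      2 * ω ^ 2 + S.card / (4 * Real.pi) *
        (5 / 2 * (ch2 (wT b N) ((2 * t) • (1 : Matrix (V N) (V N) ℝ)) 0 + 2 * ω ^ 2) *
          (Real.exp (-(8 * Real.pi ^ 2 / (a * ((1 + 68 / r₀) * (2 * Real.pi / Real.log L)) +
              (((1 / τ - 1 / t) / l ^ 2)⁻¹ + m) * (2 * (L * r₀) + 1) ^ 2))) +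
            (Real.exp η / (1 - δ) - 1) + 2 * δ) + ε) := by
  have hMt : MC N l t t = t • (1 : Matrix (V N) (V N) ℝ) := H864.MC_self N l t
  have hcont : Continuous fun φ : V (N / l) → ℝ =>
      ntr (t • (1 : Matrix (V N) (V N) ℝ)) t *ᵥ lf N l φ := by
    unfold Matrix.mulVec dotProduct lf
    fun_prop
  set G : Set (V (N / l) → ℝ) := {φ | ntr (t • (1 : Matrix (V N) (V N) ℝ)) t *ᵥ lf N l φ ∈ Gd}
    with hGdef
  have hGm : MeasurableSet G := hcont.measurable hG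
  refine ch2_torusA hl hb ht hτ hτt hω hOm (x₀ := 0) (Ac := acl N l b t t)
    (H363.ti_acl hb hl ht le_rfl).transpose ?_ ha0 hm0 ha S g hg1 hg c Bc hBc kap hkap hr₀ hDr hL hN hGm hε hδ hδ1
    (fun φ hφ => hη _ hφ) (fun φ hφ => hloc φ hφ) ?_
  · intro φ
    have h1 := H363.qf_An_lf (b := b) hl ht le_rfl φ
    rw [hMt] at h1
    exact h1.symm
  · have h1 := Ech_cells (t1 := t) (t := t) hb hl hτ hτt le_rfl
      (Φ := Gdᶜ.indicator fun _ => 1) (measurable_const.indicator hG.compl)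
    rw [hMt] at h1
    rw [h1] at hbad
    have hZp : ∀ z : V (N / l) → ℝ, 0 < Zn (wT b N) (t • (1 : Matrix (V N) (V N) ℝ))
        (lf N l ((√(1 / τ - 1 / t) / l) • z)) := fun z => (gw_wT hb).Zn_pos (mf_smul ht) _
    have hi : Integrable (fun z : V (N / l) → ℝ => Zn (wT b N) (t • (1 : Matrix (V N) (V N) ℝ))
        (lf N l ((√(1 / τ - 1 / t) / l) • z))) (gau (V (N / l))) := by
      have h2 := int_Nt (H789.wT_nonneg hb N) (H789.wT_le hb) ⟨0, H789.wT_zero_pos hb⟩ ht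
        (I := V (N / l)) ((√(1 / τ - 1 / t) / l) • Lf N l)
      refine h2.congr (Filter.Eventually.of_forall fun z => ?_)
      simp only
      rw [smul_mulVec, ← mulVec_smul, Lf_mulVec hl, ← Zn_cm]
      rfl
    have hpos : 0 < ∫ z, Zn (wT b N) (t • (1 : Matrix (V N) (V N) ℝ))
        (lf N l ((√(1 / τ - 1 / t) / l) • z)) ∂(gau (V (N / l))) := by
      rw [integral_pos_iff_support_of_nonneg (fun z => (hZp z).le) hi]
      have : Function.support (fun z : V (N / l) → ℝ =>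
          Zn (wT b N) (t • (1 : Matrix (V N) (V N) ℝ))
            (lf N l ((√(1 / τ - 1 / t) / l) • z))) = Set.univ := by
        ext z
        exact ⟨fun _ => Set.mem_univ _, fun _ => (hZp z).ne'⟩
      rw [this]
      simp
    rw [div_le_iff₀ hpos] at hbad
    refine le_trans (le_of_eq ?_) hbad
    refine integral_congr_ae (Filter.Eventually.of_forall fun z => ?_)
    simp only
    by_cases hz : (√(1 / τ - 1 / t) / l) • z ∈ G
    · have hz' : ntr (t • (1 : Matrix (V N) (V N) ℝ)) t *ᵥ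
          lf N l ((√(1 / τ - 1 / t) / l) • z) ∈ Gd := hz
      rw [Set.indicator_of_notMem (fun h' : (√(1 / τ - 1 / t) / l) • z ∈ Gᶜ => h' hz),
        Set.indicator_of_notMem (fun h' : ntr (t • (1 : Matrix (V N) (V N) ℝ)) t *ᵥ
          lf N l ((√(1 / τ - 1 / t) / l) • z) ∈ Gdᶜ => h' hz'), zero_mul]
    · have hz' : ntr (t • (1 : Matrix (V N) (V N) ℝ)) t *ᵥ
          lf N l ((√(1 / τ - 1 / t) / l) • z) ∈ Gdᶜ := hz
      rw [Set.indicator_of_mem (show (√(1 / τ - 1 / t) / l) • z ∈ Gᶜ from hz),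
        Set.indicator_of_mem hz', one_mul]
      rfl

/-! ### the average cut -/

/-- inside `w` the field, outside `w` the mean over `w₀` -/
def cutA {n : ℕ} (w w₀ : Finset (V n)) (φ : V n → ℝ) : V n → ℝ := fun x =>
  if x ∈ w then φ x else (w₀.card : ℝ)⁻¹ * ∑ y ∈ w₀, φ y

lemma cut_cutA {n : ℕ} {w w₀ : Finset (V n)} (h0 : w₀.Nonempty) (hw : w₀ ⊆ w) :
    Cut {x : V n | x ∈ w} (cutA w w₀) where
  meas := by
    refine measurable_pi_iff.2 fun x => ?_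
    unfold cutA
    by_cases hx : x ∈ w
    · simp only [if_pos hx]
      exact measurable_pi_apply x
    · simp only [if_neg hx]
      exact (Finset.measurable_sum _ fun y _ => measurable_pi_apply y).const_mul _
  shift φ r := by
    have hc : (w₀.card : ℝ) ≠ 0 := by exact_mod_cast h0.card_pos.ne'
    funext x
    unfold cutA
    by_cases hx : x ∈ w
    · simp only [if_pos hx]
    · simp only [if_neg hx]
      rw [sum_add_distrib, sum_const, nsmul_eq_mul, mul_add, inv_mul_cancel_left₀ hc]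
  loc φ φ' h := by
    funext x
    unfold cutA
    have h1 : ∑ y ∈ w₀, φ y = ∑ y ∈ w₀, φ' y :=
      sum_congr rfl fun y hy => h y (show y ∈ w from hw hy)
    by_cases hx : x ∈ w
    · rw [if_pos hx, if_pos hx]
      exact h x hx
    · rw [if_neg hx, if_neg hx, h1]

lemma cutA_eq {n : ℕ} [NeZero n] (w w₀ : Finset (V n)) (φ : V n → ℝ) :
    cutA w w₀ φ = fun x => (H859.Lw w w₀ *ᵥ φ) x + (w₀.card : ℝ)⁻¹ * ∑ y ∈ w₀, φ y := by
  funext x
  rw [H859.Lw_mulVec]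
  unfold cutA
  split_ifs
  · ring
  · ring

end

end Vale.Agent.P159.H415
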