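import Vale.Agent.P159.H415.EvC

/-!
P159, module CH2 (helper415), part 28: **CH2 in the letters of `Good`**, second form: any exponent
`c ≤ th / 256` of the regime `log (1 / y) ≤ e ^ (-c)`, exponents `g' ≤ g + thp / 200` (`ev_ch2c`);
the ratio `y / y'` from the flow (`yy_of_flow`).
-/

set_option linter.unusedSectionVars false

namespace Vale.Agent.P159.H415

open Finset Matrix Filter Topology
open Vale.Agent.P159.H43 (ch2)
open Vale.Agent.P159.H864 (yt)
open Vale.Agent.P159.TM.Spec (V Rng)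
open Vale.Agent.P159.TM.SpecC (wT)
open Vale.Agent.P159.H972 (lg tn Par RNG GP Good)
open Vale.Agent.P159.H801 (Ev PS)

noncomputable section

/-- the exponents `g ↦ g + thp / 200` -/
lemma sc14 {thp : ℝ} (h0 : 0 < thp) : ∀ᶠ e in 𝓝[>] (0 : ℝ), ∀ (d : ℕ) (e' g g' : ℝ),
    lg thp e ≤ 20 * d → e / 2 ≤ e' → 0 ≤ g' → g' ≤ 1 / 2 → g' ≤ g + thp / 200 →
      (2 : ℝ) ^ (-(3 / 20 * (d : ℝ))) * e ^ g ≤ e' ^ g' := by
  filter_upwards [ev_half, ev_lgb (200 / thp)] with e he g1 d e' g g' hd hee hg0 hg1 hgg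
  have he1 : e ≤ 1 := he.2.trans (by norm_num)
  have l2 := lg_ge' thp e
  obtain ⟨u, hu⟩ : ∃ u : ℝ, u = Real.logb 2 (1 / e) := ⟨_, rfl⟩
  rw [← hu] at g1 l2
  have k1 : 200 ≤ thp * u := by
    rw [div_le_iff₀ h0] at g1
    linarith
  have pw : ∀ c : ℝ, e ^ (-c) = (2 : ℝ) ^ (c * u) := fun c => by rw [hu, two_rpow_logb he.1]
  have pw' : ∀ c : ℝ, e ^ c = (2 : ℝ) ^ (-(c * u)) := fun c => by
    rw [← neg_neg c, pw (-c)]
    congr 1
    ring
  have u0 : 0 ≤ u := by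
    rw [hu]
    exact Real.logb_nonneg one_lt_two ((le_div_iff₀ he.1).2 (by linarith))
  have hdR : (lg thp e : ℝ) ≤ 20 * d := by exact_mod_cast hd
  have h3 : (e / 2) ^ g' ≤ e' ^ g' := Real.rpow_le_rpow (by linarith [he.1]) hee hg0
  refine le_trans ?_ h3
  rw [Real.div_rpow he.1.le (by norm_num), pw', pw', ← Real.rpow_sub (by norm_num),
    ← Real.rpow_add (by norm_num)]
  refine Real.rpow_le_rpow_of_exponent_le (by norm_num) ?_
  have h4 : g' * u ≤ (g + thp / 200) * u := mul_le_mul_of_nonneg_right hgg u0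
  linarith

/-- **the step of CH2 in the letters of `Good`**, any regime exponent `c ≤ th / 256` -/
theorem ev_ch2c {b1 : ℝ} (hb1 : 0 < b1) (b2 pf : ℝ) (Q : ℕ) :
    Ev b1 b2 pf Q fun P _ => ∀ b : ℝ, TypT P b →
      ∀ (c : ℝ) (n m : ℕ) (e e' y y' g g' : ℝ), c ≤ P.th / 256 → CI P b c n m e e' y y' →
        0 ≤ g' → g' ≤ 1 / 2 → g' ≤ g + P.thp / 200 →
        CH2 P b n e (y * e ^ g) → CH2 P b m e' (y' * e' ^ g') := by
  obtain ⟨W₀, h⟩ := ch2_next' hb1 b2
  refine H801.Ev.of ⟨W₀, fun W hW => ?_⟩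
  obtain ⟨ys0, X, hys0, h⟩ := h W hW
  refine ⟨ys0, hys0, fun ys hy1 hy2 => ⟨X, fun X0 hX0 => ⟨1 / 4000, by norm_num,
    fun x1 hx1 hx1' => ⟨min (1 / 4000) (1 / (16000 * ((Q : ℝ) + 3))), by positivity,
    fun thp ht1 ht2 => ⟨thp / 1000, by positivity, fun th hs1 hs2 => ⟨1, fun C0 hC0 => ?_⟩⟩⟩⟩⟩⟩
  have t1 : thp ≤ 1 / 4000 := ht2.trans (min_le_left _ _)
  have t2 : ((Q : ℝ) + 3) * thp ≤ 1 / 16000 := by
    have h3 := ht2.trans (min_le_right _ _)
    have h4 : (0 : ℝ) < 16000 * ((Q : ℝ) + 3) := by positivity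
    rw [le_div_iff₀ h4] at h3
    linarith
  obtain ⟨q1, hq1⟩ : ∃ q1 : ℕ, q1 = Q + ⌈x1 / thp⌉₊ + 2 := ⟨_, rfl⟩
  have hq : th + 4 * q1 * thp ≤ 1 / 500 := by
    have h2 : (⌈x1 / thp⌉₊ : ℝ) ≤ x1 / thp + 1 := (Nat.ceil_lt_add_one (by positivity)).le
    have h3 : (⌈x1 / thp⌉₊ : ℝ) * thp ≤ x1 + thp := by
      calc (⌈x1 / thp⌉₊ : ℝ) * thp ≤ (x1 / thp + 1) * thp := by gcongr
        _ = x1 + thp := by field_simp
    have h4 : (q1 : ℝ) * thp ≤ x1 + (Q + 3) * thp := by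
      rw [hq1]
      push_cast
      linarith
    linarith
  obtain ⟨Ea, hEa, h⟩ := h th thp C0 q1 hs1 (by linarith) (by linarith) (by linarith)
    (by linarith)
  obtain ⟨Ec, hEc, hEc2, hc⟩ := le_of_ev ((sc1' (C0 := C0) hs1 (by linarith : 1000 * th ≤ thp)
    (by linarith)).and (sc14 ht1))
  obtain ⟨Eb, hEb, hEb2, hb⟩ := close_num q1 hs1 (by linarith) ht1 t1 hq
    (show 0 < th / 256 by positivity) le_rfl
  refine ⟨1, one_pos, fun c1 hc1 hc2 => ?_⟩
  refine ⟨min Ea (min Eb Ec), lt_min hEa (lt_min hEb hEc), fun P hP b hT => ?_⟩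
  · intro c n m e e' y y' g g' hcth H hg0' hg' hgg0 hZ
    rw [hP.eth] at hcth
    rw [hP.ethp] at hgg0
    have he := H.e0
    have hesE : P.es ≤ min Ea (min Eb Ec) := hP.ees
    have hEsa : P.es ≤ Ea := hesE.trans (min_le_left _ _)
    have hEsb : P.es ≤ Eb := hesE.trans ((min_le_right _ _).trans (min_le_left _ _))
    have hEsc : P.es ≤ Ec := hesE.trans ((min_le_right _ _).trans (min_le_right _ _))
    have he' : 0 < e' := by linarith [H.ee]
    have hw : P.w e = lg thp e := by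
      unfold Par.w
      rw [hP.ethp]
    have hw' : P.w e' = lg thp e' := by
      unfold Par.w
      rw [hP.ethp]
    have hkE : P.kE e = lg th e := by
      unfold Par.kE
      rw [hP.eth]
    have hkE' : P.kE e' = lg th e' := by
      unfold Par.kE
      rw [hP.eth]
    have hw2 := H.w2
    have hw1 := H.w1
    have hd1 : lg thp e ≤ 20 * (m - n) := by rw [hw] at hw1; omega
    have hd2 : m - n ≤ 4 * lg thp e := by rw [hw] at hw2; omega
    have hnm : n ≤ m := by omega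
    obtain ⟨⟨s1, s1'⟩, s14⟩ := hc e he (H.es.trans hEsc)
    have hgg := s14 (m - n) e' g g' hd1 H.ee hg0' hg' hgg0
    have he'1 : e' ≤ 1 := by linarith [H.es', P.es1]
    have hv : Real.log (1 / y') ≤ e' ^ (-(th / 256)) :=
      H.hv.trans (Real.rpow_le_rpow_of_exponent_ge he' he'1 (by linarith))
    obtain ⟨c0, c2, c3⟩ := hb e e' y y' g g' (m - n) he (H.es.trans hEsb) H.ee (H.es'.trans hEsb)
      H.y0 H.y0' H.ye H.ye' hv hd2 H.yy hg' hgg
    obtain ⟨-, hdk, -, -⟩ := s1 (m - n) hd1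
    obtain ⟨τ, a, hτ1, hτ2, hG⟩ := H.G
    have hGe := hG e le_rfl H.es
    obtain ⟨τ', a', hτ1', hτ2', hG'⟩ := H.G'
    have hGe' := hG' e' le_rfl H.es'
    -- the base torus
    have hk1 : lg th e' ≤ lg th e + 1 := lg_near hs1.le (by linarith) he H.ee
    have hq2 : 2 ≤ P.q0 := by
      rw [hP.eq0]
      omega
    have hqq : P.q0 ≤ q1 := by rw [hP.eq0, hq1]
    have hTT : P.TT n e (m + P.kE e') := by
      unfold Par.TT
      rw [hkE, hkE', hw]
      have h1 : 2 * (4 * lg thp e) ≤ P.q0 * (4 * lg thp e) := Nat.mul_le_mul_right _ hq2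
      exact ⟨by omega, by omega⟩
    have hkq : m + P.kE e' - n ≤ lg th e + q1 * (4 * lg thp e) := by
      have h1 : P.q0 * (4 * lg thp e) ≤ q1 * (4 * lg thp e) := Nat.mul_le_mul_right _ hqq
      unfold Par.TT at hTT
      rw [hkE, hw] at hTT
      omega
    have htm : 4 * tn m < tn n := by
      have h4 : (256 : ℝ) ≤ 4 ^ (m - n) := by
        calc (256 : ℝ) = 4 ^ 4 := by norm_num
          _ ≤ 4 ^ (m - n) := pow_le_pow_right₀ (by norm_num) (by
            have := (s1 (m - n) hd1).1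
            omega)
      have h5 : tn m = tn n / 4 ^ (m - n) := by
        rw [← tn_add]
        congr 1
        omega
      have h6 := tn_pos' n
      rw [h5]
      have : tn n / 4 ^ (m - n) ≤ tn n / 256 := div_le_div_of_nonneg_left h6.le (by norm_num) h4
      linarith
    have hty := hT n e τ a he H.es hτ1 hτ2 hGe _ hTT (4 * tn m) (by
      have := tn_pos' m
      linarith) htm
    rw [hP.eth] at hty
    have hvy := H.vy
    rw [hP.ethp] at hvy
    have hstep := h P hP.eb1 hP.eb2 hP.eW (by rw [hP.eys]; exact hy2) (by rw [hP.eX0]; exact hX0)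
      hP.eth hP.ethp hP.eC0 hqq hq2 b n m e e' (y * e ^ g) (e ^ (-(thp / 20)) * y)
      (e' ^ (-(thp / 20)) * y') he (H.es.trans hEsa) H.ee (H.es'.trans hEsa) hw1 hw2 (by
        have := hGe.nE
        rw [hP.eC0] at this
        omega) (hGe.rng _ (Or.inl hTT)).1 (fun r hr => (hGe'.rng r (Or.inl hr)).2) hty hZ hvy
      (c2 _ hkq) (fun r hr => ⟨by
        have := H.vy' r hr
        rwa [hP.ethp] at this, c3 _ (by
          have h1 : P.q0 * (4 * lg thp e') ≤ q1 * (4 * lg thp e') := Nat.mul_le_mul_right _ hqq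
          unfold Par.TT at hr
          rw [hkE', hw'] at hr
          omega)⟩)
    exact hstep.mono c0

/-- the ratio of the sizes from the flow -/
lemma yy_of_flow {κ x v y y' : ℝ} {n m : ℕ} (hnm : n ≤ m) (hd : 16 ≤ m - n) (hy : 0 < y)
    (hy' : 0 < y') (hκx : |κ * x| ≤ 1 / 16) (hv : v ≤ 1)
    (h : |Real.log y' - Real.log y + κ * x * ((m : ℝ) - n)| ≤ v) :
    y ≤ (2 : ℝ) ^ (1 / 4 * ((m - n : ℕ) : ℝ)) * y' := by
  have h1 := (abs_le.1 (h.trans hv)).1
  have h2 := (abs_le.1 hκx).2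
  have h3 : ((m - n : ℕ) : ℝ) = (m : ℝ) - n := by rw [Nat.cast_sub hnm]
  have hdR : (16 : ℝ) ≤ ((m - n : ℕ) : ℝ) := by exact_mod_cast hd
  have h4 : κ * x * ((m : ℝ) - n) ≤ 1 / 16 * ((m : ℝ) - n) := by
    rw [← h3]
    exact mul_le_mul_of_nonneg_right h2 (by linarith)
  have hl2 : (0.69 : ℝ) < Real.log 2 := by
    have := Real.log_two_gt_d9
    linarith
  have h5 : Real.log y ≤ Real.log ((2 : ℝ) ^ (1 / 4 * ((m - n : ℕ) : ℝ)) * y') := by
    rw [Real.log_mul (by positivity) hy'.ne', Real.log_rpow (by norm_num)]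
    rw [← h3] at h4
    rw [← h3] at h1
    have h6 : 1 / 4 * ((m - n : ℕ) : ℝ) * 0.69 ≤ 1 / 4 * ((m - n : ℕ) : ℝ) * Real.log 2 :=
      mul_le_mul_of_nonneg_left hl2.le (by positivity)
    linarith
  exact (Real.log_le_log_iff hy (by positivity)).1 h5

end

end Vale.Agent.P159.H415
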