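import Vale.Agent.P159.H37.Gau
import Mathlib.Probability.Distributions.Gaussian.Multivariate

/-!
P159, module CH2 (helper415), part 1: GAIN for a general integer charge `q`.
`φ` of charge `q` depending on the field in `B` only, field `m + A g`, `A u = 1` on `B`:
`E φ = exp (-2 π² q² / |u|²) E [phase φ]`.
-/

namespace Vale.Agent.P159.H415

open MeasureTheory ProbabilityTheory Finset Complex
open Vale.Agent.P159.H37 (gau)

variable {I : Type*} [Fintype I]

/-- characteristic function of the standard Gaussian measure -/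
lemma gau_char (a : I → ℝ) :
    ∫ g, cexp (((∑ i, a i * g i : ℝ) : ℂ) * Complex.I) ∂(gau I)
      = cexp (-((∑ i, a i ^ 2 : ℝ) : ℂ) / 2) := by
  have h1 : ∀ g : I → ℝ, cexp (((∑ i, a i * g i : ℝ) : ℂ) * Complex.I)
      = ∏ i, cexp ((a i * g i : ℂ) * Complex.I) := by
    intro g
    rw [← Complex.exp_sum]
    congr 1
    push_cast
    rw [Finset.sum_mul]
  simp only [h1]
  unfold gau
  rw [integral_fintype_prod_eq_prod (𝕜 := ℂ)
    (fun (i : I) (x : ℝ) => cexp ((a i * x : ℂ) * Complex.I)) (μ := fun _ => gaussianReal 0 1)]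
  have h2 : ∀ i, ∫ x : ℝ, cexp ((a i * x : ℂ) * Complex.I) ∂(gaussianReal 0 1)
      = cexp (-((a i : ℂ) ^ 2) / 2) := by
    intro i
    have := charFun_gaussianReal (μ := 0) (v := 1) (a i)
    rw [charFun_apply_real] at this
    rw [this]
    congr 1
    push_cast
    ring
  simp only [h2]
  rw [← Complex.exp_sum]
  congr 1
  push_cast
  rw [← Finset.sum_div, Finset.sum_neg_distrib]

/-- a finite measure with this characteristic function is the standard Gaussian measure -/
lemma gau_ext {ρ : Measure (I → ℝ)} [IsFiniteMeasure ρ]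
    (h : ∀ a : I → ℝ, ∫ g, cexp (((∑ i, a i * g i : ℝ) : ℂ) * Complex.I) ∂ρ
      = cexp (-((∑ i, a i ^ 2 : ℝ) : ℂ) / 2)) : ρ = gau I := by
  classical
  refine Measure.ext_of_charFunDual (funext fun L => ?_)
  rw [charFunDual_apply, charFunDual_apply]
  have e : ∀ v : I → ℝ, L v = ∑ i, (L (Pi.single i 1)) * v i := by
    intro v
    conv_lhs => rw [← Finset.univ_sum_single v]
    rw [map_sum]
    refine Finset.sum_congr rfl fun i _ => ?_
    have : (Pi.single i (v i) : I → ℝ) = (v i) • (Pi.single i (1 : ℝ) : I → ℝ) := by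
      rw [← Pi.single_smul]; simp
    rw [this, map_smul, smul_eq_mul, mul_comm]
  have e1 := h fun i => L (Pi.single i 1)
  have e2 := gau_char fun i => L (Pi.single i 1)
  have e3 : ∀ v : I → ℝ, cexp (((L v : ℝ) : ℂ) * Complex.I)
      = cexp (((∑ i, (L (Pi.single i 1)) * v i : ℝ) : ℂ) * Complex.I) := fun v => by rw [← e v]
  rw [integral_congr_ae (Filter.Eventually.of_forall e3),
    integral_congr_ae (Filter.Eventually.of_forall e3), e1, e2]

/-- resampling of the component in the direction `u` -/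
noncomputable def rs (u : I → ℝ) (p : (I → ℝ) × ℝ) : I → ℝ := fun i =>
  p.1 i + (p.2 / Real.sqrt (∑ j, u j ^ 2) - (∑ j, u j * p.1 j) / (∑ j, u j ^ 2)) * u i

lemma measurable_rs (u : I → ℝ) : Measurable (rs u) := by
  unfold rs
  fun_prop

/-- the standard Gaussian measure is invariant under the resampling of one direction -/
lemma rs_law {u : I → ℝ} (hu : 0 < ∑ i, u i ^ 2) :
    ((gau I).prod (gaussianReal 0 1)).map (rs u) = gau I := by
  have hfin : IsFiniteMeasure (((gau I).prod (gaussianReal 0 1)).map (rs u)) :=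
    Measure.isFiniteMeasure_map _ _
  refine gau_ext fun a => ?_
  set c := ∑ i, u i ^ 2 with hc
  have hs : 0 < Real.sqrt c := Real.sqrt_pos.2 hu
  have hsq : Real.sqrt c ^ 2 = c := Real.sq_sqrt hu.le
  rw [integral_map (measurable_rs u).aemeasurable
    (Continuous.aestronglyMeasurable (by fun_prop))]
  set β := (∑ i, a i * u i) with hβ
  have e : ∀ p : (I → ℝ) × ℝ, cexp (((∑ i, a i * rs u p i : ℝ) : ℂ) * Complex.I)
      = cexp (((∑ i, (a i - β / c * u i) * p.1 i : ℝ) : ℂ) * Complex.I) *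
        cexp ((((β / Real.sqrt c : ℝ) : ℂ) * (p.2 : ℂ)) * Complex.I) := by
    intro p
    rw [← Complex.exp_add, ← add_mul]
    congr 2
    norm_cast
    have e1 : ∑ i, a i * rs u p i = (∑ i, a i * p.1 i)
        + (p.2 / Real.sqrt c - (∑ j, u j * p.1 j) / c) * β := by
      rw [hβ, Finset.mul_sum, ← Finset.sum_add_distrib]
      refine Finset.sum_congr rfl fun i _ => ?_
      unfold rs
      ring
    have e2 : ∑ i, (a i - β / c * u i) * p.1 i = (∑ i, a i * p.1 i) - β / c * ∑ j, u j * p.1 j := by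
      rw [Finset.mul_sum, ← Finset.sum_sub_distrib]
      refine Finset.sum_congr rfl fun i _ => ?_
      ring
    rw [e1, e2]
    ring
  simp only [e]
  rw [integral_prod_mul (μ := gau I) (ν := gaussianReal 0 1)
    (fun g : I → ℝ => cexp (((∑ i, (a i - β / c * u i) * g i : ℝ) : ℂ) * Complex.I))
    (fun y : ℝ => cexp ((((β / Real.sqrt c : ℝ) : ℂ) * (y : ℂ)) * Complex.I))]
  rw [gau_char]
  have h2 := charFun_gaussianReal (μ := 0) (v := 1) (β / Real.sqrt c)
  rw [charFun_apply_real] at h2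
  rw [h2, ← Complex.exp_add]
  congr 1
  have e3 : ∑ i, (a i - β / c * u i) ^ 2 = (∑ i, a i ^ 2) - β ^ 2 / c := by
    have : ∀ i, (a i - β / c * u i) ^ 2 = a i ^ 2 - 2 * (β / c) * (a i * u i) + (β / c) ^ 2 * u i ^ 2 := by
      intro i; ring
    simp only [this]
    rw [Finset.sum_add_distrib, Finset.sum_sub_distrib, ← Finset.mul_sum, ← Finset.mul_sum, ← hβ,
      ← hc]
    field_simp
    ring
  rw [e3]
  have e4 : (β / Real.sqrt c) ^ 2 = β ^ 2 / c := by
    rw [div_pow, hsq]
  have e5 : ((β / Real.sqrt c : ℝ) : ℂ) ^ 2 = ((β ^ 2 / c : ℝ) : ℂ) := by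
    rw [← e4]; push_cast; rfl
  rw [e5]
  push_cast
  ring

variable {V : Type*}

/-- functionals of charge `q` -/
def Chg (q : ℤ) (φ : (V → ℝ) → ℂ) : Prop :=
  ∀ (F : V → ℝ) (c : ℝ),
    φ (fun x => F x + c) = cexp (((2 * Real.pi * q * c : ℝ) : ℂ) * Complex.I) * φ F

/-- dependence on the field in `B` only -/
def DepOn (B : Set V) (φ : (V → ℝ) → ℂ) : Prop :=
  ∀ F F' : V → ℝ, (∀ x ∈ B, F x = F' x) → φ F = φ F'

/-- **GAIN**, exact form: charge `q`, dependence on `B`, `A u = 1` on `B` -/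
theorem gain_eq {q : ℤ} {B : Set V} {φ : (V → ℝ) → ℂ} (hq : Chg q φ) (hB : DepOn B φ)
    (hφ : Measurable φ) (m : V → ℝ) (A : Matrix V I ℝ) {u : I → ℝ} (hu : 0 < ∑ i, u i ^ 2)
    (hA : ∀ x ∈ B, A.mulVec u x = 1) :
    ∫ g, φ (m + A.mulVec g) ∂(gau I)
      = cexp (((-(2 * Real.pi ^ 2 * q ^ 2 / ∑ i, u i ^ 2) : ℝ) : ℂ)) *
        ∫ g, cexp (((-(2 * Real.pi * q * (∑ j, u j * g j) / ∑ i, u i ^ 2) : ℝ) : ℂ) * Complex.I) *
          φ (m + A.mulVec g) ∂(gau I) := by
  set c := ∑ i, u i ^ 2 with hc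
  have hs : 0 < Real.sqrt c := Real.sqrt_pos.2 hu
  have hsq : Real.sqrt c ^ 2 = c := Real.sq_sqrt hu.le
  set ph : (I → ℝ) → ℂ := fun g =>
    cexp (((-(2 * Real.pi * q * (∑ j, u j * g j) / c) : ℝ) : ℂ) * Complex.I) with hph
  have hphm : Continuous ph := by
    rw [hph]; fun_prop
  have hph1 : ∀ g, ‖ph g‖ = 1 := fun g => Complex.norm_exp_ofReal_mul_I _
  have hAm : Measurable fun g : I → ℝ => m + A.mulVec g := by
    refine measurable_const.add ?_
    unfold Matrix.mulVec dotProduct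
    fun_prop
  have hm1 : Measurable fun g : I → ℝ => φ (m + A.mulVec g) := hφ.comp hAm
  by_cases hint : Integrable (fun g => φ (m + A.mulVec g)) (gau I)
  swap
  · rw [integral_undef hint, integral_undef, mul_zero]
    intro h
    refine hint ?_
    have h2 := h.bdd_mul (c := 1) (f := fun g => (ph g)⁻¹)
      ((hphm.inv₀ fun g => by
        intro h0
        have := hph1 g
        rw [h0] at this
        simp at this).aestronglyMeasurable)
      (Filter.Eventually.of_forall fun g => by rw [norm_inv, hph1, inv_one])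
    refine h2.congr (Filter.Eventually.of_forall fun g => ?_)
    have h0 : ph g ≠ 0 := by
      intro h0
      have := hph1 g
      rw [h0] at this
      simp at this
    show (ph g)⁻¹ * (ph g * φ (m + A.mulVec g)) = φ (m + A.mulVec g)
    rw [← mul_assoc, inv_mul_cancel₀ h0, one_mul]
  have key : ∀ p : (I → ℝ) × ℝ, φ (m + A.mulVec (rs u p))
      = (ph p.1 * φ (m + A.mulVec p.1)) *
        cexp ((((2 * Real.pi * q / Real.sqrt c : ℝ) : ℂ) * (p.2 : ℂ)) * Complex.I) := by
    intro p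
    set κ := p.2 / Real.sqrt c - (∑ j, u j * p.1 j) / c with hκ
    have e1 : ∀ x ∈ B, (m + A.mulVec (rs u p)) x = (m + A.mulVec p.1) x + κ := by
      intro x hx
      have : A.mulVec (rs u p) x = A.mulVec p.1 x + κ * A.mulVec u x := by
        unfold Matrix.mulVec dotProduct rs
        rw [Finset.mul_sum, ← Finset.sum_add_distrib]
        refine Finset.sum_congr rfl fun i _ => ?_
        ring
      rw [Pi.add_apply, Pi.add_apply, this, hA x hx]
      ring
    rw [hB _ (fun x => (m + A.mulVec p.1) x + κ) e1, hq]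
    rw [hph]
    have e2 : cexp (((2 * Real.pi * q * κ : ℝ) : ℂ) * Complex.I)
        = cexp (((-(2 * Real.pi * q * (∑ j, u j * p.1 j) / c) : ℝ) : ℂ) * Complex.I) *
          cexp ((((2 * Real.pi * q / Real.sqrt c : ℝ) : ℂ) * (p.2 : ℂ)) * Complex.I) := by
      rw [← Complex.exp_add, ← add_mul]
      congr 2
      norm_cast
      rw [hκ]
      ring
    rw [e2]
    ring
  have h1 : ∫ g, φ (m + A.mulVec g) ∂(gau I)
      = ∫ p, φ (m + A.mulVec (rs u p)) ∂((gau I).prod (gaussianReal 0 1)) := by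
    conv_lhs => rw [← rs_law hu]
    rw [integral_map (measurable_rs u).aemeasurable hm1.aestronglyMeasurable]
  rw [h1]
  simp only [key]
  rw [integral_prod_mul (μ := gau I) (ν := gaussianReal 0 1)
    (fun g : I → ℝ => ph g * φ (m + A.mulVec g))
    (fun y : ℝ => cexp ((((2 * Real.pi * q / Real.sqrt c : ℝ) : ℂ) * (y : ℂ)) * Complex.I))]
  have h2 := charFun_gaussianReal (μ := 0) (v := 1) (2 * Real.pi * q / Real.sqrt c)
  rw [charFun_apply_real] at h2
  rw [h2, mul_comm]
  congr 2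
  have e4 : (2 * Real.pi * q / Real.sqrt c) ^ 2 = 4 * Real.pi ^ 2 * q ^ 2 / c := by
    rw [div_pow, hsq]; ring
  have e5 : ((2 * Real.pi * q / Real.sqrt c : ℝ) : ℂ) ^ 2 = ((4 * Real.pi ^ 2 * q ^ 2 / c : ℝ) : ℂ) := by
    rw [← e4]; push_cast; rfl
  rw [e5]
  push_cast
  ring

/-- **GAIN**, norm form -/
theorem gain_le {q : ℤ} {B : Set V} {φ : (V → ℝ) → ℂ} (hq : Chg q φ) (hB : DepOn B φ)
    (hφ : Measurable φ) (m : V → ℝ) (A : Matrix V I ℝ) {u : I → ℝ} (hu : 0 < ∑ i, u i ^ 2)
    (hA : ∀ x ∈ B, A.mulVec u x = 1) :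
    ‖∫ g, φ (m + A.mulVec g) ∂(gau I)‖
      ≤ Real.exp (-(2 * Real.pi ^ 2 * q ^ 2 / ∑ i, u i ^ 2)) *
        ∫ g, ‖φ (m + A.mulVec g)‖ ∂(gau I) := by
  rw [gain_eq hq hB hφ m A hu hA, norm_mul, Complex.norm_exp_ofReal]
  refine mul_le_mul_of_nonneg_left ?_ (Real.exp_pos _).le
  refine (norm_integral_le_integral_norm _).trans (le_of_eq ?_)
  refine integral_congr_ae (Filter.Eventually.of_forall fun g => ?_)
  simp only [norm_mul, Complex.norm_exp_ofReal_mul_I, one_mul]

end Vale.Agent.P159.H415
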