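import Vale.Agent.P159.H415.WinP
import Vale.Agent.P159.TM.H459.Tor

/-!
P159, module CH2 (helper415), part 15: geometry of cells and boxes on the torus, the partition of
unity by boxes, the energy of the cut, the cut of sources.
-/

set_option linter.unusedSectionVars false

namespace Vale.Agent.P159.H415

open MeasureTheory ProbabilityTheory Finset Matrix
open Vale.Agent.P159.H37 (gau qf qf_eq Rs Zs Gm Ech post Tq cob)
open Vale.Agent.P159.H864 (MC cobV cl up cl1 up1 cobV_mul_tr)
open Vale.Agent.P159.H963 (nwt nMC obsN Pn Neu Gnc ntr)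
open Vale.Agent.P159.H363 (lf lf_eq)
open Vale.Agent.P159.TM.H104 (EM Ex Cv Gr li)
open Vale.Agent.P159.TM.H764 (nrm bx)
open Vale.Agent.P159.TM.H459 (sd sn)
open Vale.Agent.P159.TM.Spec (V)
open Vale.Agent.P159.H447 (CN)
open Vale.Agent.P159.H859 (Sgn WN kap2 Lw dB)

noncomputable section

/-! ### distances of cells -/

section geo

variable {N l h : ℕ} [NeZero N] [NeZero (N / l)] [NeZero (N / h)]

lemma vma_up1 (hl : l ∣ N) (a : ZMod (N / l)) :
    (up1 a : ZMod N).valMinAbs = l * a.valMinAbs := by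
  have hl0 : 0 < l := H864.l_pos hl
  have hN : (l : ℤ) * ((N / l : ℕ) : ℤ) = N := by
    exact_mod_cast Nat.mul_div_cancel' hl
  rw [ZMod.valMinAbs_spec]
  obtain ⟨h1, h2⟩ := (ZMod.valMinAbs_spec a a.valMinAbs).1 rfl
  constructor
  · have h3 : (((a.valMinAbs - (a.val : ℤ) : ℤ)) : ZMod (N / l)) = 0 := by
      push_cast
      rw [ZMod.natCast_zmod_val, sub_self]
    rw [ZMod.intCast_zmod_eq_zero_iff_dvd] at h3
    obtain ⟨k, hk⟩ := h3
    have h4 : (l : ℤ) * a.valMinAbs = l * (a.val : ℤ) + N * k := by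
      rw [← hN]
      linear_combination (l : ℤ) * hk
    rw [h4]
    unfold H864.up1
    push_cast
    simp
  · rw [Set.mem_Ioc] at h2 ⊢
    have hl1 : (0 : ℤ) < l := by exact_mod_cast hl0
    constructor
    · rw [← hN]
      nlinarith [h2.1]
    · rw [← hN]
      nlinarith [h2.2]

lemma nrm_up (hl : l ∣ N) (a : V (N / l)) : nrm (up a : V N) = l * nrm a := by
  unfold nrm H864.up
  simp only
  rw [vma_up1 hl, vma_up1 hl, Int.natAbs_mul, Int.natAbs_mul, Int.natAbs_natCast, Nat.mul_max_mul_left]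

lemma nrm_add_le (x z : V N) : nrm (x + z) ≤ nrm x + nrm z := TM.H459.sn_add_le x z

lemma nrm_neg (x : V N) : nrm (-x) = nrm x := TM.H459.sn_neg x

/-- a site outside the cell box is far from the box of sites -/
lemma far_cell (hl : l ∣ N) {x z : V N} {c : V (N / l)} {ρ r : ℕ}
    (hx : nrm (x - up c) ≤ r) (hz : (cl z : V (N / l)) ∉ bx c ρ) :
    l * (ρ + 1) ≤ sd x z + r + l := by
  have h1 : ρ + 1 ≤ nrm ((cl z : V (N / l)) - c) := by
    by_contra hc
    push Not at hc
    apply hz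
    unfold bx
    rw [mem_filter]
    exact ⟨mem_univ _, by omega⟩
  have h2 : nrm ((up (cl z : V (N / l)) : V N) - up c) = l * nrm ((cl z : V (N / l)) - c) := by
    rw [← nrm_up hl, sub_eq_add_neg, ← H864.up_neg hl, ← H864.up_add hl, ← sub_eq_add_neg]
  have h3 : nrm ((up (cl z : V (N / l)) : V N) - z) ≤ l :=
    H859.cl_dist hl (by rw [H864.cl_up hl])
  have h4 : (up (cl z : V (N / l)) : V N) - up c =
      ((up (cl z : V (N / l)) : V N) - z) + ((z - x) + (x - up c)) := by abel
  have h5 : nrm (z - x) = sd x z := rfl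
  have h6 : l * (ρ + 1) ≤ l * nrm ((cl z : V (N / l)) - c) := Nat.mul_le_mul_left _ h1
  rw [← h2, h4] at h6
  have h7 := nrm_add_le ((up (cl z : V (N / l)) : V N) - z) ((z - x) + (x - up c))
  have h8 := nrm_add_le (z - x) (x - up c)
  rw [h5] at h8
  omega

/-- size of a box from below -/
lemma card_bx_ge {n : ℕ} [NeZero n] (c : V n) {r : ℕ} (hr : 2 * r + 1 ≤ n) :
    (2 * r + 1) ^ 2 ≤ (bx c r).card := by
  have h1 : ((Finset.Icc (-(r : ℤ)) r) ×ˢ (Finset.Icc (-(r : ℤ)) r)).card ≤ (bx c r).card := by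
    refine Finset.card_le_card_of_injOn
      (fun z : ℤ × ℤ => ((c.1 + (z.1 : ZMod n), c.2 + (z.2 : ZMod n)) : V n)) ?_ ?_
    · intro z hz
      simp only [Finset.coe_product, Finset.coe_Icc, Set.mem_prod, Set.mem_Icc] at hz
      have e1 : ∀ w : ℤ, -(r : ℤ) ≤ w → w ≤ r → ((w : ZMod n)).valMinAbs.natAbs ≤ r := by
        intro w h1 h2
        refine (H859.natAbs_valMinAbs_cast_le w).trans ?_
        omega
      rw [Finset.mem_coe, TM.H764.mem_bx]
      simp only [add_sub_cancel_left]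
      exact ⟨e1 _ hz.1.1 hz.1.2, e1 _ hz.2.1 hz.2.2⟩
    · intro z hz w hw he
      simp only [Finset.coe_product, Finset.coe_Icc, Set.mem_prod, Set.mem_Icc] at hz hw
      simp only [Prod.mk.injEq, add_right_inj] at he
      have key : ∀ a b : ℤ, -(r : ℤ) ≤ a → a ≤ r → -(r : ℤ) ≤ b → b ≤ r →
          ((a : ZMod n)) = (b : ZMod n) → a = b := by
        intro a b h1 h2 h3 h4 h5
        have h6 : ((a : ZMod n)).valMinAbs = a := by
          rw [ZMod.valMinAbs_spec]
          refine ⟨rfl, ?_⟩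
          rw [Set.mem_Ioc]
          omega
        have h7 : ((b : ZMod n)).valMinAbs = b := by
          rw [ZMod.valMinAbs_spec]
          refine ⟨rfl, ?_⟩
          rw [Set.mem_Ioc]
          omega
        rw [← h6, ← h7, h5]
      exact Prod.ext (key _ _ hz.1.1 hz.1.2 hw.1.1 hw.1.2 he.1)
        (key _ _ hz.2.1 hz.2.2 hw.2.1 hw.2.2 he.2)
  rw [Finset.card_product, Int.card_Icc] at h1
  have h2 : ((r : ℤ) + 1 - -(r : ℤ)).toNat = 2 * r + 1 := by omega
  rw [h2] at h1
  calc (2 * r + 1) ^ 2 = (2 * r + 1) * (2 * r + 1) := by ring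
    _ ≤ _ := h1

/-! ### the partition by boxes of side `h` -/

/-- indicator of a box of side `h` -/
def gbx (N h : ℕ) [NeZero N] [NeZero (N / h)] (i : V (N / h)) : V N → ℝ :=
  fun x => if (cl x : V (N / h)) = i then 1 else 0

lemma sum_gbx : ∑ i : V (N / h), gbx N h i = fun _ => 1 := by
  funext x
  rw [Finset.sum_apply]
  unfold gbx
  rw [Finset.sum_ite_eq]
  simp

lemma gbx_sq (hh : h ∣ N) (i : V (N / h)) : ∑ x, gbx N h i x ^ 2 = (h : ℝ) ^ 2 := by
  rw [← H864.card_cell hh i, Finset.card_filter]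
  push_cast
  refine sum_congr rfl fun x _ => ?_
  unfold gbx
  split_ifs <;> norm_num

/-- the cell at the corner of a box -/
def cnr (i : V (N / h)) : V (N / l) := cl (up i : V N)

lemma near_cnr (hl : l ∣ N) (hh : h ∣ N) {i : V (N / h)} {x : V N}
    (hx : gbx N h i x ≠ 0) : nrm (x - up (cnr (N := N) (l := l) (h := h) i)) ≤ h + l := by
  have h1 : (cl x : V (N / h)) = i := by
    by_contra hc
    apply hx
    unfold gbx
    rw [if_neg hc]
  have h2 : nrm (x - up i) ≤ h := by
    refine H859.cl_dist hh ?_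
    rw [H864.cl_up hh, h1]
  have h3 : nrm ((up i : V N) - up (cnr (N := N) (l := l) (h := h) i)) ≤ l := by
    refine H859.cl_dist hl ?_
    rw [H864.cl_up hl]
    rfl
  have h4 : x - up (cnr (N := N) (l := l) (h := h) i) =
      (x - up i) + ((up i : V N) - up (cnr (N := N) (l := l) (h := h) i)) := by abel
  rw [h4]
  exact (nrm_add_le _ _).trans (add_le_add h2 h3)

end geo

end

end Vale.Agent.P159.H415
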