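import Vale.Agent.P159.H415.Ch2

/-!
P159, module CH2 (helper415), part 5: the gradient of all the harmonics `q ∈ Q` at mass `t`,
in every real background, from the charges at mass `2 t`:
`‖(D_g W_q(F))_q‖₂ ≤ 5/2 (B + 2 ω²) √(t ∑ g²)` if `‖(Φ_q^{2t}(F))_q‖₂ ≤ B` for every `F`.
-/

namespace Vale.Agent.P159.H415

open MeasureTheory ProbabilityTheory Finset
open Vale.Agent.P159.H37 (gau Zn Un ZM Zq wM)
open Vale.Agent.P159.H764
open Vale.Agent.P159.H896 (ph continuous_ph norm_ph)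
open Vale.Agent.P159.H43 (nm hat)
open Vale.Agent.P159.TM.H870 (gr Zr lin)
open Vale.Agent.P159.TM.H104 (EM dU U)

noncomputable section

/-! ### the norm over a finite set of charges -/

/-- `ℓ²` norm over a finite set of charges -/
def nq (Q : Finset ℤ) (f : ℤ → ℂ) : ℝ := Real.sqrt (∑ q ∈ Q, ‖f q‖ ^ 2)

lemma nq_nonneg (Q : Finset ℤ) (f : ℤ → ℂ) : 0 ≤ nq Q f := Real.sqrt_nonneg _

lemma sum_sq_nonneg (Q : Finset ℤ) (f : ℤ → ℂ) : 0 ≤ ∑ q ∈ Q, ‖f q‖ ^ 2 :=
  sum_nonneg fun _ _ => sq_nonneg _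

lemma nq_sq (Q : Finset ℤ) (f : ℤ → ℂ) : nq Q f ^ 2 = ∑ q ∈ Q, ‖f q‖ ^ 2 :=
  Real.sq_sqrt (sum_sq_nonneg Q f)

lemma nq_le_iff {Q : Finset ℤ} {f : ℤ → ℂ} {b : ℝ} (hb : 0 ≤ b) :
    nq Q f ≤ b ↔ ∑ q ∈ Q, ‖f q‖ ^ 2 ≤ b ^ 2 := by
  unfold nq
  exact Real.sqrt_le_left hb

lemma nq_mono {Q : Finset ℤ} {f g : ℤ → ℂ} (h : ∀ q ∈ Q, ‖f q‖ ≤ ‖g q‖) : nq Q f ≤ nq Q g :=
  Real.sqrt_le_sqrt (sum_le_sum fun q hq => pow_le_pow_left₀ (norm_nonneg _) (h q hq) 2)

lemma nq_congr {Q : Finset ℤ} {f g : ℤ → ℂ} (h : ∀ q ∈ Q, f q = g q) : nq Q f = nq Q g := by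
  unfold nq
  congr 1
  exact sum_congr rfl fun q hq => by rw [h q hq]

lemma nq_mul (Q : Finset ℤ) (c : ℂ) (f : ℤ → ℂ) : nq Q (fun q => c * f q) = ‖c‖ * nq Q f := by
  unfold nq
  have : ∑ q ∈ Q, ‖c * f q‖ ^ 2 = ‖c‖ ^ 2 * ∑ q ∈ Q, ‖f q‖ ^ 2 := by
    rw [mul_sum]
    exact sum_congr rfl fun q _ => by rw [norm_mul, mul_pow]
  rw [this, Real.sqrt_mul (sq_nonneg _), Real.sqrt_sq (norm_nonneg _)]

lemma nq_neg (Q : Finset ℤ) (f : ℤ → ℂ) : nq Q (fun q => -f q) = nq Q f := by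
  unfold nq
  simp only [norm_neg]

lemma nq_cs (Q : Finset ℤ) (f g : ℤ → ℂ) : ∑ q ∈ Q, ‖f q‖ * ‖g q‖ ≤ nq Q f * nq Q g :=
  Real.sum_mul_le_sqrt_mul_sqrt Q (fun q => ‖f q‖) fun q => ‖g q‖

lemma nq_add (Q : Finset ℤ) (f g : ℤ → ℂ) :
    nq Q (fun q => f q + g q) ≤ nq Q f + nq Q g := by
  rw [nq_le_iff (add_nonneg (nq_nonneg _ _) (nq_nonneg _ _))]
  have h1 : ∑ q ∈ Q, ‖f q + g q‖ ^ 2 ≤
      ∑ q ∈ Q, (‖f q‖ ^ 2 + 2 * (‖f q‖ * ‖g q‖) + ‖g q‖ ^ 2) := by
    refine sum_le_sum fun q _ => ?_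
    have := pow_le_pow_left₀ (norm_nonneg _) (norm_add_le (f q) (g q)) 2
    nlinarith
  refine h1.trans ?_
  rw [sum_add_distrib, sum_add_distrib, ← mul_sum, ← nq_sq, ← nq_sq]
  nlinarith [nq_cs Q f g]

lemma nq_sub (Q : Finset ℤ) (f g : ℤ → ℂ) :
    nq Q (fun q => f q - g q) ≤ nq Q f + nq Q g := by
  have h := nq_add Q f fun q => -g q
  rw [nq_neg] at h
  simpa only [← sub_eq_add_neg] using h

lemma nq_sum (Q : Finset ℤ) {ι : Type*} (S : Finset ι) (f : ι → ℤ → ℂ) :
    nq Q (fun q => ∑ i ∈ S, f i q) ≤ ∑ i ∈ S, nq Q (f i) := by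
  classical
  induction S using Finset.induction_on with
  | empty => simp [nq]
  | insert i S hi ih =>
    have : (fun q => ∑ j ∈ insert i S, f j q) = fun q => f i q + ∑ j ∈ S, f j q := by
      funext q
      rw [sum_insert hi]
    rw [this, sum_insert hi]
    exact (nq_add Q _ _).trans (add_le_add_right ih _)

/-- Minkowski for integrals -/
lemma nq_integral {Ω : Type*} [MeasurableSpace Ω] {P : Measure Ω} {Q : Finset ℤ}
    {f : ℤ → Ω → ℂ} (hf : ∀ q ∈ Q, Integrable (f q) P) {b : Ω → ℝ} (hb : Integrable b P)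
    (h : ∀ z, nq Q (fun q => f q z) ≤ b z) :
    nq Q (fun q => ∫ z, f q z ∂P) ≤ ∫ z, b z ∂P := by
  set v : ℤ → ℂ := fun q => ∫ z, f q z ∂P with hv
  have hb0 : 0 ≤ ∫ z, b z ∂P := integral_nonneg fun z => (nq_nonneg _ _).trans (h z)
  rcases (nq_nonneg Q v).eq_or_lt with h0 | h0
  · rw [← h0]; exact hb0
  have h1 : (nq Q v : ℂ) ^ 2 = ∫ z, ∑ q ∈ Q, (starRingEnd ℂ) (v q) * f q z ∂P := by
    rw [integral_finsetSum _ fun q hq => (hf q hq).const_mul _]
    rw [← Complex.ofReal_pow, nq_sq, Complex.ofReal_sum]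
    refine sum_congr rfl fun q _ => ?_
    rw [integral_const_mul, Complex.ofReal_pow, ← Complex.conj_mul']
  have h2 : nq Q v ^ 2 ≤ ∫ z, nq Q v * b z ∂P := by
    have h3 : ‖(nq Q v : ℂ) ^ 2‖ = nq Q v ^ 2 := by
      rw [← Complex.ofReal_pow, Complex.norm_real, Real.norm_eq_abs, abs_of_nonneg (sq_nonneg _)]
    rw [← h3, h1]
    refine norm_integral_le_of_norm_le (hb.const_mul _) (Filter.Eventually.of_forall fun z => ?_)
    refine (norm_sum_le _ _).trans ?_
    have h4 : ∑ q ∈ Q, ‖(starRingEnd ℂ) (v q) * f q z‖ = ∑ q ∈ Q, ‖v q‖ * ‖f q z‖ :=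
      sum_congr rfl fun q _ => by rw [norm_mul, RCLike.norm_conj]
    rw [h4]
    exact (nq_cs Q v fun q => f q z).trans (mul_le_mul_of_nonneg_left (h z) h0.le)
  rw [integral_const_mul, pow_two] at h2
  exact le_of_mul_le_mul_left h2 h0

/-- Bessel on the circle -/
lemma nq_bessel {f : ℝ → ℝ} (hf : Continuous f) {B : ℝ} (hB : 0 ≤ B) (hb : ∀ s, |f s| ≤ B)
    (Q : Finset ℤ) : nq Q (fun q => ∫ s in (0 : ℝ)..1, (f s : ℂ) * ph q s) ≤ B :=
  (nq_le_iff hB).2 (bessel hf hB hb Q)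

/-! ### first moments under a weight -/

section mean

variable {Ω : Type*} [MeasurableSpace Ω] {P : Measure Ω}

lemma int_abs_le {W₀ X : Ω → ℝ} (k0 : Integrable W₀ P) (k1 : Integrable (fun z => X z * W₀ z) P)
    (k2 : Integrable (fun z => X z ^ 2 * W₀ z) P) (kpos : 0 < ∫ z, W₀ z ∂P)
    (hW₀ : ∀ z, 0 ≤ W₀ z) :
    ∫ z, |X z - mnW P W₀ X| * W₀ z ∂P ≤ Real.sqrt (vrW P W₀ X) * ∫ z, W₀ z ∂P := by
  set c := mnW P W₀ X with hc
  have i2 : Integrable (fun z => (X z - c) * W₀ z) P := by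
    refine (k1.sub (k0.const_mul c)).congr (Filter.Eventually.of_forall fun z => ?_)
    simp only [Pi.sub_apply]; ring
  have i3 : Integrable (fun z => (X z - c) ^ 2 * W₀ z) P := by
    refine ((k2.sub (k1.const_mul (2 * c))).add (k0.const_mul (c ^ 2))).congr
      (Filter.Eventually.of_forall fun z => ?_)
    simp only [Pi.add_apply, Pi.sub_apply]; ring
  have i4 : Integrable (fun z => |X z - c| * W₀ z) P := by
    refine (i2.abs).congr (Filter.Eventually.of_forall fun z => ?_)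
    simp only
    rw [abs_mul, abs_of_nonneg (hW₀ z)]
  set M := ∫ z, W₀ z ∂P with hM
  set v := vrW P W₀ X with hv
  have hv0 : 0 ≤ v := vrW_nonneg k0 k1 k2 kpos hW₀
  have hv1 : ∫ z, (X z - c) ^ 2 * W₀ z ∂P = v * M := by
    have h := sq_about k0 k1 k2 kpos c
    rw [hc, sub_self, ← hc] at h
    rw [div_eq_iff kpos.ne'] at h
    rw [h]; ring
  have hAM : ∀ s : ℝ, 0 < s → 2 * s * ∫ z, |X z - c| * W₀ z ∂P ≤ v * M + s ^ 2 * M := by
    intro s hs
    rw [← hv1, ← integral_const_mul, hM, ← integral_const_mul, ← integral_add i3 (k0.const_mul _)]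
    refine integral_mono (i4.const_mul _) (i3.add (k0.const_mul _)) fun z => ?_
    simp only
    have h1 : 2 * s * |X z - c| ≤ (X z - c) ^ 2 + s ^ 2 := by
      nlinarith [sq_nonneg (|X z - c| - s), sq_abs (X z - c)]
    nlinarith [mul_le_mul_of_nonneg_right h1 (hW₀ z)]
  rcases hv0.eq_or_lt with h | h
  · rw [← h, Real.sqrt_zero, zero_mul]
    by_contra hcon
    push Not at hcon
    set J := ∫ z, |X z - c| * W₀ z ∂P with hJ
    have h2 := hAM (J / M) (div_pos hcon kpos)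
    rw [← h, zero_mul, zero_add] at h2
    have h3 : 2 * (J / M) * J = 2 * (J ^ 2 / M) := by ring
    have h4 : (J / M) ^ 2 * M = J ^ 2 / M := by field_simp
    rw [h3, h4] at h2
    have : 0 < J ^ 2 / M := by positivity
    linarith
  · have hs : 0 < Real.sqrt v := Real.sqrt_pos.2 h
    have h2 := hAM _ hs
    rw [Real.sq_sqrt hv0] at h2
    have h3 : v = Real.sqrt v * Real.sqrt v := (Real.mul_self_sqrt hv0).symm
    have h4 : 2 * Real.sqrt v * ∫ z, |X z - c| * W₀ z ∂P ≤ 2 * Real.sqrt v * (Real.sqrt v * M) := by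
      calc _ ≤ v * M + v * M := h2
        _ = 2 * Real.sqrt v * (Real.sqrt v * M) := by
            nlinarith [h3]
    exact le_of_mul_le_mul_left h4 (by positivity)

end mean

section model

variable {V : Type*} [Fintype V] {w : (V → ℤ) → ℝ} {Wb : ℝ}

variable (hw0 : ∀ h, 0 ≤ w h) (hwb : ∀ h, w h ≤ Wb) (hp : ∃ h, 0 < w h)
  (hs : ∀ h, w (h + 1) = w h)

include hw0 hwb hp

/-- the gradient against the constant, first part, as a half step -/
lemma lin_part {t : ℝ} (ht : 0 < t) (F g : V → ℝ) (s : ℝ) :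
    (dU w (cm t) (shc F s) g - dN w t F g) * (Zr w (cm t) (shc F s) / Nt w t F) =
      -(Real.sqrt (2 * t) *
        ((∫ z, (lz g z - mnW (gau V) (fun z => Nt w (2 * t) (F + Real.sqrt (1 / (2 * t)) • z))
          (lz g)) * Zr w (cm (2 * t)) (shc F s + Real.sqrt (1 / (2 * t)) • z) ∂(gau V)) /
        ∫ z, Nt w (2 * t) (F + Real.sqrt (1 / (2 * t)) • z) ∂(gau V))) := by
  have h2t : 0 < 2 * t := by linarith
  have hZ := bp_Zr hw0 hwb hp h2t
  have hN := bp_Nt hw0 hwb hp h2t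
  set a := Real.sqrt (1 / (2 * t)) with ha
  have hapos : 0 < a := sqrt_pos' ht
  have h4 : 1 / a = Real.sqrt (2 * t) := by
    rw [ha, Real.sqrt_div zero_le_one, Real.sqrt_one]
    field_simp
  set K := ((Real.sqrt 2)⁻¹) ^ (Fintype.card V) with hK
  have hKp : 0 < K := by positivity
  have e1 : ∫ z, Zr w (cm (2 * t)) (shc F s + a • z) ∂(gau V) = K * Zr w (cm t) (shc F s) :=
    PA_Zr hw0 hwb ht (shc F s)
  have e2 : ∫ z, Nt w (2 * t) (F + a • z) ∂(gau V) = K * Nt w t F := PA_Nt hw0 hwb hp ht F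
  have hZp : 0 < Zr w (cm t) (shc F s) := Zr_pos' hw0 hwb hp ht _
  have hNp : 0 < Nt w t F := Nt_pos hw0 hwb hp ht F
  set c := mnW (gau V) (fun z => Nt w (2 * t) (F + a • z)) (lz g) with hc
  have i0 := hZ.int0 a (shc F s)
  have i1 := hZ.int1 a (shc F s) g
  have e3 : ∫ z, (lz g z - c) * Zr w (cm (2 * t)) (shc F s + a • z) ∂(gau V) =
      (∫ z, lz g z * Zr w (cm (2 * t)) (shc F s + a • z) ∂(gau V)) -
        c * ∫ z, Zr w (cm (2 * t)) (shc F s + a • z) ∂(gau V) := by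
    rw [← integral_const_mul, ← integral_sub i1 (i0.const_mul c)]
    refine integral_congr_ae (Filter.Eventually.of_forall fun z => ?_)
    simp only; ring
  have e4 : dU w (cm t) (shc F s) g - dN w t F g =
      -(1 / a * ((∫ z, lz g z * Zr w (cm (2 * t)) (shc F s + a • z) ∂(gau V)) /
        (∫ z, Zr w (cm (2 * t)) (shc F s + a • z) ∂(gau V)) - c)) := by
    rw [dU_eq hw0 hwb hp ht]
    unfold dN dP
    rw [hc]
    unfold mnW
    ring
  rw [e3, e4, e1, e2, h4]
  field_simp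

lemma int_Zr_Nt {t : ℝ} (ht : 0 < t) (F : V → ℝ) : ∃ B : ℝ, 0 ≤ B ∧
    (∀ s z, |Zr w (cm t) (shc F s + z)| ≤ B) := by
  obtain ⟨B, hB⟩ := (bp_Zr hw0 hwb hp ht).bdd
  refine ⟨B, (Zr_pos' hw0 hwb hp ht 0).le.trans (hB 0), fun s z => ?_⟩
  rw [abs_of_pos (Zr_pos' hw0 hwb hp ht _)]
  exact hB _

/-- Fubini: harmonics of a linear statistics of the half step -/
lemma lin_harm {t a : ℝ} (ht : 0 < t) (F g : V → ℝ) (c : ℝ) (q : ℤ) :
    ∫ s in (0 : ℝ)..1, ((∫ z, (lz g z - c) * Zr w (cm t) (shc F s + a • z) ∂(gau V) : ℝ) : ℂ) *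
      ph q s = ∫ z, ((lz g z - c : ℝ) : ℂ) * Sc w t q (F + a • z) ∂(gau V) := by
  obtain ⟨B, hB0, hB⟩ := int_Zr_Nt hw0 hwb hp ht F
  have hX : Integrable (fun z => lz g z - c) (gau V) := by
    have := (integrable_abs_exp g 1 0)
    simp only [zero_mul, Real.exp_zero, mul_one, pow_one] at this
    refine Integrable.sub ?_ (integrable_const c)
    refine Integrable.mono' this (measurable_lz g).aestronglyMeasurable
      (Filter.Eventually.of_forall fun z => ?_)
    rw [Real.norm_eq_abs]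
  have hcZ : Continuous fun p : ℝ × (V → ℝ) => Zr w (cm t) (shc F p.1 + a • p.2) := by
    refine (continuous_Zr hw0 hwb hp ht).comp ?_
    unfold shc
    fun_prop
  have hX2 : Integrable (fun p : ℝ × (V → ℝ) => (lz g p.2 - c))
      ((volume.restrict (Set.Ioc (0 : ℝ) 1)).prod (gau V)) := hX.comp_snd _
  have hi : Integrable (Function.uncurry fun (s : ℝ) (z : V → ℝ) =>
      (((lz g z - c) * Zr w (cm t) (shc F s + a • z) : ℝ) : ℂ) * ph q s)
      ((volume.restrict (Set.Ioc (0 : ℝ) 1)).prod (gau V)) := by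
    have h1 : Integrable (fun p : ℝ × (V → ℝ) => (lz g p.2 - c) *
        Zr w (cm t) (shc F p.1 + a • p.2))
        ((volume.restrict (Set.Ioc (0 : ℝ) 1)).prod (gau V)) := by
      have := hX2.bdd_mul (c := B) (f := fun p : ℝ × (V → ℝ) => Zr w (cm t) (shc F p.1 + a • p.2))
        hcZ.aestronglyMeasurable (Filter.Eventually.of_forall fun p => by
          rw [Real.norm_eq_abs]; exact hB _ _)
      refine this.congr (Filter.Eventually.of_forall fun p => ?_)
      simp only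
      ring
    have h2 := (h1.ofReal (𝕜 := ℂ)).bdd_mul (c := 1)
      (f := fun p : ℝ × (V → ℝ) => ph q p.1)
      (((continuous_ph q).comp continuous_fst).aestronglyMeasurable)
      (Filter.Eventually.of_forall fun p => by rw [norm_ph])
    refine h2.congr (Filter.Eventually.of_forall fun p => ?_)
    simp only [Function.uncurry]
    rw [mul_comm]
    rfl
  have e1 : ∀ s : ℝ, ((∫ z, (lz g z - c) * Zr w (cm t) (shc F s + a • z) ∂(gau V) : ℝ) : ℂ) *
      ph q s = ∫ z, (((lz g z - c) * Zr w (cm t) (shc F s + a • z) : ℝ) : ℂ) * ph q s ∂(gau V) := by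
    intro s
    rw [integral_mul_const, integral_complex_ofReal]
  simp_rw [e1]
  rw [intervalIntegral.integral_of_le zero_le_one, integral_integral_swap hi]
  refine integral_congr_ae (Filter.Eventually.of_forall fun z => ?_)
  simp only
  unfold Sc
  rw [intervalIntegral.integral_of_le zero_le_one, ← integral_const_mul]
  refine integral_congr_ae (Filter.Eventually.of_forall fun s => ?_)
  simp only
  rw [shc_add]
  push_cast
  ring

include hs in
/-- **gradient of the harmonics from the charges at the double mass**, every background -/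
theorem Dh_nq {t ω B : ℝ} (ht : 0 < t) (hω : ω ≤ 1 / 2) (h : NC w t ω) (hc : CH w t ω)
    {Q : Finset ℤ} (hQ : ∀ q ∈ Q, q ≠ 0) (hB0 : 0 ≤ B)
    (hB : ∀ F : V → ℝ, nq Q (fun q => Pq w (2 * t) q F) ≤ B) (g F : V → ℝ) :
    nq Q (fun q => Dh w t q g F) ≤ 5 / 2 * (B + 2 * ω ^ 2) * Real.sqrt (t * ∑ x, g x ^ 2) := by
  have h2t : 0 < 2 * t := by linarith
  have hω0 := h.ω0
  have hZ := bp_Zr hw0 hwb hp h2t
  have hN := bp_Nt hw0 hwb hp h2t
  have hNp : 0 < Nt w t F := Nt_pos hw0 hwb hp ht F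
  set a := Real.sqrt (1 / (2 * t)) with ha
  have hapos : 0 < a := sqrt_pos' ht
  set c := mnW (gau V) (fun z => Nt w (2 * t) (F + a • z)) (lz g) with hcc
  set N0 := ∫ z, Nt w (2 * t) (F + a • z) ∂(gau V) with hN0
  have hN0p : 0 < N0 := hN.PA_pos a F
  set v := vrW (gau V) (fun z => Nt w (2 * t) (F + a • z)) (lz g) with hv
  have hvle : v ≤ (1 + ω) / (1 - ω) * ∑ x, g x ^ 2 := vN_le hw0 hwb hp hs ht h F g
  set Sg := Real.sqrt (t * ∑ x, g x ^ 2) with hSg
  have hSg0 : 0 ≤ Sg := Real.sqrt_nonneg _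
  have hsg : 0 ≤ ∑ x, g x ^ 2 := sum_nonneg fun x _ => sq_nonneg _
  set D : ℝ → ℝ := fun s => dU w (cm t) (shc F s) g - dN w t F g with hD
  set r : ℝ → ℝ := fun s => Zr w (cm t) (shc F s) / Nt w t F with hr
  have hDc : Continuous D :=
    ((continuous_dU' hw0 hwb hp ht g).comp (continuous_shc F)).sub continuous_const
  have hrc : Continuous r := (cont_c hw0 hwb hp ht F).div_const _
  -- sizes
  have hA : Real.sqrt ((1 + ω) / (1 - ω)) * Real.sqrt 2 ≤ 5 / 2 := by
    rw [← Real.sqrt_mul (div_nonneg (by linarith) (by linarith))]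
    refine Real.sqrt_le_iff.2 ⟨by norm_num, ?_⟩
    rw [div_mul_eq_mul_div, div_le_iff₀ (by linarith)]
    nlinarith
  have hDb : ∀ s, |D s| ≤ 5 * ω * Sg := by
    intro s
    have h1 := dU_sub_dN hw0 hwb hp hs ht h (shc F s) g
    rw [dN_shc hs] at h1
    refine h1.trans ?_
    have e2 : Real.sqrt (2 * t * ∑ x, g x ^ 2) = Real.sqrt 2 * Sg := by
      rw [hSg, ← Real.sqrt_mul (by norm_num : (0 : ℝ) ≤ 2), mul_assoc]
    rw [e2]
    have hB' : ω / (1 - ω) ≤ 2 * ω := by
      rw [div_le_iff₀ (by linarith)]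
      nlinarith
    calc ω / (1 - ω) * Real.sqrt ((1 + ω) / (1 - ω)) * (Real.sqrt 2 * Sg)
        = (ω / (1 - ω)) * (Real.sqrt ((1 + ω) / (1 - ω)) * Real.sqrt 2) * Sg := by ring
      _ ≤ (2 * ω) * (5 / 2) * Sg := by
          refine mul_le_mul_of_nonneg_right ?_ hSg0
          exact mul_le_mul hB' hA (by positivity) (by positivity)
      _ = _ := by ring
  have hrb : ∀ s, |r s - 1| ≤ ω := by
    intro s
    have h1 := hc (shc F s)
    rw [Nt_shc hs] at h1
    have h2 : r s - 1 = (Zr w (cm t) (shc F s) - Nt w t F) / Nt w t F := by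
      rw [hr]; field_simp
    rw [h2, abs_div, abs_of_pos hNp, div_le_iff₀ hNp]
    exact h1
  -- the splitting
  have e1 : ∀ q ∈ Q, Dh w t q g F =
      (∫ s in (0 : ℝ)..1, ((D s * r s : ℝ) : ℂ) * ph q s) -
        ∫ s in (0 : ℝ)..1, ((D s * (r s - 1) : ℝ) : ℂ) * ph q s := by
    intro q hq
    have i1 : IntervalIntegrable (fun s : ℝ => ((D s * r s : ℝ) : ℂ) * ph q s) volume 0 1 :=
      ((Complex.continuous_ofReal.comp (hDc.mul hrc)).mul (continuous_ph q)).intervalIntegrable _ _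
    have i2 : IntervalIntegrable (fun s : ℝ => ((D s * (r s - 1) : ℝ) : ℂ) * ph q s) volume 0 1 :=
      ((Complex.continuous_ofReal.comp (hDc.mul (hrc.sub continuous_const))).mul
        (continuous_ph q)).intervalIntegrable _ _
    rw [← intervalIntegral.integral_sub i1 i2]
    have h2 : ∀ s : ℝ, ((D s * r s : ℝ) : ℂ) * ph q s - ((D s * (r s - 1) : ℝ) : ℂ) * ph q s =
        (dU w (cm t) (shc F s) g : ℂ) * ph q s - (dN w t F g : ℂ) * ph q s := by
      intro s
      rw [hD]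
      push_cast
      ring
    simp_rw [h2]
    have i3 : IntervalIntegrable (fun s : ℝ => (dU w (cm t) (shc F s) g : ℂ) * ph q s) volume 0 1 :=
      ((cont_s_dU hw0 hwb hp ht F g).mul (continuous_ph q)).intervalIntegrable _ _
    have i4 : IntervalIntegrable (fun s : ℝ => (dN w t F g : ℂ) * ph q s) volume 0 1 :=
      (continuous_const.mul (continuous_ph q)).intervalIntegrable _ _
    rw [intervalIntegral.integral_sub i3 i4, intervalIntegral.integral_const_mul,
      int_ph (hQ q hq), mul_zero, sub_zero]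
    rfl
  -- the linear part
  have e2 : ∀ q ∈ Q, (∫ s in (0 : ℝ)..1, ((D s * r s : ℝ) : ℂ) * ph q s) =
      ((-(Real.sqrt (2 * t) / N0) : ℝ) : ℂ) *
        ∫ z, ((lz g z - c : ℝ) : ℂ) * Sc w (2 * t) q (F + a • z) ∂(gau V) := by
    intro q _
    rw [← lin_harm hw0 hwb hp h2t F g c q, ← intervalIntegral.integral_const_mul]
    refine intervalIntegral.integral_congr fun s _ => ?_
    have h3 := lin_part hw0 hwb hp ht F g s
    rw [← ha, ← hcc, ← hN0] at h3
    have h4 : D s * r s = -(Real.sqrt (2 * t) / N0) *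
        ∫ z, (lz g z - c) * Zr w (cm (2 * t)) (shc F s + a • z) ∂(gau V) := by
      rw [hD, hr]
      simp only
      rw [h3]
      ring
    rw [h4]
    push_cast
    ring
  have hP : nq Q (fun q => ∫ z, ((lz g z - c : ℝ) : ℂ) * Sc w (2 * t) q (F + a • z) ∂(gau V)) ≤
      B * (Real.sqrt v * N0) := by
    have i4 : Integrable (fun z => |lz g z - c| * Nt w (2 * t) (F + a • z)) (gau V) := by
      have i2 : Integrable (fun z => (lz g z - c) * Nt w (2 * t) (F + a • z)) (gau V) := by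
        refine ((hN.int1 a F g).sub ((hN.int0 a F).const_mul c)).congr
          (Filter.Eventually.of_forall fun z => ?_)
        simp only [Pi.sub_apply]; ring
      refine (i2.abs).congr (Filter.Eventually.of_forall fun z => ?_)
      simp only
      rw [abs_mul, abs_of_nonneg (hN.pos _).le]
    have hle := nq_integral (P := gau V) (Q := Q)
      (f := fun q z => ((lz g z - c : ℝ) : ℂ) * Sc w (2 * t) q (F + a • z))
      (b := fun z => B * (|lz g z - c| * Nt w (2 * t) (F + a • z))) (fun q _ => ?_)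
      (i4.const_mul B) fun z => ?_
    · refine hle.trans ?_
      rw [integral_const_mul]
      exact mul_le_mul_of_nonneg_left (int_abs_le (hN.int0 a F) (hN.int1 a F g) (hN.int2 a F g)
        hN0p fun z => (hN.pos _).le) hB0
    · -- integrability
      have hSb : ∀ z, ‖Sc w (2 * t) q (F + a • z)‖ ≤ Nt w (2 * t) (F + a • z) := by
        intro z
        unfold Sc Nt
        have h5 := intervalIntegral.norm_integral_le_of_norm_le (a := (0 : ℝ)) (b := 1)
          (μ := volume)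
          (f := fun s : ℝ => (Zr w (cm (2 * t)) (shc (F + a • z) s) : ℂ) * ph q s)
          (g := fun s => Zr w (cm (2 * t)) (shc (F + a • z) s)) zero_le_one
          (Filter.Eventually.of_forall fun s _ => by
            rw [norm_mul, norm_ph, mul_one, Complex.norm_real, Real.norm_eq_abs,
              abs_of_pos (Zr_pos' hw0 hwb hp h2t _)])
          ((cont_c hw0 hwb hp h2t _).intervalIntegrable _ _)
        exact h5
      refine Integrable.mono' i4 ?_ (Filter.Eventually.of_forall fun z => ?_)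
      · refine AEStronglyMeasurable.mul ?_ ?_
        · exact (Complex.measurable_ofReal.comp ((measurable_lz g).sub_const c)).aestronglyMeasurable
        · exact ((continuous_Sc hw0 hwb hp h2t q).comp (by fun_prop)).aestronglyMeasurable
      · rw [norm_mul, Complex.norm_real, Real.norm_eq_abs]
        exact mul_le_mul_of_nonneg_left (hSb z) (abs_nonneg _)
    · rw [nq_mul, Complex.norm_real, Real.norm_eq_abs]
      have h5 : nq Q (fun q => Sc w (2 * t) q (F + a • z)) ≤ Nt w (2 * t) (F + a • z) * B := by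
        have h6 : nq Q (fun q => Sc w (2 * t) q (F + a • z)) =
            nq Q (fun q => ((Nt w (2 * t) (F + a • z) : ℝ) : ℂ) * Pq w (2 * t) q (F + a • z)) := by
          refine nq_congr fun q _ => ?_
          unfold Pq
          rw [mul_div_cancel₀]
          exact_mod_cast (hN.pos _).ne'
        rw [h6, nq_mul, Complex.norm_real, Real.norm_eq_abs, abs_of_pos (hN.pos _)]
        exact mul_le_mul_of_nonneg_left (hB _) (hN.pos _).le
      calc |lz g z - c| * nq Q (fun q => Sc w (2 * t) q (F + a • z)) ≤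
            |lz g z - c| * (Nt w (2 * t) (F + a • z) * B) :=
            mul_le_mul_of_nonneg_left h5 (abs_nonneg _)
        _ = _ := by ring
  have b1 : nq Q (fun q => ∫ s in (0 : ℝ)..1, ((D s * r s : ℝ) : ℂ) * ph q s) ≤
      5 / 2 * B * Sg := by
    rw [nq_congr e2, nq_mul, Complex.norm_real, Real.norm_eq_abs, abs_neg,
      abs_of_nonneg (by positivity)]
    have h5 : Real.sqrt v ≤ Real.sqrt ((1 + ω) / (1 - ω)) * Real.sqrt (∑ x, g x ^ 2) := by
      rw [← Real.sqrt_mul (div_nonneg (by linarith) (by linarith))]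
      exact Real.sqrt_le_sqrt hvle
    have h6 : Real.sqrt (2 * t) * Real.sqrt (∑ x, g x ^ 2) = Real.sqrt 2 * Sg := by
      rw [hSg, Real.sqrt_mul ht.le, Real.sqrt_mul (by norm_num : (0 : ℝ) ≤ 2)]
      ring
    calc Real.sqrt (2 * t) / N0 *
          nq Q (fun q => ∫ z, ((lz g z - c : ℝ) : ℂ) * Sc w (2 * t) q (F + a • z) ∂(gau V))
        ≤ Real.sqrt (2 * t) / N0 * (B * (Real.sqrt v * N0)) :=
          mul_le_mul_of_nonneg_left hP (by positivity)
      _ = Real.sqrt (2 * t) * B * Real.sqrt v := by field_simp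
      _ ≤ Real.sqrt (2 * t) * B *
          (Real.sqrt ((1 + ω) / (1 - ω)) * Real.sqrt (∑ x, g x ^ 2)) :=
          mul_le_mul_of_nonneg_left h5 (by positivity)
      _ = B * Real.sqrt ((1 + ω) / (1 - ω)) *
          (Real.sqrt (2 * t) * Real.sqrt (∑ x, g x ^ 2)) := by ring
      _ = (Real.sqrt ((1 + ω) / (1 - ω)) * Real.sqrt 2) * (B * Sg) := by rw [h6]; ring
      _ ≤ 5 / 2 * (B * Sg) := mul_le_mul_of_nonneg_right hA (mul_nonneg hB0 hSg0)
      _ = _ := by ring
  have b2 : nq Q (fun q => ∫ s in (0 : ℝ)..1, ((D s * (r s - 1) : ℝ) : ℂ) * ph q s) ≤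
      5 * ω ^ 2 * Sg := by
    refine nq_bessel (hDc.mul (hrc.sub continuous_const)) (by positivity) (fun s => ?_) Q
    show |D s * (r s - 1)| ≤ _
    rw [abs_mul]
    calc |D s| * |r s - 1| ≤ (5 * ω * Sg) * ω :=
          mul_le_mul (hDb s) (hrb s) (abs_nonneg _) (by positivity)
      _ = _ := by ring
  rw [nq_congr e1]
  refine (nq_sub Q _ _).trans ((add_le_add b1 b2).trans (le_of_eq ?_))
  ring

end model

end

end Vale.Agent.P159.H415
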