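import Vale.Agent.P159.H764.Ncx
import Vale.Agent.P159.H896.Chg
import Vale.Agent.P159.H415.Gain

/-!
P159, module CH2 (helper415), part 2: the harmonics in the constant of the free energy.

`w` bounded weight with `w (h + 1) = w h`, mass `t`, `U = U w (cm t)`, `F` real background,
`Wh q F = ∫₀¹ U(F+s) e^{-2πiqs} ds`, `Dh q F g = ∫₀¹ dU(F+s)[g] e^{-2πiqs} ds`,
`Ph q F = Z^{(q)}(F) / Z⁰(F)`.
-/

namespace Vale.Agent.P159.H415

open MeasureTheory ProbabilityTheory Finset
open Vale.Agent.P159.H37 (gau Zn Un ZM Zq)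
open Vale.Agent.P159.H764
open Vale.Agent.P159.H896 (ph continuous_ph norm_ph ph_add ph_per ph_zero_right ph_one)
open Vale.Agent.P159.TM.H870 (gr Zr lin)
open Vale.Agent.P159.TM.H104 (EM Ex Cv Lg li nh Gr ddU dU U Cf)
open Vale.Agent.P159.TM.H215 (Dg Hs)

noncomputable section

/-! ### means with respect to comparable weights -/

section mean

variable {Ω : Type*} [MeasurableSpace Ω] {P : Measure Ω}

/-- means of comparable weights -/
lemma mnW_comp {W W₀ X : Ω → ℝ} {ω : ℝ} (hω0 : 0 ≤ ω) (hω : ω < 1)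
    (h0 : Integrable W P) (h1 : Integrable (fun z => X z * W z) P)
    (k0 : Integrable W₀ P) (k1 : Integrable (fun z => X z * W₀ z) P)
    (k2 : Integrable (fun z => X z ^ 2 * W₀ z) P) (kpos : 0 < ∫ z, W₀ z ∂P)
    (hW₀ : ∀ z, 0 ≤ W₀ z) (hW : ∀ z, |W z - W₀ z| ≤ ω * W₀ z) :
    |mnW P W X - mnW P W₀ X| ≤ ω / (1 - ω) * Real.sqrt (vrW P W₀ X) := by
  set c := mnW P W₀ X with hc
  have hω1 : 0 < 1 - ω := by linarith
  have hm : (1 - ω) * ∫ z, W₀ z ∂P ≤ ∫ z, W z ∂P := by
    rw [← integral_const_mul]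
    refine integral_mono (k0.const_mul _) h0 fun z => ?_
    have := (abs_le.1 (hW z)).1
    simp only
    linarith
  have hpos : 0 < ∫ z, W z ∂P := lt_of_lt_of_le (mul_pos hω1 kpos) hm
  have i1 : Integrable (fun z => (X z - c) * W z) P := by
    refine (h1.sub (h0.const_mul c)).congr (Filter.Eventually.of_forall fun z => ?_)
    simp only [Pi.sub_apply]; ring
  have i2 : Integrable (fun z => (X z - c) * W₀ z) P := by
    refine (k1.sub (k0.const_mul c)).congr (Filter.Eventually.of_forall fun z => ?_)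
    simp only [Pi.sub_apply]; ring
  have i3 : Integrable (fun z => (X z - c) ^ 2 * W₀ z) P := by
    refine ((k2.sub (k1.const_mul (2 * c))).add (k0.const_mul (c ^ 2))).congr
      (Filter.Eventually.of_forall fun z => ?_)
    simp only [Pi.add_apply, Pi.sub_apply]; ring
  have e1 : ∫ z, (X z - c) * W z ∂P = (mnW P W X - c) * ∫ z, W z ∂P := by
    have : ∫ z, (X z - c) * W z ∂P = (∫ z, X z * W z ∂P) - c * ∫ z, W z ∂P := by
      rw [← integral_const_mul, ← integral_sub h1 (h0.const_mul c)]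
      refine integral_congr_ae (Filter.Eventually.of_forall fun z => ?_)
      simp only; ring
    rw [this]
    unfold mnW
    field_simp
  have e2 : ∫ z, (X z - c) * W₀ z ∂P = 0 := by
    have : ∫ z, (X z - c) * W₀ z ∂P = (∫ z, X z * W₀ z ∂P) - c * ∫ z, W₀ z ∂P := by
      rw [← integral_const_mul, ← integral_sub k1 (k0.const_mul c)]
      refine integral_congr_ae (Filter.Eventually.of_forall fun z => ?_)
      simp only; ring
    rw [this, hc]
    unfold mnW
    field_simp
    ring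
  have e3 : (mnW P W X - c) * ∫ z, W z ∂P = ∫ z, (X z - c) * (W z - W₀ z) ∂P := by
    rw [← e1]
    have : ∫ z, (X z - c) * (W z - W₀ z) ∂P =
        (∫ z, (X z - c) * W z ∂P) - ∫ z, (X z - c) * W₀ z ∂P := by
      rw [← integral_sub i1 i2]
      refine integral_congr_ae (Filter.Eventually.of_forall fun z => ?_)
      simp only; ring
    rw [this, e2, sub_zero]
  have i4 : Integrable (fun z => |X z - c| * W₀ z) P := by
    refine (i2.abs).congr (Filter.Eventually.of_forall fun z => ?_)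
    simp only
    rw [abs_mul, abs_of_nonneg (hW₀ z)]
  have b1 : |(mnW P W X - c) * ∫ z, W z ∂P| ≤ ω * ∫ z, |X z - c| * W₀ z ∂P := by
    rw [e3, ← integral_const_mul]
    refine (abs_integral_le_integral_abs).trans ?_
    refine integral_mono_of_nonneg (Filter.Eventually.of_forall fun z => abs_nonneg _)
      (i4.const_mul ω) (Filter.Eventually.of_forall fun z => ?_)
    simp only
    rw [abs_mul]
    have := mul_le_mul_of_nonneg_left (hW z) (abs_nonneg (X z - c))
    linarith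
  -- Cauchy-Schwarz
  set M := ∫ z, W₀ z ∂P with hM
  set v := vrW P W₀ X with hv
  have hv0 : 0 ≤ v := vrW_nonneg k0 k1 k2 kpos hW₀
  have hv1 : ∫ z, (X z - c) ^ 2 * W₀ z ∂P = v * M := by
    have h := sq_about k0 k1 k2 kpos c
    rw [hc, sub_self, ← hc] at h
    rw [div_eq_iff kpos.ne'] at h
    rw [h]; ring
  have b2 : ∫ z, |X z - c| * W₀ z ∂P ≤ Real.sqrt v * M := by
    -- 2 s |x| ≤ x² + s²
    have hAM : ∀ s : ℝ, 0 < s → 2 * s * ∫ z, |X z - c| * W₀ z ∂P ≤ v * M + s ^ 2 * M := by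
      intro s hs
      rw [← hv1, ← integral_const_mul, hM, ← integral_const_mul, ← integral_add i3 (k0.const_mul _)]
      refine integral_mono (i4.const_mul _) (i3.add (k0.const_mul _)) fun z => ?_
      simp only
      have h1 : 2 * s * |X z - c| ≤ (X z - c) ^ 2 + s ^ 2 := by
        nlinarith [sq_nonneg (|X z - c| - s), sq_abs (X z - c)]
      nlinarith [mul_le_mul_of_nonneg_right h1 (hW₀ z)]
    rcases hv0.eq_or_lt with h | h
    · -- v = 0
      rw [← h, Real.sqrt_zero, zero_mul]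
      by_contra hcon
      push Not at hcon
      set J := ∫ z, |X z - c| * W₀ z ∂P with hJ
      have h2 := hAM (J / M) (div_pos hcon kpos)
      rw [← h, zero_mul, zero_add] at h2
      have h3 : 2 * (J / M) * J = 2 * (J ^ 2 / M) := by ring
      have h4 : (J / M) ^ 2 * M = J ^ 2 / M := by field_simp
      rw [h3, h4] at h2
      have : 0 < J ^ 2 / M := by positivity
      linarith
    · have hs : 0 < Real.sqrt v := Real.sqrt_pos.2 h
      have h2 := hAM _ hs
      rw [Real.sq_sqrt hv0] at h2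
      have h3 : v = Real.sqrt v * Real.sqrt v := (Real.mul_self_sqrt hv0).symm
      have h4 : 2 * Real.sqrt v * ∫ z, |X z - c| * W₀ z ∂P ≤ 2 * Real.sqrt v * (Real.sqrt v * M) := by
        calc _ ≤ v * M + v * M := h2
          _ = 2 * Real.sqrt v * (Real.sqrt v * M) := by
              nlinarith [h3]
      exact le_of_mul_le_mul_left h4 (by positivity)
  have b3 : |mnW P W X - c| * ((1 - ω) * M) ≤ ω * (Real.sqrt v * M) := by
    calc |mnW P W X - c| * ((1 - ω) * M) ≤ |mnW P W X - c| * ∫ z, W z ∂P :=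
          mul_le_mul_of_nonneg_left hm (abs_nonneg _)
      _ = |(mnW P W X - c) * ∫ z, W z ∂P| := by rw [abs_mul, abs_of_pos hpos]
      _ ≤ _ := b1
      _ ≤ ω * (Real.sqrt v * M) := mul_le_mul_of_nonneg_left b2 hω0
  rw [div_mul_eq_mul_div, le_div_iff₀ hω1]
  have h5 : |mnW P W X - c| * (1 - ω) * M ≤ ω * Real.sqrt v * M := by
    calc _ = |mnW P W X - c| * ((1 - ω) * M) := by ring
      _ ≤ _ := b3
      _ = _ := by ring
  exact le_of_mul_le_mul_right h5 kpos

end mean

/-! ### the phases -/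

lemma int_ph {q : ℤ} (hq : q ≠ 0) : ∫ s in (0 : ℝ)..1, ph q s = 0 := by
  have h1 : ∀ s : ℝ, ph q s = Complex.exp ((-(2 * Real.pi * q) * Complex.I) * s) := by
    intro s
    unfold ph
    congr 1
    ring
  simp only [h1]
  have hc : (-(2 * (Real.pi : ℂ) * q) * Complex.I) ≠ 0 := by
    refine mul_ne_zero (neg_ne_zero.2 (mul_ne_zero (mul_ne_zero two_ne_zero ?_) ?_)) Complex.I_ne_zero
    · exact_mod_cast Real.pi_ne_zero
    · exact_mod_cast hq
  rw [integral_exp_mul_complex hc]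
  have h2 : Complex.exp ((-(2 * Real.pi * q) * Complex.I) * (1 : ℝ)) = 1 := by
    have := h1 1
    rw [ph_one] at this
    exact this.symm
  rw [h2]
  simp

lemma ph_neg_cexp (q : ℤ) (c : ℝ) : ph q (-c) = Complex.exp (((2 * Real.pi * q * c : ℝ) : ℂ) * Complex.I) := by
  unfold ph
  congr 1
  push_cast
  ring

/-- shift of a periodic integrand against the phase -/
lemma int_shift {f : ℝ → ℂ} (hp : Function.Periodic f 1) (q : ℤ) (c : ℝ) :
    ∫ s in (0 : ℝ)..1, f (s + c) * ph q s = ph q (-c) * ∫ s in (0 : ℝ)..1, f s * ph q s := by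
  have h1 : ∀ s : ℝ, f (s + c) * ph q s = (fun s => ph q (-c) * (f s * ph q s)) (s + c) := by
    intro s
    simp only
    have : ph q s = ph q (s + c) * ph q (-c) := by
      rw [← ph_add]
      congr 1
      ring
    rw [this]
    ring
  simp_rw [h1]
  rw [intervalIntegral.integral_comp_add_right (fun s => ph q (-c) * (f s * ph q s)), zero_add,
    add_comm 1 c]
  have hp' : Function.Periodic (fun s => ph q (-c) * (f s * ph q s)) 1 := by
    intro s
    simp only
    rw [hp s, ph_per q s]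
  have h2 := hp'.intervalIntegral_add_eq c 0
  rw [zero_add] at h2
  rw [h2, intervalIntegral.integral_const_mul]

section model

variable {V : Type*} [Fintype V] {w : (V → ℤ) → ℝ} {Wb : ℝ}

/-- harmonic `q` of the free energy -/
def Wh (w : (V → ℤ) → ℝ) (t : ℝ) (q : ℤ) (F : V → ℝ) : ℂ :=
  ∫ s in (0 : ℝ)..1, (U w (cm t) (shc F s) : ℂ) * ph q s

/-- harmonic `q` of the derivative of the free energy in the direction `g` -/
def Dh (w : (V → ℤ) → ℝ) (t : ℝ) (q : ℤ) (g F : V → ℝ) : ℂ :=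
  ∫ s in (0 : ℝ)..1, (dU w (cm t) (shc F s) g : ℂ) * ph q s

/-- charge sector `q` -/
def Sc (w : (V → ℤ) → ℝ) (t : ℝ) (q : ℤ) (F : V → ℝ) : ℂ :=
  ∫ s in (0 : ℝ)..1, (Zr w (cm t) (shc F s) : ℂ) * ph q s

/-- charge sector `q` divided by the neutral one -/
def Pq (w : (V → ℤ) → ℝ) (t : ℝ) (q : ℤ) (F : V → ℝ) : ℂ := Sc w t q F / (Nt w t F : ℂ)

lemma Zq_eq_Sc [DecidableEq V] (w : (V → ℤ) → ℝ) (t : ℝ) (q : ℤ) (F : V → ℝ) :
    Zq w (t • (1 : Matrix V V ℝ)) q F = Sc w t q F := by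
  unfold Zq Sc
  refine intervalIntegral.integral_congr fun s _ => ?_
  simp only [ZM_cm]
  rfl

variable (hw0 : ∀ h, 0 ≤ w h) (hwb : ∀ h, w h ≤ Wb) (hp : ∃ h, 0 < w h)
  (hs : ∀ h, w (h + 1) = w h)

include hw0 hwb hp

lemma Zr_pos' {t : ℝ} (ht : 0 < t) (F : V → ℝ) : 0 < Zr w (cm t) F :=
  TM.H104.Zr_pos (m := cm t) (fun _ => ht) hw0 hwb hp F

lemma Nt_pos {t : ℝ} (ht : 0 < t) (F : V → ℝ) : 0 < Nt w t F := (bp_Nt hw0 hwb hp ht).pos F

lemma U_eq {t : ℝ} (ht : 0 < t) (F : V → ℝ) :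
    U w (cm t) F = Real.log (Zr w (cm t) 0) - Real.log (Zr w (cm t) F) := by
  unfold U
  rw [Real.log_div (Zr_pos' hw0 hwb hp ht _).ne' (Zr_pos' hw0 hwb hp ht _).ne']
  ring

lemma continuous_U' {t : ℝ} (ht : 0 < t) : Continuous fun F : V → ℝ => U w (cm t) F :=
  TM.H104.continuous_U (m := cm t) (fun _ => ht) hw0 hwb hp

lemma continuous_dU' {t : ℝ} (ht : 0 < t) (g : V → ℝ) :
    Continuous fun F : V → ℝ => dU w (cm t) F g := by
  have h1 : (fun F : V → ℝ => dU w (cm t) F g) = fun F => ∑ x, g x * Dg w (cm t) F x := by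
    funext F
    rw [TM.H215.sum_Dg (m := cm t) (fun _ => ht) hw0 hwb hp]
  rw [h1]
  exact continuous_finsetSum _ fun x _ => continuous_const.mul
    (TM.H215.continuous_Dg (m := cm t) (fun _ => ht) hw0 hwb hp x)

lemma dU_finsum {t : ℝ} (ht : 0 < t) {ι : Type*} (S : Finset ι) (g : ι → V → ℝ) (F : V → ℝ) :
    dU w (cm t) F (∑ i ∈ S, g i) = ∑ i ∈ S, dU w (cm t) F (g i) := by
  have h1 : ∀ g : V → ℝ, dU w (cm t) F g = ∑ x, g x * Dg w (cm t) F x := by
    intro g
    rw [TM.H215.sum_Dg (m := cm t) (fun _ => ht) hw0 hwb hp]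
  simp only [h1]
  rw [Finset.sum_comm]
  refine Finset.sum_congr rfl fun x _ => ?_
  rw [Finset.sum_apply, Finset.sum_mul]

include hs in
lemma dU_shc_one {t : ℝ} (ht : 0 < t) (F g : V → ℝ) :
    dU w (cm t) (shc F 1) g = dU w (cm t) F g := by
  have h1 : ∀ F : V → ℝ, dU w (cm t) F g = ∑ x, g x * Dg w (cm t) F x := by
    intro F
    rw [TM.H215.sum_Dg (m := cm t) (fun _ => ht) hw0 hwb hp]
  rw [h1, h1]
  have h3 := TM.H215.Dg_one (m := cm t) (fun _ => ht) hw0 hwb hp hs F
  refine Finset.sum_congr rfl fun x _ => ?_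
  have h4 : Dg w (cm t) (shc F 1) x = Dg w (cm t) F x := congrFun h3 x
  rw [h4]

include hs in
lemma U_shc_one {t : ℝ} (ht : 0 < t) (F : V → ℝ) : U w (cm t) (shc F 1) = U w (cm t) F := by
  rw [U_eq hw0 hwb hp ht, U_eq hw0 hwb hp ht]
  have := Zr_per hs t F 0
  simp only [zero_add, shc_zero] at this
  rw [this]

include hs in
lemma per_dU {t : ℝ} (ht : 0 < t) (F g : V → ℝ) :
    Function.Periodic (fun s : ℝ => (dU w (cm t) (shc F s) g : ℂ)) 1 := by
  intro s
  simp only
  rw [← shc_shc, dU_shc_one hw0 hwb hp hs ht]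

include hs in
lemma per_U {t : ℝ} (ht : 0 < t) (F : V → ℝ) :
    Function.Periodic (fun s : ℝ => (U w (cm t) (shc F s) : ℂ)) 1 := by
  intro s
  simp only
  rw [← shc_shc, U_shc_one hw0 hwb hp hs ht]

include hs in
/-- `Dh q g` has charge `q` -/
theorem Dh_chg {t : ℝ} (ht : 0 < t) (q : ℤ) (g : V → ℝ) : Chg q (Dh w t q g) := by
  intro F c
  have h1 := int_shift (per_dU hw0 hwb hp hs ht F g) q c
  rw [ph_neg_cexp] at h1
  have h2 : Dh w t q g (fun x => F x + c) =
      ∫ s in (0 : ℝ)..1, (dU w (cm t) (shc F (s + c)) g : ℂ) * ph q s := by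
    unfold Dh
    refine intervalIntegral.integral_congr fun s _ => ?_
    have e : shc (fun x => F x + c) s = shc F (s + c) := by
      funext x
      simp only [shc]
      ring
    simp only [e]
  rw [h2]
  exact h1

lemma cont_s_dU {t : ℝ} (ht : 0 < t) (F g : V → ℝ) :
    Continuous fun s : ℝ => (dU w (cm t) (shc F s) g : ℂ) :=
  Complex.continuous_ofReal.comp ((continuous_dU' hw0 hwb hp ht g).comp (continuous_shc F))

lemma cont_s_U {t : ℝ} (ht : 0 < t) (F : V → ℝ) :
    Continuous fun s : ℝ => (U w (cm t) (shc F s) : ℂ) :=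
  Complex.continuous_ofReal.comp ((continuous_U' hw0 hwb hp ht).comp (continuous_shc F))

lemma cont_s_Zr {t : ℝ} (ht : 0 < t) (F : V → ℝ) :
    Continuous fun s : ℝ => (Zr w (cm t) (shc F s) : ℂ) :=
  Complex.continuous_ofReal.comp ((continuous_Zr hw0 hwb hp ht).comp (continuous_shc F))

/-- linearity in the direction -/
theorem Dh_sum {t : ℝ} (ht : 0 < t) (q : ℤ) {ι : Type*} (S : Finset ι) (g : ι → V → ℝ)
    (F : V → ℝ) : Dh w t q (∑ i ∈ S, g i) F = ∑ i ∈ S, Dh w t q (g i) F := by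
  unfold Dh
  have hi : ∀ i ∈ S, IntervalIntegrable (fun s : ℝ => (dU w (cm t) (shc F s) (g i) : ℂ) * ph q s)
      volume 0 1 := fun i _ =>
    ((cont_s_dU hw0 hwb hp ht F (g i)).mul (continuous_ph q)).intervalIntegrable _ _
  rw [← intervalIntegral.integral_finsetSum hi]
  refine intervalIntegral.integral_congr fun s _ => ?_
  rw [dU_finsum hw0 hwb hp ht, Complex.ofReal_sum, Finset.sum_mul]

include hs in
/-- integration by parts in the constant -/
theorem Dh_one {t : ℝ} (ht : 0 < t) (q : ℤ) (F : V → ℝ) :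
    Dh w t q (fun _ => 1) F = (2 * Real.pi * q * Complex.I) * Wh w t q F := by
  have hd : ∀ s : ℝ, HasDerivAt (fun s : ℝ => (U w (cm t) (shc F s) : ℂ) * ph q s)
      ((dU w (cm t) (shc F s) (fun _ => 1) : ℂ) * ph q s +
        (U w (cm t) (shc F s) : ℂ) * (ph q s * (-(2 * Real.pi * q) * Complex.I))) s := by
    intro s
    have h1 := (TM.H104.hasDerivAt_U (m := cm t) (fun _ => ht) hw0 hwb hp F (fun _ => 1) s).ofReal_comp
    have e : ∀ s : ℝ, F + s • (fun _ : V => (1 : ℝ)) = shc F s := fun s => (shc_eq F s).symm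
    simp only [e] at h1
    have h2 : HasDerivAt (fun s : ℝ => ph q s) (ph q s * (-(2 * Real.pi * q) * Complex.I)) s := by
      unfold ph
      have h3 : HasDerivAt (fun s : ℝ => -(2 * (Real.pi : ℂ) * q * (s : ℂ)) * Complex.I)
          (-(2 * Real.pi * q * 1) * Complex.I) s := by
        have h4 : HasDerivAt (fun s : ℝ => (s : ℂ)) 1 s := Complex.ofRealCLM.hasDerivAt
        exact ((h4.const_mul (2 * (Real.pi : ℂ) * q)).neg).mul_const Complex.I
      have h5 := h3.cexp
      rw [mul_one] at h5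
      exact h5
    exact h1.mul h2
  have hc : Continuous fun s : ℝ => (dU w (cm t) (shc F s) (fun _ => 1) : ℂ) * ph q s +
      (U w (cm t) (shc F s) : ℂ) * (ph q s * (-(2 * Real.pi * q) * Complex.I)) :=
    ((cont_s_dU hw0 hwb hp ht F _).mul (continuous_ph q)).add
      ((cont_s_U hw0 hwb hp ht F).mul ((continuous_ph q).mul continuous_const))
  have h1 := intervalIntegral.integral_eq_sub_of_hasDerivAt (fun s _ => hd s)
    (hc.intervalIntegrable 0 1)
  have h2 : (U w (cm t) (shc F 1) : ℂ) * ph q 1 - (U w (cm t) (shc F 0) : ℂ) * ph q 0 = 0 := by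
    rw [U_shc_one hw0 hwb hp hs ht, ph_one, ph_zero_right, shc_zero, sub_self]
  have i1 : IntervalIntegrable (fun s : ℝ => (dU w (cm t) (shc F s) (fun _ => 1) : ℂ) * ph q s)
      volume 0 1 := ((cont_s_dU hw0 hwb hp ht F _).mul (continuous_ph q)).intervalIntegrable _ _
  have i2 : IntervalIntegrable (fun s : ℝ => (U w (cm t) (shc F s) : ℂ) *
      (ph q s * (-(2 * Real.pi * q) * Complex.I))) volume 0 1 :=
    ((cont_s_U hw0 hwb hp ht F).mul ((continuous_ph q).mul continuous_const)).intervalIntegrable _ _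
  rw [h2, intervalIntegral.integral_add i1 i2] at h1
  have h3 : ∫ s in (0 : ℝ)..1, (U w (cm t) (shc F s) : ℂ) *
      (ph q s * (-(2 * Real.pi * q) * Complex.I)) = (-(2 * Real.pi * q) * Complex.I) * Wh w t q F := by
    unfold Wh
    rw [← intervalIntegral.integral_const_mul]
    refine intervalIntegral.integral_congr fun s _ => ?_
    ring
  rw [h3] at h1
  have h4 : Dh w t q (fun _ => 1) F = ∫ s in (0 : ℝ)..1,
      (dU w (cm t) (shc F s) (fun _ => 1) : ℂ) * ph q s := rfl
  rw [h4]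
  linear_combination h1

include hs in
/-- `W_q` as a sum over a partition of the derivatives -/
theorem Wh_eq_sum {t : ℝ} (ht : 0 < t) (q : ℤ) {ι : Type*} (S : Finset ι) (g : ι → V → ℝ)
    (hg : ∑ i ∈ S, g i = fun _ => 1) (F : V → ℝ) :
    (2 * Real.pi * q * Complex.I) * Wh w t q F = ∑ i ∈ S, Dh w t q (g i) F := by
  rw [← Dh_sum hw0 hwb hp ht, hg, Dh_one hw0 hwb hp hs ht]

/-! ### bounds uniform in the background -/

omit hw0 hwb hp in
/-- `|x - log (1+x)| ≤ 2 x²` for `|x| ≤ 1/2` -/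
lemma log_one_add_bd {x : ℝ} (hx : |x| ≤ 1 / 2) : |x - Real.log (1 + x)| ≤ 2 * x ^ 2 := by
  have h1 := (abs_le.1 hx).1
  have hpos : 0 < 1 + x := by linarith
  have h2 : Real.log (1 + x) ≤ x := by
    have := Real.log_le_sub_one_of_pos hpos
    linarith
  have h3 : 1 - (1 + x)⁻¹ ≤ Real.log (1 + x) := Real.one_sub_inv_le_log_of_pos hpos
  have h4 : x - 2 * x ^ 2 ≤ 1 - (1 + x)⁻¹ := by
    have : 1 - (1 + x)⁻¹ = x / (1 + x) := by field_simp; ring
    rw [this, le_div_iff₀ hpos]
    nlinarith [sq_nonneg x]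
  rw [abs_of_nonneg (by linarith)]
  linarith

/-- the hypothesis on the charged sectors at mass `t` -/
def CH (w : (V → ℤ) → ℝ) (t ω : ℝ) : Prop :=
  ∀ F : V → ℝ, |Zr w (cm t) F - Nt w t F| ≤ ω * Nt w t F

include hs in
/-- `Φ_q + W_q` are the harmonics of one function of size `2 ω²` -/
theorem Pq_Wh_hat {t ω : ℝ} (ht : 0 < t) (hω : ω ≤ 1 / 2) (hc : CH w t ω) (F : V → ℝ) :
    ∃ f : ℝ → ℝ, Continuous f ∧ (∀ s, |f s| ≤ 2 * ω ^ 2) ∧
      ∀ q : ℤ, q ≠ 0 → Pq w t q F + Wh w t q F = ∫ s in (0 : ℝ)..1, (f s : ℂ) * ph q s := by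
  have hN : 0 < Nt w t F := Nt_pos hw0 hwb hp ht F
  set x : ℝ → ℝ := fun s => Zr w (cm t) (shc F s) / Nt w t F - 1 with hx
  have hxs : ∀ s, |x s| ≤ ω := by
    intro s
    have h1 := hc (shc F s)
    rw [Nt_shc hs] at h1
    have h2 : x s = (Zr w (cm t) (shc F s) - Nt w t F) / Nt w t F := by
      rw [hx]; field_simp
    rw [h2, abs_div, abs_of_pos hN, div_le_iff₀ hN]
    exact h1
  have hω0 : 0 ≤ ω := (abs_nonneg _).trans (hxs 0)
  have hxc : Continuous x := by
    rw [hx]
    exact ((cont_c hw0 hwb hp ht F).div_const _).sub continuous_const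
  have h1p : ∀ s, 0 < 1 + x s := fun s => by linarith [(abs_le.1 (hxs s)).1]
  have hlc : Continuous fun s => Real.log (1 + x s) :=
    (continuous_const.add hxc).log fun s => (h1p s).ne'
  refine ⟨fun s => x s - Real.log (1 + x s), hxc.sub hlc, fun s => ?_, fun q hq => ?_⟩
  · refine (log_one_add_bd ((hxs s).trans hω)).trans ?_
    have : x s ^ 2 ≤ ω ^ 2 := by
      rw [← sq_abs (x s)]
      exact pow_le_pow_left₀ (abs_nonneg _) (hxs s) 2
    linarith
  -- P_q
  have e1 : Pq w t q F = ∫ s in (0 : ℝ)..1, (x s : ℂ) * ph q s := by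
    have i0 : IntervalIntegrable (fun s => (Zr w (cm t) (shc F s) : ℂ) / (Nt w t F : ℂ) * ph q s)
        volume 0 1 := (((cont_s_Zr hw0 hwb hp ht F).div_const _).mul
          (continuous_ph q)).intervalIntegrable _ _
    have h2 : ∀ s : ℝ, (x s : ℂ) * ph q s =
        (Zr w (cm t) (shc F s) : ℂ) / (Nt w t F : ℂ) * ph q s - ph q s := by
      intro s
      rw [hx]
      push_cast
      ring
    simp_rw [h2]
    rw [intervalIntegral.integral_sub i0 ((continuous_ph q).intervalIntegrable _ _), int_ph hq,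
      sub_zero]
    unfold Pq Sc
    rw [div_eq_inv_mul, ← intervalIntegral.integral_const_mul]
    refine intervalIntegral.integral_congr fun s _ => ?_
    ring
  have e2 : Wh w t q F = - ∫ s in (0 : ℝ)..1, (Real.log (1 + x s) : ℂ) * ph q s := by
    have h2 : ∀ s : ℝ, (U w (cm t) (shc F s) : ℂ) * ph q s =
        ((Real.log (Zr w (cm t) 0) - Real.log (Nt w t F) : ℝ) : ℂ) * ph q s -
          (Real.log (1 + x s) : ℂ) * ph q s := by
      intro s
      rw [U_eq hw0 hwb hp ht]
      have : 1 + x s = Zr w (cm t) (shc F s) / Nt w t F := by rw [hx]; ring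
      rw [this, Real.log_div (Zr_pos' hw0 hwb hp ht _).ne' hN.ne']
      push_cast
      ring
    unfold Wh
    simp_rw [h2]
    have i1 : IntervalIntegrable (fun s : ℝ =>
        ((Real.log (Zr w (cm t) 0) - Real.log (Nt w t F) : ℝ) : ℂ) * ph q s) volume 0 1 :=
      (continuous_const.mul (continuous_ph q)).intervalIntegrable _ _
    have i2 : IntervalIntegrable (fun s : ℝ => (Real.log (1 + x s) : ℂ) * ph q s) volume 0 1 :=
      ((Complex.continuous_ofReal.comp hlc).mul (continuous_ph q)).intervalIntegrable _ _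
    rw [intervalIntegral.integral_sub i1 i2, intervalIntegral.integral_const_mul, int_ph hq,
      mul_zero, zero_sub]
  rw [e1, e2]
  have i1 : IntervalIntegrable (fun s : ℝ => (x s : ℂ) * ph q s) volume 0 1 :=
    ((Complex.continuous_ofReal.comp hxc).mul (continuous_ph q)).intervalIntegrable _ _
  have i2 : IntervalIntegrable (fun s : ℝ => (Real.log (1 + x s) : ℂ) * ph q s) volume 0 1 :=
    ((Complex.continuous_ofReal.comp hlc).mul (continuous_ph q)).intervalIntegrable _ _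
  rw [← sub_eq_add_neg, ← intervalIntegral.integral_sub i1 i2]
  refine intervalIntegral.integral_congr fun s _ => ?_
  push_cast
  ring

include hs in
/-- **(H1)** `Φ_q = - W_q + O(ω²)` in every background, `q ≠ 0` -/
theorem Pq_add_Wh {t ω : ℝ} (ht : 0 < t) (hω : ω ≤ 1 / 2) (hc : CH w t ω) {q : ℤ} (hq : q ≠ 0)
    (F : V → ℝ) : ‖Pq w t q F + Wh w t q F‖ ≤ 2 * ω ^ 2 := by
  obtain ⟨f, hf, hb, he⟩ := Pq_Wh_hat hw0 hwb hp hs ht hω hc F
  rw [he q hq]
  have h3 := intervalIntegral.norm_integral_le_of_norm_le_const (a := (0 : ℝ)) (b := 1)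
    (f := fun s : ℝ => (f s : ℂ) * ph q s) (C := 2 * ω ^ 2) (fun s _ => ?_)
  · simpa using h3
  · rw [norm_mul, norm_ph, mul_one, Complex.norm_real, Real.norm_eq_abs]
    exact hb s

include hs in
/-- the gradients of the integer and of the neutral free energy, every background -/
theorem dU_sub_dN {t ω : ℝ} (ht : 0 < t) (h : NC w t ω) (F g : V → ℝ) :
    |dU w (cm t) F g - dN w t F g| ≤
      ω / (1 - ω) * Real.sqrt ((1 + ω) / (1 - ω)) * Real.sqrt (2 * t * ∑ x, g x ^ 2) := by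
  have h2t : 0 < 2 * t := by linarith
  have hZ := bp_Zr hw0 hwb hp h2t
  have hN := bp_Nt hw0 hwb hp h2t
  set a := Real.sqrt (1 / (2 * t)) with ha
  have hapos : 0 < a := sqrt_pos' ht
  have h1 := mnW_comp (P := gau V) h.ω0 h.ω1 (hZ.int0 a F) (hZ.int1 a F g) (hN.int0 a F)
    (hN.int1 a F g) (hN.int2 a F g) (hN.PA_pos a F) (fun z => (hN.pos _).le)
    (fun z => h.chg (F + a • z))
  have h2 := vN_le hw0 hwb hp hs ht h F g
  have hω1 : 0 < 1 - ω := by linarith [h.ω1]
  have hω0 := h.ω0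
  have hr : 0 ≤ (1 + ω) / (1 - ω) := div_nonneg (by linarith) hω1.le
  have e : dU w (cm t) F g - dN w t F g =
      -(1 / a * (mnW (gau V) (fun z => Zr w (cm (2 * t)) (F + a • z)) (lz g) -
        mnW (gau V) (fun z => Nt w (2 * t) (F + a • z)) (lz g))) := by
    rw [dU_eq hw0 hwb hp ht]
    unfold dN dP mnW
    ring
  rw [e, abs_neg, abs_mul, abs_of_pos (by positivity : 0 < 1 / a)]
  have h3 : Real.sqrt (vrW (gau V) (fun z => Nt w (2 * t) (F + a • z)) (lz g)) ≤
      Real.sqrt ((1 + ω) / (1 - ω)) * Real.sqrt (∑ x, g x ^ 2) := by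
    rw [← Real.sqrt_mul hr]
    exact Real.sqrt_le_sqrt h2
  have h4 : 1 / a = Real.sqrt (2 * t) := by
    rw [ha, Real.sqrt_div zero_le_one, Real.sqrt_one]
    field_simp
  rw [h4]
  have h5 : Real.sqrt (2 * t * ∑ x, g x ^ 2) = Real.sqrt (2 * t) * Real.sqrt (∑ x, g x ^ 2) :=
    Real.sqrt_mul h2t.le _
  rw [h5]
  have hq0 : 0 ≤ ω / (1 - ω) := div_nonneg hω0 hω1.le
  calc Real.sqrt (2 * t) * _ ≤ Real.sqrt (2 * t) * (ω / (1 - ω) *
        (Real.sqrt ((1 + ω) / (1 - ω)) * Real.sqrt (∑ x, g x ^ 2))) := by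
        refine mul_le_mul_of_nonneg_left (h1.trans ?_) (Real.sqrt_nonneg _)
        exact mul_le_mul_of_nonneg_left h3 hq0
    _ = _ := by ring

omit hw0 hwb hp in
include hs in
lemma dN_shc (t : ℝ) (F g : V → ℝ) (s : ℝ) : dN w t (shc F s) g = dN w t F g := by
  unfold dN dP
  congr 3
  funext z
  simp only
  rw [← shc_add, Nt_shc hs]

include hs in
/-- **(H3)** the harmonics of the gradient in every background -/
theorem Dh_le {t ω : ℝ} (ht : 0 < t) (hω : ω ≤ 1 / 2) (h : NC w t ω) {q : ℤ} (hq : q ≠ 0)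
    (g F : V → ℝ) : ‖Dh w t q g F‖ ≤ 5 * ω * Real.sqrt (t * ∑ x, g x ^ 2) := by
  have hω0 := h.ω0
  have e1 : Dh w t q g F = ∫ s in (0 : ℝ)..1,
      ((dU w (cm t) (shc F s) g - dN w t F g : ℝ) : ℂ) * ph q s := by
    have h2 : ∀ s : ℝ, ((dU w (cm t) (shc F s) g - dN w t F g : ℝ) : ℂ) * ph q s =
        (dU w (cm t) (shc F s) g : ℂ) * ph q s - (dN w t F g : ℂ) * ph q s := by
      intro s; push_cast; ring
    simp_rw [h2]
    have i1 : IntervalIntegrable (fun s : ℝ => (dU w (cm t) (shc F s) g : ℂ) * ph q s) volume 0 1 :=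
      ((cont_s_dU hw0 hwb hp ht F g).mul (continuous_ph q)).intervalIntegrable _ _
    have i2 : IntervalIntegrable (fun s : ℝ => (dN w t F g : ℂ) * ph q s) volume 0 1 :=
      (continuous_const.mul (continuous_ph q)).intervalIntegrable _ _
    rw [intervalIntegral.integral_sub i1 i2, intervalIntegral.integral_const_mul, int_ph hq,
      mul_zero, sub_zero]
    rfl
  rw [e1]
  have h3 := intervalIntegral.norm_integral_le_of_norm_le_const (a := (0 : ℝ)) (b := 1)
    (f := fun s : ℝ => ((dU w (cm t) (shc F s) g - dN w t F g : ℝ) : ℂ) * ph q s)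
    (C := 5 * ω * Real.sqrt (t * ∑ x, g x ^ 2)) (fun s _ => ?_)
  · simpa using h3
  · rw [norm_mul, norm_ph, mul_one, Complex.norm_real, Real.norm_eq_abs]
    have h1 := dU_sub_dN hw0 hwb hp hs ht h (shc F s) g
    rw [dN_shc hs] at h1
    refine h1.trans ?_
    have hS : 0 ≤ ∑ x, g x ^ 2 := Finset.sum_nonneg fun x _ => sq_nonneg _
    have e2 : Real.sqrt (2 * t * ∑ x, g x ^ 2) = Real.sqrt 2 * Real.sqrt (t * ∑ x, g x ^ 2) := by
      rw [← Real.sqrt_mul (by norm_num : (0 : ℝ) ≤ 2), mul_assoc]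
    rw [e2]
    have hA : Real.sqrt ((1 + ω) / (1 - ω)) * Real.sqrt 2 ≤ 5 / 2 := by
      rw [← Real.sqrt_mul (div_nonneg (by linarith) (by linarith))]
      refine Real.sqrt_le_iff.2 ⟨by norm_num, ?_⟩
      rw [div_mul_eq_mul_div, div_le_iff₀ (by linarith)]
      nlinarith
    have hB : ω / (1 - ω) ≤ 2 * ω := by
      rw [div_le_iff₀ (by linarith)]
      nlinarith
    calc ω / (1 - ω) * Real.sqrt ((1 + ω) / (1 - ω)) * (Real.sqrt 2 * Real.sqrt (t * ∑ x, g x ^ 2))
        = (ω / (1 - ω)) * (Real.sqrt ((1 + ω) / (1 - ω)) * Real.sqrt 2) *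
          Real.sqrt (t * ∑ x, g x ^ 2) := by ring
      _ ≤ (2 * ω) * (5 / 2) * Real.sqrt (t * ∑ x, g x ^ 2) := by
          refine mul_le_mul_of_nonneg_right ?_ (Real.sqrt_nonneg _)
          exact mul_le_mul hB hA (by positivity) (by positivity)
      _ = _ := by ring

/-! ### regularity in the background -/

lemma continuous_Dh {t : ℝ} (ht : 0 < t) (q : ℤ) (g : V → ℝ) : Continuous (Dh w t q g) := by
  unfold Dh
  refine intervalIntegral.continuous_parametric_intervalIntegral_of_continuous' ?_ 0 1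
  refine Continuous.mul ?_ ((continuous_ph q).comp continuous_snd)
  refine Complex.continuous_ofReal.comp ((continuous_dU' hw0 hwb hp ht g).comp ?_)
  unfold shc
  fun_prop

lemma continuous_Wh {t : ℝ} (ht : 0 < t) (q : ℤ) : Continuous (Wh w t q) := by
  unfold Wh
  refine intervalIntegral.continuous_parametric_intervalIntegral_of_continuous' ?_ 0 1
  refine Continuous.mul ?_ ((continuous_ph q).comp continuous_snd)
  refine Complex.continuous_ofReal.comp ((continuous_U' hw0 hwb hp ht).comp ?_)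
  unfold shc
  fun_prop

lemma continuous_Sc {t : ℝ} (ht : 0 < t) (q : ℤ) : Continuous (Sc w t q) := by
  unfold Sc
  refine intervalIntegral.continuous_parametric_intervalIntegral_of_continuous' ?_ 0 1
  refine Continuous.mul ?_ ((continuous_ph q).comp continuous_snd)
  refine Complex.continuous_ofReal.comp ((continuous_Zr hw0 hwb hp ht).comp ?_)
  unfold shc
  fun_prop

lemma continuous_Nt {t : ℝ} (ht : 0 < t) : Continuous (Nt w t) := by
  unfold Nt
  refine intervalIntegral.continuous_parametric_intervalIntegral_of_continuous' ?_ 0 1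
  refine (continuous_Zr hw0 hwb hp ht).comp ?_
  unfold shc
  fun_prop

lemma continuous_Pq {t : ℝ} (ht : 0 < t) (q : ℤ) : Continuous (Pq w t q) := by
  unfold Pq
  refine (continuous_Sc hw0 hwb hp ht q).div
    (Complex.continuous_ofReal.comp (continuous_Nt hw0 hwb hp ht)) fun F => ?_
  exact_mod_cast (Nt_pos hw0 hwb hp ht F).ne'

/-- locality of the harmonics of the gradient from locality of the gradient -/
lemma Dh_sub_le {t ε : ℝ} (ht : 0 < t) (q : ℤ) (g F F' : V → ℝ)
    (h : ∀ s ∈ Set.Icc (0 : ℝ) 1, |dU w (cm t) (shc F s) g - dU w (cm t) (shc F' s) g| ≤ ε) :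
    ‖Dh w t q g F - Dh w t q g F'‖ ≤ ε := by
  have i1 : ∀ F : V → ℝ, IntervalIntegrable
      (fun s : ℝ => (dU w (cm t) (shc F s) g : ℂ) * ph q s) volume 0 1 := fun F =>
    ((cont_s_dU hw0 hwb hp ht F g).mul (continuous_ph q)).intervalIntegrable _ _
  unfold Dh
  rw [← intervalIntegral.integral_sub (i1 F) (i1 F')]
  have h3 := intervalIntegral.norm_integral_le_of_norm_le_const (a := (0 : ℝ)) (b := 1)
    (f := fun s : ℝ => (dU w (cm t) (shc F s) g : ℂ) * ph q s -
      (dU w (cm t) (shc F' s) g : ℂ) * ph q s) (C := ε) (fun s hs => ?_)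
  · simpa using h3
  · rw [← sub_mul, norm_mul, norm_ph, mul_one, ← Complex.ofReal_sub, Complex.norm_real,
      Real.norm_eq_abs]
    refine h s ⟨?_, ?_⟩
    · have := hs.1; rw [min_eq_left zero_le_one] at this; exact this.le
    · have := hs.2; rw [max_eq_right zero_le_one] at this; exact this

lemma norm_Pq_le {t ω : ℝ} (hs : ∀ h, w (h + 1) = w h) (ht : 0 < t) (hc : CH w t ω) {q : ℤ}
    (hq : q ≠ 0) (F : V → ℝ) : ‖Pq w t q F‖ ≤ ω := by
  have hN : 0 < Nt w t F := Nt_pos hw0 hwb hp ht F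
  have e1 : Sc w t q F = ∫ s in (0 : ℝ)..1,
      ((Zr w (cm t) (shc F s) - Nt w t F : ℝ) : ℂ) * ph q s := by
    have h2 : ∀ s : ℝ, ((Zr w (cm t) (shc F s) - Nt w t F : ℝ) : ℂ) * ph q s =
        (Zr w (cm t) (shc F s) : ℂ) * ph q s - (Nt w t F : ℂ) * ph q s := by
      intro s; push_cast; ring
    simp_rw [h2]
    have i1 : IntervalIntegrable (fun s : ℝ => (Zr w (cm t) (shc F s) : ℂ) * ph q s) volume 0 1 :=
      ((cont_s_Zr hw0 hwb hp ht F).mul (continuous_ph q)).intervalIntegrable _ _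
    have i2 : IntervalIntegrable (fun s : ℝ => (Nt w t F : ℂ) * ph q s) volume 0 1 :=
      (continuous_const.mul (continuous_ph q)).intervalIntegrable _ _
    rw [intervalIntegral.integral_sub i1 i2, intervalIntegral.integral_const_mul, int_ph hq,
      mul_zero, sub_zero]
    rfl
  unfold Pq
  rw [norm_div, Complex.norm_real, Real.norm_eq_abs, abs_of_pos hN, div_le_iff₀ hN, e1]
  have h3 := intervalIntegral.norm_integral_le_of_norm_le_const (a := (0 : ℝ)) (b := 1)
    (f := fun s : ℝ => ((Zr w (cm t) (shc F s) - Nt w t F : ℝ) : ℂ) * ph q s)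
    (C := ω * Nt w t F) (fun s _ => ?_)
  · simpa using h3
  · rw [norm_mul, norm_ph, mul_one, Complex.norm_real, Real.norm_eq_abs]
    have h1 := hc (shc F s)
    rwa [Nt_shc hs] at h1

end model

end

end Vale.Agent.P159.H415
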