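import Vale.Agent.P159.H415.Ls6a
import Vale.Agent.P159.H282.Up3

/-!
P159 (helper415), consequences of the sharp form of LINKW, part 2: the limit of the excess of the
stiffness over all sides, the sum over the dyadic scales, and the upper bound of the two-point
function with the exact power of the logarithm.
-/

set_option linter.all false

open Filter Topology Finset

namespace Vale.Agent.P159.H415.Ls

open Vale.Agent.P159
open Vale.Agent.P159.H264 (kap kap_pos TT TT_diff_lim)

variable {b : ℝ} {x : ℕ → ℝ} {C s : ℝ}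

lemma Shp.summ (h : Shp b x C s) : Summable fun n => |Xs b n - x n| := by
  have h1 : Summable fun n : ℕ => C * (n : ℝ) ^ (-s) :=
    (Real.summable_nat_rpow.2 (by have := h.s1; linarith)).mul_left _
  refine Summable.of_norm_bounded_eventually_nat h1 ?_
  filter_upwards [h.near] with n hn
  rw [Real.norm_eq_abs, abs_abs]
  exact hn

/-- **the sum of the excesses** -/
theorem Shp.TX (h : Shp b x C s) :
    ∃ l, Tendsto (fun n : ℕ => kap * TT (Xs b) n - Real.log n) atTop (𝓝 l) := by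
  obtain ⟨l, hl⟩ := h.T
  have h1 := (TT_diff_lim h.summ).const_mul kap
  refine ⟨_, (h1.add hl).congr fun n => ?_⟩
  ring

lemma rpow_neg_tend {p : ℝ} (hp : 0 < p) :
    Tendsto (fun n : ℕ => (n : ℝ) ^ (-p)) atTop (𝓝 0) :=
  (tendsto_rpow_neg_atTop hp).comp tendsto_natCast_atTop_atTop

/-- **the excess on the dyadic scales** -/
theorem Shp.nX (h : Shp b x C s) :
    Tendsto (fun n : ℕ => (n : ℝ) * Xs b n) atTop (𝓝 (1 / kap)) := by
  have hs := h.s1
  have hC := h.C0
  have h1 : Tendsto (fun n : ℕ => (n : ℝ) * (Xs b n - x n)) atTop (𝓝 0) := by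
    have h2 : Tendsto (fun n : ℕ => C * (n : ℝ) ^ (-(s - 1))) atTop (𝓝 0) := by
      simpa using (rpow_neg_tend (by linarith : 0 < s - 1)).const_mul C
    refine squeeze_zero_norm' ?_ h2
    filter_upwards [h.near, eventually_ge_atTop 1] with n hn h3
    have hn0 : (0 : ℝ) < n := by exact_mod_cast h3
    rw [Real.norm_eq_abs, abs_mul, abs_of_pos hn0]
    calc (n : ℝ) * |Xs b n - x n| ≤ n * (C * (n : ℝ) ^ (-s)) :=
          mul_le_mul_of_nonneg_left hn hn0.le
      _ = C * ((n : ℝ) ^ (1 : ℝ) * (n : ℝ) ^ (-s)) := by rw [Real.rpow_one]; ring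
      _ = _ := by
          rw [← Real.rpow_add hn0]
          congr 2
          ring
  have h2 := h1.add h.nx
  rw [zero_add] at h2
  refine h2.congr fun n => ?_
  ring

/-- a multiple of the logarithm against the scale -/
lemma clog_div (q : ℕ) : Tendsto (fun k : ℕ => ((q * Nat.clog 2 k : ℕ) : ℝ) / k) atTop (𝓝 0) := by
  have h1 := rpow_neg_tend (show (0 : ℝ) < 1 / 2 by norm_num)
  refine squeeze_zero' (Eventually.of_forall fun k => by positivity) ?_ h1
  filter_upwards [ev_clogp q (show (0 : ℝ) < 1 / 2 by norm_num), eventually_ge_atTop 1]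
    with k h2 h3
  have hk0 : (0 : ℝ) < k := by exact_mod_cast h3
  rw [div_le_iff₀ hk0]
  calc ((q * Nat.clog 2 k : ℕ) : ℝ) ≤ (k : ℝ) ^ (1 / 2 : ℝ) := h2
    _ = (k : ℝ) ^ (-(1 / 2) : ℝ) * (k : ℝ) ^ (1 : ℝ) := by
        rw [← Real.rpow_add hk0]
        congr 1
        norm_num
    _ = _ := by rw [Real.rpow_one]

/-- a shifted scale -/
lemma shift_X (h : Shp b x C s) {j : ℕ → ℕ} (hj : Tendsto (fun k : ℕ => (j k : ℝ) / k) atTop (𝓝 1))
    (hj2 : Tendsto j atTop atTop) :
    Tendsto (fun k : ℕ => (k : ℝ) * Xs b (j k)) atTop (𝓝 (1 / kap)) := by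
  have h1 := h.nX.comp hj2
  have h2 := h1.div hj one_ne_zero
  rw [div_one] at h2
  refine h2.congr' ?_
  filter_upwards [hj2.eventually_ge_atTop 1, eventually_ge_atTop 1] with k h3 h4
  have hk0 : (0 : ℝ) < k := by exact_mod_cast h4
  have hj0 : (0 : ℝ) < j k := by exact_mod_cast h3
  simp only [Pi.div_apply, Function.comp]
  field_simp

lemma jd (c : ℕ) : Tendsto (fun k : ℕ => ((k - 2 * Nat.clog 2 k : ℕ) : ℝ) / k) atTop (𝓝 1) ∧
    Tendsto (fun k : ℕ => k - 2 * Nat.clog 2 k) atTop atTop := by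
  constructor
  · have h1 := (clog_div 2).const_sub 1
    rw [sub_zero] at h1
    refine h1.congr' ?_
    filter_upwards [ev_half 2, eventually_ge_atTop 1] with k h2 h3
    have hk0 : (0 : ℝ) < k := by exact_mod_cast h3
    rw [Nat.cast_sub (by omega), sub_div, div_self hk0.ne']
  · refine tendsto_atTop.2 fun m => ?_
    filter_upwards [ev_half 2, eventually_ge_atTop (2 * m)] with k h2 h3
    omega

lemma ju (c : ℕ) : Tendsto (fun k : ℕ => ((k + 1 + 2 * Nat.clog 2 k : ℕ) : ℝ) / k) atTop (𝓝 1) ∧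
    Tendsto (fun k : ℕ => k + 1 + 2 * Nat.clog 2 k) atTop atTop := by
  constructor
  · have h0 : Tendsto (fun k : ℕ => (1 : ℝ) / k) atTop (𝓝 0) := tendsto_one_div_atTop_nhds_zero_nat
    have h1 := ((clog_div 2).add h0).const_add 1
    rw [add_zero, add_zero] at h1
    refine h1.congr' ?_
    filter_upwards [eventually_ge_atTop 1] with k h3
    have hk0 : (0 : ℝ) < k := by exact_mod_cast h3
    push_cast
    field_simp
    ring
  · refine tendsto_atTop.2 fun m => ?_
    filter_upwards [eventually_ge_atTop m] with k h3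
    omega

/-- numbers of the shift -/
lemma pow_clog2 {k : ℕ} (hk : 1 ≤ k) : (k : ℝ) ^ 2 ≤ 2 ^ (2 * Nat.clog 2 k) := by
  have h1 : k ≤ 2 ^ Nat.clog 2 k := Nat.le_pow_clog (by norm_num) k
  have h2 : (k : ℝ) ≤ 2 ^ Nat.clog 2 k := by exact_mod_cast h1
  rw [mul_comm, pow_mul]
  exact pow_le_pow_left₀ (Nat.cast_nonneg _) h2 2

/-- **the excess of the stiffness over all sides** -/
theorem Shp.rate (hb : 0 < b) (h : Shp b x C s) :
    Tendsto (fun L : ℕ => Real.log L * (stiff L b - 2 / Real.pi)) atTop (𝓝 (1 / Real.pi)) := by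
  have hpi := Real.pi_pos
  have hl2 : 0 < Real.log 2 := Real.log_pos one_lt_two
  have hlim : Real.log 2 * (1 / kap) = 1 / Real.pi := by
    unfold kap
    field_simp
  -- the functions of `k`
  have hU : Tendsto (fun k : ℕ => Real.log 2 * ((k : ℝ) * Xs b (k - 2 * Nat.clog 2 k)) +
      Real.log 2 * (1 / (k : ℝ) * ((k : ℝ) * Xs b (k - 2 * Nat.clog 2 k))) +
      (2 * Real.log 2 * (2 * b)) * (1 / (k : ℝ))) atTop (𝓝 (1 / Real.pi)) := by
    obtain ⟨h1, h2⟩ := jd 0
    have h3 := shift_X h h1 h2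
    have h0 : Tendsto (fun k : ℕ => (1 : ℝ) / k) atTop (𝓝 0) := tendsto_one_div_atTop_nhds_zero_nat
    have h4 := ((h3.const_mul (Real.log 2)).add ((h0.mul h3).const_mul (Real.log 2))).add
      (h0.const_mul (2 * Real.log 2 * (2 * b)))
    rw [hlim, zero_mul, mul_zero, mul_zero, add_zero, add_zero] at h4
    exact h4
  have hV : Tendsto (fun k : ℕ => Real.log 2 * ((k : ℝ) * Xs b (k + 1 + 2 * Nat.clog 2 k)) -
      (2 * Real.log 2 * (2 * b)) * (1 / (k : ℝ))) atTop (𝓝 (1 / Real.pi)) := by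
    obtain ⟨h1, h2⟩ := ju 0
    have h3 := shift_X h h1 h2
    have h0 : Tendsto (fun k : ℕ => (1 : ℝ) / k) atTop (𝓝 0) := tendsto_one_div_atTop_nhds_zero_nat
    have h4 := (h3.const_mul (Real.log 2)).sub (h0.const_mul (2 * Real.log 2 * (2 * b)))
    rw [hlim, mul_zero, sub_zero] at h4
    exact h4
  have hXp : ∀ᶠ n : ℕ in atTop, 0 < Xs b n := by
    have hk := kap_pos
    filter_upwards [h.nX.eventually (lt_mem_nhds (show (0 : ℝ) < 1 / kap by positivity)),
      eventually_ge_atTop 1] with n h1 h2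
    have hn0 : (0 : ℝ) < n := by exact_mod_cast h2
    exact (mul_pos_iff_of_pos_left hn0).1 h1
  obtain ⟨n1, hn1⟩ := eventually_atTop.1 hXp
  have hlog := H264.natlog_top
  have key : ∀ᶠ L : ℕ in atTop,
      (Real.log 2 * (((Nat.log 2 L : ℕ) : ℝ) * Xs b (Nat.log 2 L + 1 + 2 * Nat.clog 2 (Nat.log 2 L))) -
        (2 * Real.log 2 * (2 * b)) * (1 / ((Nat.log 2 L : ℕ) : ℝ)) ≤
        Real.log L * (stiff L b - 2 / Real.pi)) ∧
      Real.log L * (stiff L b - 2 / Real.pi) ≤
        Real.log 2 * (((Nat.log 2 L : ℕ) : ℝ) * Xs b (Nat.log 2 L - 2 * Nat.clog 2 (Nat.log 2 L))) +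
        Real.log 2 * (1 / ((Nat.log 2 L : ℕ) : ℝ) * (((Nat.log 2 L : ℕ) : ℝ) *
          Xs b (Nat.log 2 L - 2 * Nat.clog 2 (Nat.log 2 L)))) +
        (2 * Real.log 2 * (2 * b)) * (1 / ((Nat.log 2 L : ℕ) : ℝ)) := by
    filter_upwards [hlog.eventually (ev_half 2), hlog.eventually_ge_atTop (2 * n1 + 1),
      eventually_ge_atTop 1] with L a1 a2 a3
    obtain ⟨k, hk⟩ : ∃ k, k = Nat.log 2 L := ⟨_, rfl⟩
    rw [← hk] at a1 a2 ⊢
    have hk1 : 1 ≤ k := by omega
    have hk1r : (1 : ℝ) ≤ k := by exact_mod_cast hk1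
    have hk0 : (0 : ℝ) < k := by linarith
    have hL1 : 2 ^ k ≤ L := by rw [hk]; exact Nat.pow_log_le_self 2 (by omega)
    have hL2 : L < 2 ^ (k + 1) := by rw [hk]; exact Nat.lt_pow_succ_log_self one_lt_two L
    have hLp : (0 : ℝ) < L := by exact_mod_cast (by omega : 0 < L)
    have hlg1 : k * Real.log 2 ≤ Real.log L := by
      rw [← Real.log_pow]
      refine Real.log_le_log (by positivity) ?_
      exact_mod_cast hL1
    have hlg2 : Real.log L ≤ (k + 1) * Real.log 2 := by
      have h2 : Real.log L ≤ Real.log ((2 : ℝ) ^ (k + 1)) := by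
        refine Real.log_le_log hLp ?_
        exact_mod_cast hL2.le
      rw [Real.log_pow] at h2
      push_cast at h2
      exact h2
    have hlg0 : 0 ≤ Real.log L := le_trans (by positivity) hlg1
    have hc2 := pow_clog2 hk1
    -- the error
    have herr : Real.log L * (2 * b * (1 / (k : ℝ) ^ 2)) ≤
        (2 * Real.log 2 * (2 * b)) * (1 / (k : ℝ)) := by
      calc Real.log L * (2 * b * (1 / (k : ℝ) ^ 2)) ≤ (2 * k * Real.log 2) *
            (2 * b * (1 / (k : ℝ) ^ 2)) := by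
            refine mul_le_mul_of_nonneg_right ?_ (by positivity)
            nlinarith
        _ = _ := by field_simp
    constructor
    · -- lower
      obtain ⟨m, hm⟩ : ∃ m, m = k + 1 + 2 * Nat.clog 2 k := ⟨_, rfl⟩
      rw [← hm]
      have hLm : L ≤ 2 ^ m := hL2.le.trans (Nat.pow_le_pow_right (by norm_num) (by omega))
      have hr := H177.stiff_le_rate hb.le (l := L) (n := 2 ^ m) a3 hLm
      have hr2 : 2 * b * L / ((2 ^ m : ℕ) : ℝ) ≤ 2 * b * (1 / (k : ℝ) ^ 2) := by
        have e1 : ((2 ^ m : ℕ) : ℝ) = 2 ^ (k + 1) * 2 ^ (2 * Nat.clog 2 k) := by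
          rw [hm, pow_add]
          push_cast
          ring
        rw [e1, div_le_iff₀ (by positivity)]
        have h2 : (L : ℝ) ≤ 2 ^ (k + 1) := by exact_mod_cast hL2.le
        have h3 : (L : ℝ) * 1 ≤ 2 ^ (k + 1) * (1 / (k : ℝ) ^ 2 * 2 ^ (2 * Nat.clog 2 k)) := by
          refine mul_le_mul h2 ?_ (by norm_num) (by positivity)
          rw [one_div, ← div_eq_inv_mul, le_div_iff₀ (by positivity), one_mul]
          exact hc2
        have h4 := mul_le_mul_of_nonneg_left h3 (show 0 ≤ 2 * b by positivity)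
        refine le_trans (le_of_eq (by ring)) (h4.trans (le_of_eq (by ring)))
      have hX : Xs b m - 2 * b * (1 / (k : ℝ) ^ 2) ≤ stiff L b - 2 / Real.pi := by
        unfold Xs
        linarith
      have h5 := mul_le_mul_of_nonneg_left hX hlg0
      have h6 := mul_le_mul_of_nonneg_right hlg1 (hn1 m (by omega)).le
      have h7 : Real.log L * (Xs b m - 2 * b * (1 / (k : ℝ) ^ 2)) =
          Real.log L * Xs b m - Real.log L * (2 * b * (1 / (k : ℝ) ^ 2)) := by ring
      have h8 : (k : ℝ) * Real.log 2 * Xs b m = Real.log 2 * (k * Xs b m) := by ring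
      linarith
    · -- upper
      obtain ⟨j, hj⟩ : ∃ j, j = k - 2 * Nat.clog 2 k := ⟨_, rfl⟩
      rw [← hj]
      have hjk : k = j + 2 * Nat.clog 2 k := by omega
      have hjL : 2 ^ j ≤ L := (Nat.pow_le_pow_right (by norm_num) (by omega)).trans hL1
      have hr := H177.stiff_le_rate hb.le (l := 2 ^ j) (n := L) Nat.one_le_two_pow hjL
      have hr2 : 2 * b * ((2 ^ j : ℕ) : ℝ) / L ≤ 2 * b * (1 / (k : ℝ) ^ 2) := by
        rw [div_le_iff₀ hLp]
        have h2 : (2 : ℝ) ^ k ≤ L := by exact_mod_cast hL1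
        have e1 : (2 : ℝ) ^ k = 2 ^ j * 2 ^ (2 * Nat.clog 2 k) := by
          rw [← pow_add, ← hjk]
        have h3 : (2 : ℝ) ^ j ≤ 1 / (k : ℝ) ^ 2 * 2 ^ k := by
          rw [e1]
          have h4 : (1 : ℝ) ≤ 1 / (k : ℝ) ^ 2 * 2 ^ (2 * Nat.clog 2 k) := by
            rw [one_div, ← div_eq_inv_mul, le_div_iff₀ (by positivity), one_mul]
            exact hc2
          have h5 := mul_le_mul_of_nonneg_left h4 (show (0 : ℝ) ≤ 2 ^ j by positivity)
          refine le_trans (le_of_eq (by ring)) (h5.trans (le_of_eq (by ring)))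
        have h4 : (2 : ℝ) ^ j ≤ 1 / (k : ℝ) ^ 2 * L :=
          h3.trans (mul_le_mul_of_nonneg_left h2 (by positivity))
        push_cast
        have h5 := mul_le_mul_of_nonneg_left h4 (show 0 ≤ 2 * b by positivity)
        refine h5.trans (le_of_eq (by ring))
      have hX : stiff L b - 2 / Real.pi ≤ Xs b j + 2 * b * (1 / (k : ℝ) ^ 2) := by
        unfold Xs
        linarith
      have h5 := mul_le_mul_of_nonneg_left hX hlg0
      have h6 := mul_le_mul_of_nonneg_right hlg2 (hn1 j (by omega)).le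
      have h7 : Real.log L * (Xs b j + 2 * b * (1 / (k : ℝ) ^ 2)) =
          Real.log L * Xs b j + Real.log L * (2 * b * (1 / (k : ℝ) ^ 2)) := by ring
      have h8 : ((k : ℝ) + 1) * Real.log 2 * Xs b j = Real.log 2 * (k * Xs b j) +
          Real.log 2 * (1 / (k : ℝ) * (k * Xs b j)) := by
        field_simp
      linarith
  exact tendsto_of_tendsto_of_tendsto_of_le_of_le' (hV.comp hlog) (hU.comp hlog)
    (key.mono fun L hL => hL.1) (key.mono fun L hL => hL.2)

end Vale.Agent.P159.H415.Ls
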