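import Vale.Agent.P159.H415.Ls6b

/-!
P159 (helper415), consequences of the sharp form of LINKW, part 3: the upper bound of the two-point
function with the exact power of the logarithm.
-/

set_option linter.all false

open Filter Topology Finset

namespace Vale.Agent.P159.H415.Ls

open Vale.Agent.P159
open Vale.Agent.P159.H264 (kap kap_pos TT TT_diff_lim)

variable {b : ℝ} {x : ℕ → ℝ} {C s : ℝ}

/-- the numbers of dyadic scales given up: about `2 log₂ j` -/
def kq (j : ℕ) : ℕ := Nat.log 2 ((j ^ 2 + 16) / 16)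

lemma kq_ne (j : ℕ) : (j ^ 2 + 16) / 16 ≠ 0 := by
  have : 1 ≤ (j ^ 2 + 16) / 16 := (Nat.le_div_iff_mul_le (by norm_num)).2 (by nlinarith [sq_nonneg j])
  omega

lemma sq_lt (j : ℕ) : j ^ 2 ≤ 2 ^ (j + 1) := by
  induction j with
  | zero => norm_num
  | succ j ih =>
    have h1 : 2 * j + 1 ≤ 2 ^ (j + 1) := by
      clear ih
      induction j with
      | zero => norm_num
      | succ j ih =>
        rw [pow_succ]
        omega
    rw [pow_succ 2 (j + 1)]
    have h2 : (j + 1) ^ 2 = j ^ 2 + (2 * j + 1) := by ring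
    omega

lemma kq_le (j : ℕ) : kq j ≤ j := by
  unfold kq
  have h1 : (j ^ 2 + 16) / 16 < 2 ^ (j + 1) := by
    have h2 := sq_lt j
    have h3 : 1 ≤ 2 ^ j := Nat.one_le_two_pow
    rw [pow_succ] at h2 ⊢
    omega
  have h2 := Nat.log_lt_of_lt_pow (kq_ne j) h1
  omega

lemma kq_succ (j : ℕ) : kq (j + 1) ≤ kq j + 1 := by
  unfold kq
  rw [← Nat.log_mul_base (by norm_num) (kq_ne j)]
  refine Nat.log_mono_right ?_
  obtain ⟨q, hq⟩ : ∃ q, q = j ^ 2 := ⟨_, rfl⟩
  have h1 : (j + 1) ^ 2 = q + 2 * j + 1 := by rw [hq]; ring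
  rw [h1, ← hq]
  rcases Nat.lt_or_ge j 2 with h | h
  · subst hq
    interval_cases j <;> norm_num
  · have h2 : 2 * j ≤ q := by rw [hq, pow_two]; exact Nat.mul_le_mul_right _ h
    omega

lemma kq_summable : Summable fun j : ℕ => (1 : ℝ) / 2 ^ (kq j) := by
  have h : Summable fun j : ℕ => (64 : ℝ) * (1 / ((j : ℝ) + 1) ^ 2) := by
    refine Summable.mul_left _ ?_
    have := (summable_nat_add_iff (f := fun j : ℕ => (1 : ℝ) / (j : ℝ) ^ 2) 1).2
      (Real.summable_one_div_nat_pow.2 (by norm_num))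
    simpa using this
  refine Summable.of_nonneg_of_le (fun j => by positivity) (fun j => ?_) h
  have h1 : (j ^ 2 + 16) / 16 < 2 ^ (kq j + 1) := Nat.lt_pow_succ_log_self one_lt_two _
  have h2 : (j + 1) ^ 2 ≤ 64 * 2 ^ (kq j) := by
    rw [pow_succ 2 (kq j)] at h1
    have h3 : (j + 1) ^ 2 ≤ 2 * (j ^ 2 + 1) := by
      zify
      nlinarith [sq_nonneg ((j : ℤ) - 1)]
    omega
  rw [mul_one_div, div_le_div_iff₀ (by positivity) (by positivity), one_mul]
  exact_mod_cast h2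

lemma kq_clog {j : ℕ} (hj : 2 ≤ j) : kq j ≤ 2 * Nat.clog 2 j := by
  unfold kq
  have h1 : j ≤ 2 ^ Nat.clog 2 j := Nat.le_pow_clog (by norm_num) j
  have h2 : (j ^ 2 + 16) / 16 ≤ 2 ^ (2 * Nat.clog 2 j) := by
    have h3 : j ^ 2 ≤ 2 ^ (2 * Nat.clog 2 j) := by
      rw [mul_comm, pow_mul]
      exact Nat.pow_le_pow_left h1 2
    refine le_trans ?_ h3
    have h4 : 2 * 2 ≤ j * j := Nat.mul_le_mul hj hj
    rw [pow_two]
    omega
  calc Nat.log 2 ((j ^ 2 + 16) / 16) ≤ Nat.log 2 (2 ^ (2 * Nat.clog 2 j)) := Nat.log_mono_right h2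
    _ = _ := Nat.log_pow (by norm_num) _

/-- partial sums with a summable majorant -/
lemma sum_bdd {g G : ℕ → ℝ} (hG : Summable G) (hG0 : ∀ n, 0 ≤ G n) (h : ∀ᶠ n in atTop, g n ≤ G n) :
    ∃ K : ℝ, ∀ n, ∑ j ∈ range n, g j ≤ K := by
  obtain ⟨n0, hn0⟩ := eventually_atTop.1 h
  refine ⟨∑ j ∈ range n0, |g j| + ∑' j, G j, fun n => ?_⟩
  have h1 : ∀ j ∈ range n, g j ≤ (if j < n0 then |g j| else 0) + G j := by
    intro j _
    split_ifs with h2
    · have := hG0 j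
      have := le_abs_self (g j)
      linarith
    · rw [zero_add]
      exact hn0 j (by omega)
  refine (Finset.sum_le_sum h1).trans ?_
  rw [Finset.sum_add_distrib]
  refine add_le_add ?_ (hG.sum_le_tsum _ fun j _ => hG0 j)
  rw [← Finset.sum_filter]
  refine Finset.sum_le_sum_of_subset_of_nonneg ?_ fun j _ _ => abs_nonneg _
  intro j hj
  rw [Finset.mem_filter] at hj
  exact Finset.mem_range.2 hj.2

/-- **the sum along the shifted scales** -/
theorem Shp.shift_sum (h : Shp b x C s) : ∃ K : ℝ, ∀ n : ℕ, 1 ≤ n →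
    ∑ j ∈ range n, Xs b (j - kq j) ≤ 1 / kap * Real.log n + K := by
  have hs := h.s1
  have hC := h.C0
  have hk := kap_pos
  obtain ⟨n1, hn1⟩ := eventually_atTop.1 (h.dx.and h.near)
  obtain ⟨s', hs'⟩ : ∃ s', s' = (1 + s) / 2 := ⟨_, rfl⟩
  have hg : ∀ᶠ j : ℕ in atTop, Xs b (j - kq j) - x j ≤ (2 * 2 ^ s * C) * (j : ℝ) ^ (-s') := by
    filter_upwards [ev_half 2, ev_clogp 2 (show 0 < (s - 1) / 2 by linarith),
      eventually_ge_atTop (2 * n1 + 4)] with j a1 a2 a3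
    have hkq := kq_clog (show 2 ≤ j by omega)
    obtain ⟨m, hm⟩ : ∃ m, m = kq j := ⟨_, rfl⟩
    rw [← hm] at hkq ⊢
    obtain ⟨u, hu⟩ : ∃ u, u = j - m := ⟨_, rfl⟩
    have hju : j = u + m := by omega
    rw [← hu]
    have hj1 : 1 ≤ j := by omega
    have hj1r : (1 : ℝ) ≤ j := by exact_mod_cast hj1
    have hj0 : (0 : ℝ) < j := by linarith
    have h1 := var hC.le (by linarith : (0 : ℝ) ≤ s) (n0 := n1 + 1) (by omega)
      (fun k hk => (hn1 k (by omega)).1) (n := u) (by omega) m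
    rw [← hju] at h1
    have h2 := (hn1 u (by omega)).2
    have p1 := pow_half hj1 (show j ≤ 2 * u by omega) (by linarith : (0 : ℝ) ≤ s)
    have hmr : (m : ℝ) ≤ (j : ℝ) ^ ((s - 1) / 2) := by
      refine le_trans ?_ a2
      exact_mod_cast hkq
    have s1 : (j : ℝ) ^ ((s - 1) / 2) * (j : ℝ) ^ (-s) = (j : ℝ) ^ (-s') := by
      rw [← Real.rpow_add hj0, hs']
      congr 1
      ring
    have s2 : (j : ℝ) ^ (-s) ≤ (j : ℝ) ^ (-s') :=
      Real.rpow_le_rpow_of_exponent_le hj1r (by rw [hs']; linarith)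
    have t1 : (m : ℝ) * (C * (u : ℝ) ^ (-s)) ≤ 2 ^ s * C * (j : ℝ) ^ (-s') := by
      calc (m : ℝ) * (C * (u : ℝ) ^ (-s)) ≤ (j : ℝ) ^ ((s - 1) / 2) *
            (C * (2 ^ s * (j : ℝ) ^ (-s))) :=
            mul_le_mul hmr (mul_le_mul_of_nonneg_left p1 hC.le) (by positivity) (by positivity)
        _ = 2 ^ s * C * ((j : ℝ) ^ ((s - 1) / 2) * (j : ℝ) ^ (-s)) := by ring
        _ = _ := by rw [s1]
    have t2 : C * (u : ℝ) ^ (-s) ≤ 2 ^ s * C * (j : ℝ) ^ (-s') := by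
      calc C * (u : ℝ) ^ (-s) ≤ C * (2 ^ s * (j : ℝ) ^ (-s)) :=
            mul_le_mul_of_nonneg_left p1 hC.le
        _ = 2 ^ s * C * (j : ℝ) ^ (-s) := by ring
        _ ≤ _ := mul_le_mul_of_nonneg_left s2 (by positivity)
    have g1 := (abs_le.1 h1).1
    have g2 := (abs_le.1 h2).2
    linarith
  have hG : Summable fun j : ℕ => (2 * 2 ^ s * C) * (j : ℝ) ^ (-s') :=
    (Real.summable_nat_rpow.2 (by rw [hs']; linarith)).mul_left _
  obtain ⟨K1, hK1⟩ := sum_bdd hG (fun n => by positivity) hg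
  obtain ⟨l, hl⟩ := h.T
  obtain ⟨K2, hK2⟩ := hl.bddAbove_range
  have hK2' : ∀ n : ℕ, kap * TT x n - Real.log n ≤ K2 := fun n => hK2 (Set.mem_range_self n)
  refine ⟨K1 + 1 / kap * K2, fun n _ => ?_⟩
  have h1 := hK1 n
  rw [Finset.sum_sub_distrib] at h1
  have h2 : TT x n ≤ 1 / kap * Real.log n + 1 / kap * K2 := by
    have h3 := hK2' n
    rw [← mul_add, one_div, ← div_eq_inv_mul, le_div_iff₀ hk]
    linarith
  have h3 : TT x n = ∑ j ∈ range n, x j := rfl
  linarith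

/-- **the two-point function with the exact power of the logarithm** -/
theorem Shp.corr (hb : 0 ≤ b) (h : Shp b x C s) : ∃ K : ℝ, 0 < K ∧ ∀ v : ℤ × ℤ, 2 ≤ XY.nm v →
    corrInf b v ≤ K * (XY.nm v : ℝ) ^ (-(1 / 4 : ℝ)) * Real.log (XY.nm v) ^ (1 / 8 : ℝ) := by
  have hpi := Real.pi_pos
  have hl2 : 0 < Real.log 2 := Real.log_pos one_lt_two
  obtain ⟨K0, hK0, hC⟩ := H191.S_up_quarter hb kq kq_le kq_succ kq_summable
  obtain ⟨K1, hK1⟩ := h.shift_sum
  obtain ⟨K2, hK2⟩ : ∃ K2, K2 = Real.log K0 + Real.log 2 / 4 + Real.pi / 8 * Real.log 2 * K1 -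
    1 / 8 * Real.log (Real.log 2) := ⟨_, rfl⟩
  refine ⟨Real.exp K2, Real.exp_pos _, fun v hv => ?_⟩
  obtain ⟨r, hr⟩ : ∃ r, r = XY.nm v := ⟨_, rfl⟩
  have hx := hC v
  rw [← hr] at hx hv ⊢
  obtain ⟨n, hn⟩ : ∃ n, n = Nat.log 2 r := ⟨_, rfl⟩
  rw [← hn] at hx
  have hrp : (0 : ℝ) < r := by
    have : 0 < r := by omega
    exact_mod_cast this
  have hn1 : 1 ≤ n := by
    rw [hn]
    exact Nat.le_log_of_pow_le one_lt_two (by omega)
  have hn0 : (0 : ℝ) < n := by exact_mod_cast hn1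
  have hn2 : 2 ^ n ≤ r := by rw [hn]; exact Nat.pow_log_le_self 2 (by omega)
  have hn3 : r < 2 ^ (n + 1) := by
    rw [hn]
    exact Nat.lt_pow_succ_log_self one_lt_two r
  have h1 : Real.log r ≤ (n + 1) * Real.log 2 := by
    have h2 : Real.log r ≤ Real.log ((2 : ℝ) ^ (n + 1)) := by
      apply Real.log_le_log hrp
      exact_mod_cast hn3.le
    rw [Real.log_pow] at h2
    push_cast at h2
    exact h2
  have h2 : (n : ℝ) * Real.log 2 ≤ Real.log r := by
    rw [← Real.log_pow]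
    apply Real.log_le_log (by positivity)
    exact_mod_cast hn2
  have hlr : 0 < Real.log r := lt_of_lt_of_le (by positivity) h2
  have h3 : Real.log n ≤ Real.log (Real.log r) - Real.log (Real.log 2) := by
    rw [← Real.log_div hlr.ne' hl2.ne']
    refine Real.log_le_log hn0 ?_
    rw [le_div_iff₀ hl2]
    exact h2
  have h4 := hK1 n hn1
  have e1 : (r : ℝ) ^ (-(1 / 4 : ℝ)) = Real.exp (-(1 / 4) * Real.log r) := by
    rw [Real.rpow_def_of_pos hrp]
    congr 1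
    ring
  have e2 : Real.log r ^ (1 / 8 : ℝ) = Real.exp (1 / 8 * Real.log (Real.log r)) := by
    rw [Real.rpow_def_of_pos hlr]
    congr 1
    ring
  have e3 : K0 = Real.exp (Real.log K0) := (Real.exp_log hK0).symm
  rw [XY.corrInf_eq hb]
  refine hx.trans ?_
  rw [e1, e2, e3, ← Real.exp_add, ← Real.exp_add, ← Real.exp_add, Real.exp_le_exp]
  have h5 : Real.pi / 8 * Real.log 2 * ∑ j ∈ range n, (stiff (2 ^ (j - kq j)) b - 2 / Real.pi) ≤
      1 / 8 * Real.log n + Real.pi / 8 * Real.log 2 * K1 := by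
    have h6 := mul_le_mul_of_nonneg_left h4 (show 0 ≤ Real.pi / 8 * Real.log 2 by positivity)
    have h7 : Real.pi / 8 * Real.log 2 * (1 / kap * Real.log n + K1) =
        1 / 8 * Real.log n + Real.pi / 8 * Real.log 2 * K1 := by
      unfold kap
      field_simp
    rw [h7] at h6
    exact h6
  rw [hK2]
  linarith only [h1, h3, h5]

end Vale.Agent.P159.H415.Ls
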