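import Vale.Agent.P159.H415.Ls6c
import Vale.Agent.P159.H282.Crit
import Vale.Agent.P159.H282.Up2

/-!
P159 (helper415), consequences of the sharp form of LINKW, part 4: everything in one theorem.
-/

set_option linter.all false

open Filter Topology Finset

namespace Vale.Agent.P159.H415.Ls

open Vale.Agent.P159
open Vale.Agent.P159.H264 (kap kap_pos TT TT_diff_lim)

variable {x : ℕ → ℝ} {C s : ℝ}

/-- the sum of the excesses in plain letters -/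
theorem Shp.sumX {b : ℝ} (h : Shp b x C s) : ∃ l : ℝ, Tendsto (fun N : ℕ =>
    ∑ j ∈ range N, (stiff (2 ^ j) b - 2 / Real.pi) - 1 / (Real.pi * Real.log 2) * Real.log N)
    atTop (𝓝 l) := by
  obtain ⟨l, hl⟩ := h.TX
  have hk := kap_pos
  refine ⟨_, (hl.const_mul (1 / kap)).congr fun n => ?_⟩
  have h1 : TT (Xs b) n = ∑ j ∈ range n, (stiff (2 ^ j) b - 2 / Real.pi) := rfl
  rw [← h1, mul_sub]
  have h2 : 1 / kap * (kap * TT (Xs b) n) = TT (Xs b) n := by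
    field_simp
  rw [h2]
  rfl

/-- the sum of the excesses, upper bound -/
theorem Shp.sumLe {b : ℝ} (h : Shp b x C s) : ∃ K : ℝ, ∀ᶠ N : ℕ in atTop,
    ∑ j ∈ range N, (stiff (2 ^ j) b - 2 / Real.pi) ≤ K * Real.log N := by
  obtain ⟨l, hl⟩ := h.sumX
  refine ⟨1 / (Real.pi * Real.log 2) + (|l| + 1), ?_⟩
  have hlog : Tendsto (fun L : ℕ => Real.log L) atTop atTop :=
    Real.tendsto_log_atTop.comp tendsto_natCast_atTop_atTop
  filter_upwards [hl.eventually (gt_mem_nhds (show l < |l| + 1 by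
    have := le_abs_self l
    linarith)), hlog.eventually_ge_atTop 1] with N h1 h2
  have h3 : 0 ≤ |l| + 1 := by positivity
  nlinarith

/-- the excess, upper bound -/
theorem Shp.xLe {b : ℝ} (h : Shp b x C s) : ∃ K : ℝ, ∀ᶠ N : ℕ in atTop,
    stiff (2 ^ N) b - 2 / Real.pi ≤ K / N := by
  refine ⟨1 / kap + 1, ?_⟩
  filter_upwards [h.nX.eventually (gt_mem_nhds (show 1 / kap < 1 / kap + 1 by linarith)),
    eventually_ge_atTop 1] with N h1 h2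
  have hn0 : (0 : ℝ) < N := by exact_mod_cast h2
  rw [le_div_iff₀ hn0, mul_comm]
  exact h1.le

/-- the vortex ratio -/
theorem Shp.vr (h : Shp bCrit x C s) : ∃ c κ : ℝ, 0 < c ∧ 0 < κ ∧ ∀ n : ℕ, 1 ≤ n →
    c * (n : ℝ) ^ (-κ) ≤ vortexRatio (2 ^ n) bCrit := by
  obtain ⟨⟨c, C1, hc, hC1, hlow⟩, -⟩ := UJ.H282.crit
  have hk := kap_pos
  obtain ⟨l, hl⟩ := h.TX
  obtain ⟨K, hK⟩ := hl.bddAbove_range
  have hK' : ∀ n : ℕ, kap * TT (Xs bCrit) n - Real.log n ≤ K :=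
    fun n => hK (Set.mem_range_self n)
  refine ⟨c * Real.exp (-(C1 / kap * K)), C1 / kap, by positivity, by positivity, fun n hn => ?_⟩
  have hn0 : (0 : ℝ) < n := by exact_mod_cast hn
  refine le_trans ?_ (hlow n).1
  have h1 := hK' n
  have h2 : TT (Xs bCrit) n = ∑ j ∈ range n, (stiff (2 ^ j) bCrit - 2 / Real.pi) := rfl
  rw [← h2, mul_assoc]
  refine mul_le_mul_of_nonneg_left ?_ hc.le
  rw [Real.rpow_def_of_pos hn0, ← Real.exp_add, Real.exp_le_exp]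
  have h3 : C1 / kap * (kap * TT (Xs bCrit) n - Real.log n) ≤ C1 / kap * K :=
    mul_le_mul_of_nonneg_left h1 (by positivity)
  have h4 : C1 / kap * (kap * TT (Xs bCrit) n - Real.log n) =
      C1 * TT (Xs bCrit) n - C1 / kap * Real.log n := by
    field_simp
  linarith

/-- **the sharp logarithms at the critical point** -/
theorem sharp_all (h : Shp bCrit x C s) :
    Tendsto (fun L : ℕ => Real.log L * (stiff L bCrit - 2 / Real.pi)) atTop (𝓝 (1 / Real.pi)) ∧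
    (∃ l : ℝ, Tendsto (fun N : ℕ => ∑ j ∈ range N, (stiff (2 ^ j) bCrit - 2 / Real.pi) -
      1 / (Real.pi * Real.log 2) * Real.log N) atTop (𝓝 l)) ∧
    (∃ K : ℝ, 0 < K ∧ ∀ v : ℤ × ℤ, 2 ≤ max |v.1| |v.2| → corrInf bCrit v ≤
      K * ((max |v.1| |v.2| : ℤ) : ℝ) ^ (-(1 / 4 : ℝ)) *
        Real.log ((max |v.1| |v.2| : ℤ) : ℝ) ^ (1 / 8 : ℝ)) ∧
    (∃ c κ : ℝ, 0 < c ∧ 0 < κ ∧ ∀ n : ℕ, 1 ≤ n →
      c * (n : ℝ) ^ (-κ) ≤ vortexRatio (2 ^ n) bCrit) ∧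
    (∃ K : ℝ, ∀ᶠ N : ℕ in atTop,
      ∑ j ∈ range N, (stiff (2 ^ j) bCrit - 2 / Real.pi) ≤ K * Real.log N) ∧
    (∃ K : ℝ, ∀ᶠ N : ℕ in atTop, stiff (2 ^ N) bCrit - 2 / Real.pi ≤ K / N) := by
  have hbc0 : 0 < bCrit := Vale.Agent.P159.H170.bCrit_pos
  refine ⟨h.rate hbc0, h.sumX, ?_, h.vr, h.sumLe, h.xLe⟩
  obtain ⟨K, hK, hc⟩ := h.corr hbc0.le
  refine ⟨K, hK, fun v hv => ?_⟩
  rw [UJ.H282.Ex.nm_cast]
  refine hc v ?_
  have h1 := UJ.H282.Ex.nm_cast v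
  have h2 : (2 : ℝ) ≤ (XY.nm v : ℝ) := by
    rw [← h1]
    exact_mod_cast hv
  exact_mod_cast h2

end Vale.Agent.P159.H415.Ls
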