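import Vale.Agent.P159.H415.TypC
import Vale.Agent.P159.H612.LocTau
import Vale.Agent.P159.H239.Typ

/-!
P159, module CH2 (helper415), part 18: **one window of CH2 in the range of the cluster theorems**
(`win_rng`): `Rng` + typical set at the natural mass `T = ξ⁻²` + zero background number.
-/

set_option linter.unusedSectionVars false

namespace Vale.Agent.P159.H415

open MeasureTheory ProbabilityTheory Finset Matrix
open Vale.Agent.P159.H37 (gau qf qf_eq Rs Zs Gm Ech post Tq wt)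
open Vale.Agent.P159.H896 (Om)
open Vale.Agent.P159.H43 (ch2)
open Vale.Agent.P159.H963 (nwt nMC obsN Pn Neu Gnc ntr)
open Vale.Agent.P159.H363 (acl)
open Vale.Agent.P159.H612 (Far)
open Vale.Agent.P159.TM.H104 (EM Ex Cv Gr li)
open Vale.Agent.P159.TM.H764 (bx)
open Vale.Agent.P159.TM.H859 (dirE)
open Vale.Agent.P159.TM.H459 (sd)
open Vale.Agent.P159.TM.Spec (V Rng)
open Vale.Agent.P159.TM.SpecC (wT)
open Vale.Agent.P159.H859 (kap2 wc)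

noncomputable section

/-- `Rng` with weaker thresholds -/
lemma rng_thr' {b1 b2 a W ys ys' : ℝ} {X X' N : ℕ} [NeZero N] {b : ℝ} {ξ : ℕ} {y : ℝ}
    (h : Rng b1 b2 a W ys X N b ξ y) (h1 : ys ≤ ys') (h2 : X' ≤ X) :
    Rng b1 b2 a W ys' X' N b ξ y :=
  { h with
    hX := h2.trans h.hX
    hK := (Nat.mul_le_mul_right ξ h2).trans h.hK
    y1 := h.y1.trans h1 }

/-- `TypE` gives `Typ` -/
lemma typ_of_typE {N l : ℕ} [NeZero N] [NeZero (N / l)] {b T s Q η p : ℝ} (hb : 0 ≤ b)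
    (hT : 0 < T) (h : H239.TypE N l b T s Q η p) : Typ N l b T s Q η p :=
  ⟨_, H239.typ_meas hb hT Q η, fun _ hJ => hJ, h⟩

/-- the exponent of the gain -/
lemma gain_exp {ρ L : ℝ} (hρ : 3400 ≤ ρ) (hL : 1 < L) {q : ℝ} (hq : 0 ≤ q)
    (h : Real.log L * q ≤ 1) :
    Real.exp (-(8 * Real.pi ^ 2 / (13 / 5 * ((1 + 68 / (2 * ρ)) * (2 * Real.pi / Real.log L)) + q)))
      ≤ L ^ (-(9 / 2) : ℝ) := by
  have hlog : 0 < Real.log L := Real.log_pos hL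
  have hL0 : 0 < L := by linarith
  have hpi := Real.pi_pos
  have hpi1 := Real.pi_gt_d2
  have hpi2 := Real.pi_lt_d2
  obtain ⟨κ, hκ⟩ : ∃ κ : ℝ, κ = 13 / 5 * ((1 + 68 / (2 * ρ)) * (2 * Real.pi / Real.log L)) + q :=
    ⟨_, rfl⟩
  have hρ0 : 0 < ρ := by linarith
  have h1 : 68 / (2 * ρ) ≤ 1 / 100 := by
    rw [div_le_div_iff₀ (by positivity) (by norm_num)]
    linarith
  have h10 : 0 < 68 / (2 * ρ) := by positivity
  have hκ0 : 0 < κ := by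
    rw [hκ]
    have : 0 < 13 / 5 * ((1 + 68 / (2 * ρ)) * (2 * Real.pi / Real.log L)) := by positivity
    linarith
  have h2 : κ * Real.log L ≤ 13 / 5 * (101 / 100) * (2 * Real.pi) + 1 := by
    have e : κ * Real.log L = 13 / 5 * (1 + 68 / (2 * ρ)) * (2 * Real.pi) + Real.log L * q := by
      rw [hκ]
      field_simp
    rw [e]
    have h3 : 13 / 5 * (1 + 68 / (2 * ρ)) * (2 * Real.pi) ≤ 13 / 5 * (101 / 100) * (2 * Real.pi) := by
      refine mul_le_mul_of_nonneg_right ?_ (by positivity)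
      linarith
    linarith
  have h3 : 9 / 2 * Real.log L ≤ 8 * Real.pi ^ 2 / κ := by
    rw [le_div_iff₀ hκ0]
    nlinarith
  rw [← hκ, Real.rpow_def_of_pos hL0]
  refine Real.exp_le_exp.2 ?_
  linarith

/-- the statement of one window in the range of the cluster theorems -/
def WR (b1 b2 W₀ c C ys : ℝ) (X : ℕ) : Prop :=
    ∀ W : ℝ, W₀ ≤ W →
    ∀ (N l ξ : ℕ) [NeZero N] [NeZero (N / l)] [NeZero (N / ξ)] (b y : ℝ),
      Rng b1 b2 (5 / 2) W ys X N b ξ y → (N : ℝ) * y ≤ c * ξ → l ∣ N →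
      50 * (l : ℝ) ^ 2 ≤ (ξ : ℝ) ^ 2 → l ≤ ξ →
    ∀ T : ℝ, T = 1 / (ξ : ℝ) ^ 2 →
    ∀ s Q η p : ℝ, 0 < s → s ≤ T / 2 → 2 ≤ Q → η ≤ 1 → p ≤ 1 / 100 →
      H239.TypE N l b T s Q η p →
    ∀ ω : ℝ, ω ≤ 1 / 2 → Om (wT b N) ((2 * T) • (1 : Matrix (V N) (V N) ℝ)) ≤ ω →
    ∀ ρ : ℕ, 3400 ≤ ρ → ∀ L : ℝ, 2 ≤ L → 2 * (L * (2 * ρ) + 1) ≤ (N / l : ℕ) →
    ∀ D : ℝ, 0 ≤ D → (D + 2) * ξ ≤ ρ * l →
    ∀ κ a : ℝ, 0 ≤ κ → 16 * wc N l ρ b T s ≤ κ ^ 2 → 1 ≤ a → a * (2 * κ) ≤ Q →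
      Real.log L * ((((1 / s - 1 / T) / l ^ 2)⁻¹ + (l : ℝ) ^ 2 * (T * y)) *
        (2 * (L * (2 * ρ)) + 1) ^ 2) ≤ 1 →
    ∀ ν A : ℝ, 0 < ν → 0 < A → 4 * ((N / l : ℕ) : ℝ) ^ 4 ≤ A ^ 2 * (ξ : ℝ) ^ 2 * (s * ν) →
    ∀ δ : ℝ, p + Real.exp η * (Real.exp η / (1 - p) * p +
        ((N / ξ : ℕ) : ℝ) ^ 2 * (2 * Real.exp (-(a ^ 2 / 7))) + ν) ≤ δ → δ < 1 →
    ch2 (wT b N) (s • (1 : Matrix (V N) (V N) ℝ)) 0 ≤
      2 * ω ^ 2 + ((N / ξ : ℕ) : ℝ) ^ 2 / (4 * Real.pi) *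
        (5 / 2 * (ch2 (wT b N) ((2 * T) • (1 : Matrix (V N) (V N) ℝ)) 0 + 2 * ω ^ 2) *
          (L ^ (-(9 / 2) : ℝ) + (Real.exp η / (1 - δ) - 1) + 2 * δ) +
          Real.exp ((1 + 16 * ω) / 2) * A * (C * Real.exp (-(c * D))))

/-- **one window of CH2 in the range of the cluster theorems** -/
theorem win_rng {b1 : ℝ} (hb1 : 0 < b1) (b2 : ℝ) :
    ∃ W₀ c C ys : ℝ, ∃ X : ℕ, 0 < c ∧ 1 ≤ C ∧ 0 < ys ∧ 1 ≤ X ∧ WR b1 b2 W₀ c C ys X := by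
  obtain ⟨W₀, c, C, ys, X, hc, hC, hys, hX, h⟩ := H612.lb4f hb1 b2 (5 / 2)
  refine ⟨W₀, c, C, ys, X, hc, hC, hys, hX, ?_⟩
  intro W hW N l ξ _ _ _ b y hR hNy hl h50 hlξ T hTe s Q η p hs hsT hQ hη hp hTy ω hω hOm ρ hρ L hL
    hNL D hD hDρ κ a hκ0 hκ ha hQa hlog ν A hν hA0 hA δ hδ hδ1
  have hb : 0 < b := lt_of_lt_of_le hb1 hR.hb1
  have hξ : 0 < ξ := by
    have := hR.hX
    omega
  have hξR : (0 : ℝ) < ξ := by exact_mod_cast hξ
  have hT : 0 < T := by rw [hTe]; positivity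
  have hlp : (0 : ℝ) < l := l_pos' hl
  have hN0 : (0 : ℝ) < (N / l : ℕ) := by exact_mod_cast NeZero.pos (N / l)
  have hTl : T * (l : ℝ) ^ 2 ≤ 1 / 50 := by
    rw [hTe, one_div, inv_mul_le_iff₀ (by positivity)]
    linarith
  have hup := acl_upper (N := N) (l := l) hb hl hT hTl (m := T * y) (mul_nonneg hT.le hR.y0)
    (fun q hq => by
      have := neu_upper (N := N) hb.le hξ (hR.hyp.qu.qk) q hq
      rw [hTe]
      exact this)
  have key := ch2_typ (N := N) (l := l) (h := ξ) (ρ := ρ) (ρ₀ := ρ) hb hl hR.hd hs hsT hQ hη hp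
    (typ_of_typE hb.le hT hTy) (by
      rw [hTe, one_div, inv_mul_cancel₀ (by positivity)]) hω hOm (aH := 13 / 5)
    (m := (l : ℝ) ^ 2 * (T * y)) (by norm_num) (mul_nonneg (sq_nonneg _) (mul_nonneg hT.le hR.y0))
    hup le_rfl (by omega) hL hNL (E := ((N / l : ℕ) : ℝ) ^ 2 * (T ^ 2 / s) / ν) (κ := κ) (a := a)
    (by positivity) hκ0 (fun i => ?_) ha hQa (x := ξ) (r := C * Real.exp (-(c * D))) (A := A)
    (B := 1) (by positivity) hA0 one_pos (fun f g hf hg hsup => ?_) ?_ (by rw [one_pow, one_mul])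
    (δ := δ) ?_ hδ1
  · refine key.trans ?_
    have hg := gain_exp (ρ := ρ) (L := L) (by exact_mod_cast hρ) (by linarith) (q :=
      (((1 / s - 1 / T) / (l : ℝ) ^ 2)⁻¹ + (l : ℝ) ^ 2 * (T * y)) * (2 * (L * (2 * ρ)) + 1) ^ 2) (by
        have h1 : 0 ≤ 1 / s - 1 / T := by
          rw [sub_nonneg]
          exact one_div_le_one_div_of_le hs (by linarith)
        have h2 := hR.y0
        positivity) hlog
    have hc0 : 0 ≤ ch2 (wT b N) ((2 * T) • (1 : Matrix (V N) (V N) ℝ)) 0 + 2 * ω ^ 2 := by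
      have h1 : 0 ≤ ch2 (wT b N) ((2 * T) • (1 : Matrix (V N) (V N) ℝ)) 0 := H43.nm_nonneg _
      positivity
    rw [mul_one]
    gcongr
  · have h1 : (0 : ℝ) < (wdw N l ξ ρ i).card := by
      exact_mod_cast (wdw_nonempty (N := N) (l := l) (h := ξ) (ρ := ρ) i).card_pos
    unfold kap2
    have h2 := H859.wc_ge (t := T) hl hb hs ρ
    have e : 2 + 2 * ((wdw N l ξ ρ i).card : ℝ) / ((wdw N l ξ ρ i).card : ℝ) = 4 := by
      field_simp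
      norm_num
    rw [e]
    have h3 : T / 2 ≤ T - s := by linarith
    calc 2 * T * wc N l ρ b T s * 4 = 16 * wc N l ρ b T s * (T / 2) := by ring
      _ ≤ κ ^ 2 * (T / 2) := mul_le_mul_of_nonneg_right hκ (by positivity)
      _ ≤ κ ^ 2 * (T - s) := mul_le_mul_of_nonneg_left h3 (sq_nonneg _)
  · refine h W hW N b ξ y hR hNy g f 1 A D one_pos hA0 hD hg hf (fun v z hv hz => ?_) T
      (le_of_eq hTe.symm) (by rw [hTe]; gcongr; norm_num)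
    have h1 := hsup v z hv hz
    have h2 : ((l * (ρ + 1) : ℕ) : ℝ) ≤ ((sd v z + (ξ + l) + l : ℕ) : ℝ) := by exact_mod_cast h1
    push_cast at h2
    have h3 : (l : ℝ) ≤ ξ := by exact_mod_cast hlξ
    nlinarith
  · have e : 4 * ((N / l : ℕ) : ℝ) ^ 2 * (((N / l : ℕ) : ℝ) ^ 2 * (T ^ 2 / s) / ν) =
        4 * ((N / l : ℕ) : ℝ) ^ 4 * (T ^ 2 / (s * ν)) := by
      field_simp
    rw [e]
    have h1 : 0 ≤ T ^ 2 / (s * ν) := by positivity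
    calc 4 * ((N / l : ℕ) : ℝ) ^ 4 * (T ^ 2 / (s * ν)) ≤
        A ^ 2 * (ξ : ℝ) ^ 2 * (s * ν) * (T ^ 2 / (s * ν)) := mul_le_mul_of_nonneg_right hA h1
      _ = _ := by field_simp
  · have e : ((N / l : ℕ) : ℝ) ^ 2 * (T ^ 2 / s) / (((N / l : ℕ) : ℝ) ^ 2 * (T ^ 2 / s) / ν) = ν := by
      field_simp
    rw [e]
    exact hδ

end

end Vale.Agent.P159.H415
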