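import Vale.Agent.P159.H972.Good

/-!
P159, module CH2 (helper415), part 19: powers and logarithms of the small parameter `e`.
-/

namespace Vale.Agent.P159.H415

open Vale.Agent.P159.H972 (lg tn Par)

noncomputable section

/-- logarithm against power -/
lemma log_le_pow (A B : ℝ) {c : ℝ} (hc : 0 < c) : ∃ E0 : ℝ, 0 < E0 ∧ E0 ≤ 1 / 2 ∧
    ∀ e : ℝ, 0 < e → e ≤ E0 → A + B * Real.logb 2 (1 / e) ≤ e ^ (-c) := by
  obtain ⟨Q, hQ⟩ : ∃ Q : ℝ, Q = |A| + |B| * (2 / c / Real.log 2) + 1 := ⟨_, rfl⟩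
  have hl2 : 0 < Real.log 2 := Real.log_pos one_lt_two
  have hQ1 : 1 ≤ Q := by
    rw [hQ]
    have : 0 ≤ |A| + |B| * (2 / c / Real.log 2) := by positivity
    linarith
  refine ⟨min (1 / 2) (Q ^ (-(2 / c))), by positivity, min_le_left _ _, fun e he hE => ?_⟩
  have he2 : e ≤ 1 / 2 := hE.trans (min_le_left _ _)
  have h1 : e ≤ Q ^ (-(2 / c)) := hE.trans (min_le_right _ _)
  have h2 : Q ≤ e ^ (-(c / 2)) := by
    have h3 := Real.rpow_le_rpow_of_nonpos he h1 (show -(c / 2) ≤ 0 by linarith)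
    rw [← Real.rpow_mul (by linarith)] at h3
    have e1 : -(2 / c) * -(c / 2) = 1 := by field_simp
    rwa [e1, Real.rpow_one] at h3
  have h0 : 1 ≤ e ^ (-(c / 2)) := hQ1.trans h2
  have h4 : Real.logb 2 (1 / e) ≤ 2 / c / Real.log 2 * e ^ (-(c / 2)) := by
    unfold Real.logb
    have h5 : Real.log (1 / e) ≤ (1 / e) ^ (c / 2) / (c / 2) :=
      Real.log_le_rpow_div (by positivity) (by positivity)
    have h6 : (1 / e) ^ (c / 2) = e ^ (-(c / 2)) := by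
      rw [one_div, Real.inv_rpow he.le, Real.rpow_neg he.le]
    rw [h6] at h5
    calc Real.log (1 / e) / Real.log 2 ≤ e ^ (-(c / 2)) / (c / 2) / Real.log 2 :=
          div_le_div_of_nonneg_right h5 hl2.le
      _ = _ := by field_simp
  have h7 : 0 ≤ Real.logb 2 (1 / e) :=
    Real.logb_nonneg one_lt_two ((le_div_iff₀ he).2 (by linarith))
  calc A + B * Real.logb 2 (1 / e) ≤ |A| * e ^ (-(c / 2)) +
        |B| * (2 / c / Real.log 2 * e ^ (-(c / 2))) := by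
        have h8 : A ≤ |A| * e ^ (-(c / 2)) :=
          (le_abs_self A).trans (le_mul_of_one_le_right (abs_nonneg A) h0)
        have h9 : B * Real.logb 2 (1 / e) ≤ |B| * Real.logb 2 (1 / e) :=
          mul_le_mul_of_nonneg_right (le_abs_self B) h7
        have h10 : |B| * Real.logb 2 (1 / e) ≤ |B| * (2 / c / Real.log 2 * e ^ (-(c / 2))) :=
          mul_le_mul_of_nonneg_left h4 (abs_nonneg B)
        linarith
    _ ≤ Q * e ^ (-(c / 2)) := by
        rw [hQ]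
        nlinarith
    _ ≤ e ^ (-(c / 2)) * e ^ (-(c / 2)) := mul_le_mul_of_nonneg_right h2 (by linarith)
    _ = e ^ (-c) := by
        rw [← Real.rpow_add he]
        congr 1
        ring

/-- a large power -/
lemma const_le_pow (A : ℝ) {c : ℝ} (hc : 0 < c) : ∃ E0 : ℝ, 0 < E0 ∧ E0 ≤ 1 / 2 ∧
    ∀ e : ℝ, 0 < e → e ≤ E0 → A ≤ e ^ (-c) := by
  obtain ⟨E0, h0, h1, h2⟩ := log_le_pow A 0 hc
  exact ⟨E0, h0, h1, fun e he hE => by
    have := h2 e he hE
    rwa [zero_mul, add_zero] at this⟩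

/-- a small power -/
lemma pow_le_const {A c : ℝ} (hA : 0 < A) (hc : 0 < c) : ∃ E0 : ℝ, 0 < E0 ∧ E0 ≤ 1 / 2 ∧
    ∀ e : ℝ, 0 < e → e ≤ E0 → e ^ c ≤ A := by
  obtain ⟨E0, h0, h1, h2⟩ := const_le_pow (1 / A) hc
  refine ⟨E0, h0, h1, fun e he hE => ?_⟩
  have h3 := h2 e he hE
  rw [Real.rpow_neg he.le, ← one_div] at h3
  exact (one_div_le_one_div hA (by positivity)).1 h3

/-- a large logarithm -/
lemma logb_ge (A : ℝ) : ∃ E0 : ℝ, 0 < E0 ∧ E0 ≤ 1 / 2 ∧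
    ∀ e : ℝ, 0 < e → e ≤ E0 → A ≤ Real.logb 2 (1 / e) := by
  refine ⟨min (1 / 2) ((2 : ℝ) ^ (-A)), by positivity, min_le_left _ _, fun e he hE => ?_⟩
  rw [Real.le_logb_iff_rpow_le one_lt_two (by positivity), le_div_iff₀ he]
  have h1 : e ≤ (2 : ℝ) ^ (-A) := hE.trans (min_le_right _ _)
  calc (2 : ℝ) ^ A * e ≤ 2 ^ A * 2 ^ (-A) := mul_le_mul_of_nonneg_left h1 (by positivity)
    _ = 1 := by
      rw [← Real.rpow_add (by norm_num), add_neg_cancel, Real.rpow_zero]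

lemma lg_ge' (c e : ℝ) : c * Real.logb 2 (1 / e) ≤ lg c e := Nat.le_ceil _

lemma lg_le' {c e : ℝ} (hc : 0 ≤ c) (he : 0 < e) (h1 : e ≤ 1) :
    (lg c e : ℝ) ≤ c * Real.logb 2 (1 / e) + 1 := by
  have hL : 0 ≤ Real.logb 2 (1 / e) :=
    Real.logb_nonneg one_lt_two ((le_div_iff₀ he).2 (by linarith))
  exact (Nat.ceil_lt_add_one (by positivity)).le

lemma two_rpow_logb {c e : ℝ} (he : 0 < e) : (2 : ℝ) ^ (c * Real.logb 2 (1 / e)) = e ^ (-c) := by
  rw [mul_comm, Real.rpow_mul (by norm_num), Real.rpow_logb (by norm_num) (by norm_num)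
    (by positivity), one_div, Real.inv_rpow he.le, Real.rpow_neg he.le]

lemma two_lg_ge' (c : ℝ) {e : ℝ} (he : 0 < e) : e ^ (-c) ≤ (2 : ℝ) ^ (lg c e) := by
  rw [← two_rpow_logb he, ← Real.rpow_natCast]
  exact Real.rpow_le_rpow_of_exponent_le (by norm_num) (lg_ge' c e)

lemma two_lg_le' {c e : ℝ} (hc : 0 ≤ c) (he : 0 < e) (h1 : e ≤ 1) :
    (2 : ℝ) ^ (lg c e) ≤ 2 * e ^ (-c) := by
  rw [← two_rpow_logb he, ← Real.rpow_natCast]
  calc (2 : ℝ) ^ ((lg c e : ℕ) : ℝ) ≤ 2 ^ (c * Real.logb 2 (1 / e) + 1) :=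
        Real.rpow_le_rpow_of_exponent_le (by norm_num) (lg_le' hc he h1)
    _ = _ := by rw [Real.rpow_add (by norm_num), Real.rpow_one, mul_comm]

/-- a natural number below a linear function of the logarithm -/
lemma two_pow_le {k : ℕ} {A B e : ℝ} (he : 0 < e) (h : (k : ℝ) ≤ A + B * Real.logb 2 (1 / e)) :
    (2 : ℝ) ^ k ≤ 2 ^ A * e ^ (-B) := by
  rw [← two_rpow_logb he, ← Real.rpow_natCast, ← Real.rpow_add (by norm_num)]
  exact Real.rpow_le_rpow_of_exponent_le (by norm_num) h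

end

end Vale.Agent.P159.H415
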