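import Vale.Agent.P159.H415.NumC
import Vale.Agent.P159.H415.Pow
import Vale.Agent.P159.H43.OscP

/-!
P159, module CH2 (helper415), part 20: **one window of CH2 in numbers** (`ch2_win`).
-/

set_option linter.unusedSectionVars false

namespace Vale.Agent.P159.H415

open Filter Topology
open Vale.Agent.P159.H972 (lg tn Par)

noncomputable section

lemma ev_of_le {p : ℝ → Prop} (h : ∃ E0 : ℝ, 0 < E0 ∧ E0 ≤ 1 / 2 ∧ ∀ e, 0 < e → e ≤ E0 → p e) :
    ∀ᶠ e in 𝓝[>] (0 : ℝ), p e := by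
  obtain ⟨E0, h0, -, h1⟩ := h
  filter_upwards [Ioc_mem_nhdsGT h0] with e he using h1 e he.1 he.2

lemma le_of_ev {p : ℝ → Prop} (h : ∀ᶠ e in 𝓝[>] (0 : ℝ), p e) :
    ∃ E0 : ℝ, 0 < E0 ∧ E0 ≤ 1 / 2 ∧ ∀ e, 0 < e → e ≤ E0 → p e := by
  obtain ⟨u, hu, hs⟩ := mem_nhdsGT_iff_exists_Ioc_subset.1 h
  have hu0 : 0 < u := hu
  refine ⟨min (1 / 2) u, lt_min (by norm_num) hu0, min_le_left _ _, fun e he hE => ?_⟩
  exact hs ⟨he, hE.trans (min_le_right _ _)⟩

lemma ev_log (A B : ℝ) {c : ℝ} (hc : 0 < c) :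
    ∀ᶠ e in 𝓝[>] (0 : ℝ), A + B * Real.logb 2 (1 / e) ≤ e ^ (-c) := ev_of_le (log_le_pow A B hc)

lemma ev_const (A : ℝ) {c : ℝ} (hc : 0 < c) : ∀ᶠ e in 𝓝[>] (0 : ℝ), A ≤ e ^ (-c) :=
  ev_of_le (const_le_pow A hc)

lemma ev_pow {A c : ℝ} (hA : 0 < A) (hc : 0 < c) : ∀ᶠ e in 𝓝[>] (0 : ℝ), e ^ c ≤ A :=
  ev_of_le (pow_le_const hA hc)

lemma ev_lgb (A : ℝ) : ∀ᶠ e in 𝓝[>] (0 : ℝ), A ≤ Real.logb 2 (1 / e) := ev_of_le (logb_ge A)

lemma ev_half : ∀ᶠ e in 𝓝[>] (0 : ℝ), 0 < e ∧ e ≤ 1 / 2 := by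
  filter_upwards [Ioc_mem_nhdsGT (show (0 : ℝ) < 1 / 2 by norm_num)] with e he using he

/-- (1), (2) -/
lemma sc1 {th thp C0 : ℝ} (h1 : 0 < th) (h2 : th ≤ thp) (h3 : 0 < C0) :
    ∀ᶠ e in 𝓝[>] (0 : ℝ), ∀ d : ℕ, lg thp e ≤ d →
      2 * lg (th / 64) e + 4 ≤ d ∧ 12 ≤ lg C0 e ∧ 3 ≤ lg (th / 64) e := by
  filter_upwards [ev_half, ev_lgb (8 / th), ev_lgb (12 / C0), ev_lgb (192 / th)] with e he hu1 hu2
    hu3 d hd
  have he1 : e ≤ 1 := he.2.trans (by norm_num)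
  have g1 := lg_le' (c := th / 64) (by positivity) he.1 he1
  have g2 := lg_ge' thp e
  have g3 := lg_ge' C0 e
  have g4 := lg_ge' (th / 64) e
  have hdR : (lg thp e : ℝ) ≤ d := by exact_mod_cast hd
  set u := Real.logb 2 (1 / e)
  have k1 : 8 ≤ th * u := by
    rw [div_le_iff₀ h1] at hu1
    linarith
  have k2 : 12 ≤ C0 * u := by
    rw [div_le_iff₀ h3] at hu2
    linarith
  have k3 : 192 ≤ th * u := by
    rw [div_le_iff₀ h1] at hu3
    linarith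
  have hu0 : 0 < u := by
    by_contra hc
    have := mul_nonpos_of_nonneg_of_nonpos h1.le (not_lt.1 hc)
    linarith
  have k4 : th * u ≤ thp * u := mul_le_mul_of_nonneg_right h2 hu0.le
  refine ⟨?_, ?_, ?_⟩
  · have : ((2 * lg (th / 64) e + 4 : ℕ) : ℝ) ≤ d := by
      push_cast
      linarith
    exact_mod_cast this
  · have : ((12 : ℕ) : ℝ) ≤ (lg C0 e : ℝ) := by
      push_cast
      linarith
    exact_mod_cast this
  · have : ((3 : ℕ) : ℝ) ≤ (lg (th / 64) e : ℝ) := by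
      push_cast
      linarith
    exact_mod_cast this

/-- (3) -/
lemma sc2 {th thp : ℝ} (h1 : 0 < th) (h0 : 0 < thp) (h2 : thp ≤ 1 / 64) :
    ∀ᶠ e in 𝓝[>] (0 : ℝ), ∀ d : ℕ, d ≤ 4 * lg thp e →
      (d : ℝ) * (3200 + 25 * e ^ (1 / 4 : ℝ) * 4 ^ d) ≤ 4 ^ lg (th / 64) e := by
  filter_upwards [ev_half, ev_log (3225 * 4) (3225 * 4 * thp) (c := th / 32) (by positivity),
    ev_pow (A := 1 / 256) (c := 1 / 8) (by norm_num) (by norm_num)] with e he hl hp d hd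
  have he1 : e ≤ 1 := he.2.trans (by norm_num)
  have g1 := lg_le' (c := thp) h0.le he.1 he1
  have hdR : (d : ℝ) ≤ 4 * lg thp e := by exact_mod_cast hd
  have k1 : (4 : ℝ) ^ d ≤ 256 * e ^ (-(8 * thp)) := by
    have g2 := two_lg_le' (c := thp) h0.le he.1 he1
    calc (4 : ℝ) ^ d ≤ 4 ^ (4 * lg thp e) := pow_le_pow_right₀ (by norm_num) hd
      _ = (2 ^ lg thp e) ^ 8 := by
        rw [show (4 : ℝ) = 2 ^ 2 by norm_num, ← pow_mul, ← pow_mul]
        congr 1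
        ring
      _ ≤ (2 * e ^ (-thp)) ^ 8 := by gcongr
      _ = _ := by
        rw [mul_pow, ← Real.rpow_natCast (e ^ (-thp)), ← Real.rpow_mul he.1.le]
        norm_num
        ring_nf
  have k2 : 25 * e ^ (1 / 4 : ℝ) * 4 ^ d ≤ 25 := by
    have h3 : e ^ (1 / 4 : ℝ) * e ^ (-(8 * thp)) ≤ e ^ (1 / 8 : ℝ) := by
      rw [← Real.rpow_add he.1]
      exact Real.rpow_le_rpow_of_exponent_ge he.1 he1 (by linarith)
    have h4 : 0 < e ^ (1 / 4 : ℝ) := Real.rpow_pos_of_pos he.1 _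
    have h5 : e ^ (1 / 4 : ℝ) * 4 ^ d ≤ 1 := by
      calc e ^ (1 / 4 : ℝ) * 4 ^ d ≤ e ^ (1 / 4 : ℝ) * (256 * e ^ (-(8 * thp))) :=
            mul_le_mul_of_nonneg_left k1 h4.le
        _ = 256 * (e ^ (1 / 4 : ℝ) * e ^ (-(8 * thp))) := by ring
        _ ≤ 256 * (1 / 256) := by linarith
        _ = 1 := by norm_num
    linarith
  have k3 : e ^ (-(th / 32)) ≤ 4 ^ lg (th / 64) e := by
    have g3 := two_lg_ge' (th / 64) he.1
    calc e ^ (-(th / 32)) = (e ^ (-(th / 64))) ^ 2 := by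
          rw [← Real.rpow_natCast, ← Real.rpow_mul he.1.le]
          congr 1
          push_cast
          ring
      _ ≤ (2 ^ lg (th / 64) e) ^ 2 :=
        pow_le_pow_left₀ (Real.rpow_pos_of_pos he.1 _).le g3 2
      _ = _ := by
        rw [← pow_mul, mul_comm, pow_mul]
        norm_num
  have hd0 : (0 : ℝ) ≤ d := Nat.cast_nonneg d
  calc (d : ℝ) * (3200 + 25 * e ^ (1 / 4 : ℝ) * 4 ^ d) ≤ d * 3225 :=
        mul_le_mul_of_nonneg_left (by linarith) hd0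
    _ ≤ 3225 * 4 + 3225 * 4 * thp * Real.logb 2 (1 / e) := by nlinarith
    _ ≤ _ := hl.trans k3

/-- (4), (5), (10) -/
lemma sc3 {th C0 b2 : ℝ} (thp : ℝ) (q0 : ℕ) (h1 : 0 < th) (h3 : 0 < C0) (h4 : 0 ≤ thp) :
    ∀ᶠ e in 𝓝[>] (0 : ℝ), (∀ k : ℕ, k ≤ lg th e + q0 * (4 * lg thp e) →
      1 + 18 * (b2 + b2 ^ 2 * (1 + (k + lg C0 e : ℕ))) ≤ e ^ (-(th / 64))) ∧
      8 * 4 ^ lg (th / 64) e * e ^ (-(th / 64)) ≤ e ^ (-(th / 16)) ∧ 2 ≤ e ^ (-(th / 16)) ∧
      1 ≤ e ^ (-(th / 128)) ∧ (2 : ℝ) ^ (9 * lg (th / 64) e) ≤ e ^ (-(th / 4)) := by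
  filter_upwards [ev_half, ev_log (1 + 18 * (b2 + b2 ^ 2 * (3 + 4 * q0)))
    (18 * b2 ^ 2 * (th + 4 * q0 * thp + C0)) (c := th / 64) (by positivity),
    ev_const 2 (c := th / 16) (by positivity), ev_const 32 (c := th / 64) (by positivity),
    ev_const 512 (c := th / 16) (by positivity)] with e he hl h5 h6 h7
  have he1 : e ≤ 1 := he.2.trans (by norm_num)
  have g1 := lg_le' (c := th) h1.le he.1 he1
  have g2 := lg_le' (c := thp) h4 he.1 he1
  have g3 := lg_le' (c := C0) h3.le he.1 he1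
  have g4 := two_lg_le' (c := th / 64) (by positivity) he.1 he1
  have g0 : 0 ≤ Real.logb 2 (1 / e) :=
    Real.logb_nonneg one_lt_two ((le_div_iff₀ he.1).2 (by linarith))
  refine ⟨fun k hk => ?_, ?_, h5, ?_, ?_⟩
  · refine le_trans ?_ hl
    have hkR : (k : ℝ) ≤ lg th e + q0 * (4 * lg thp e) := by exact_mod_cast hk
    have hq : (q0 : ℝ) * (4 * lg thp e) ≤ q0 * (4 * (thp * Real.logb 2 (1 / e) + 1)) := by
      gcongr
    have h8 : (1 : ℝ) + (k + lg C0 e : ℕ) ≤ (3 + 4 * q0) +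
        (th + 4 * q0 * thp + C0) * Real.logb 2 (1 / e) := by
      push_cast
      nlinarith
    have h9 : 0 ≤ 18 * b2 ^ 2 := by positivity
    nlinarith [mul_le_mul_of_nonneg_left h8 h9]
  · have h8 : (4 : ℝ) ^ lg (th / 64) e ≤ 4 * e ^ (-(th / 32)) := by
      calc (4 : ℝ) ^ lg (th / 64) e = (2 ^ lg (th / 64) e) ^ 2 := by
            rw [← pow_mul, mul_comm (lg (th / 64) e) 2, pow_mul]
            norm_num
        _ ≤ (2 * e ^ (-(th / 64))) ^ 2 := by gcongr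
        _ = _ := by
          rw [mul_pow, ← Real.rpow_natCast (e ^ (-(th / 64))), ← Real.rpow_mul he.1.le]
          norm_num
          ring_nf
    have hp : 0 < e ^ (-(th / 64)) := Real.rpow_pos_of_pos he.1 _
    calc 8 * (4 : ℝ) ^ lg (th / 64) e * e ^ (-(th / 64)) ≤
        8 * (4 * e ^ (-(th / 32))) * e ^ (-(th / 64)) := by gcongr
      _ = 32 * (e ^ (-(th / 32)) * e ^ (-(th / 64))) := by ring
      _ ≤ e ^ (-(th / 64)) * (e ^ (-(th / 32)) * e ^ (-(th / 64))) := by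
        have : 0 < e ^ (-(th / 32)) := Real.rpow_pos_of_pos he.1 _
        exact mul_le_mul_of_nonneg_right h6 (by positivity)
      _ = _ := by
        rw [← Real.rpow_add he.1, ← Real.rpow_add he.1]
        congr 1
        ring
  · exact Real.one_le_rpow_of_pos_of_le_one_of_nonpos he.1 he1 (by linarith)
  · calc (2 : ℝ) ^ (9 * lg (th / 64) e) = (2 ^ lg (th / 64) e) ^ 9 := by
          rw [← pow_mul]
          congr 1
          ring
      _ ≤ (2 * e ^ (-(th / 64))) ^ 9 := by gcongr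
      _ = 512 * e ^ (-(9 * th / 64)) := by
        rw [mul_pow, ← Real.rpow_natCast (e ^ (-(th / 64))), ← Real.rpow_mul he.1.le]
        norm_num
        ring_nf
      _ ≤ e ^ (-(th / 16)) * e ^ (-(9 * th / 64)) := by
        have : 0 < e ^ (-(9 * th / 64)) := Real.rpow_pos_of_pos he.1 _
        exact mul_le_mul_of_nonneg_right h7 this.le
      _ = e ^ (-(13 * th / 64)) := by
        rw [← Real.rpow_add he.1]
        congr 1
        ring
      _ ≤ _ := Real.rpow_le_rpow_of_exponent_ge he.1 he1 (by linarith)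

/-- (6) -/
lemma sc4 {th thp c : ℝ} (q0 : ℕ) (h1 : 0 < th) (h4 : 0 ≤ thp) (hc : 0 < c)
    (hq : th + 4 * q0 * thp ≤ 1 / 8) :
    ∀ᶠ e in 𝓝[>] (0 : ℝ), ∀ k : ℕ, k ≤ lg th e + q0 * (4 * lg thp e) →
      (2 : ℝ) ^ k * e ^ (1 / 4 : ℝ) ≤ c := by
  filter_upwards [ev_half, ev_pow (A := c / 2 ^ (1 + 4 * (q0 : ℝ))) (c := 1 / 8) (by positivity)
    (by norm_num)] with e he hp k hk
  have he1 : e ≤ 1 := he.2.trans (by norm_num)
  have g1 := lg_le' (c := th) h1.le he.1 he1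
  have g2 := lg_le' (c := thp) h4 he.1 he1
  have g0 : 0 ≤ Real.logb 2 (1 / e) :=
    Real.logb_nonneg one_lt_two ((le_div_iff₀ he.1).2 (by linarith))
  have hkR : (k : ℝ) ≤ lg th e + q0 * (4 * lg thp e) := by exact_mod_cast hk
  have hq' : (q0 : ℝ) * (4 * lg thp e) ≤ q0 * (4 * (thp * Real.logb 2 (1 / e) + 1)) := by gcongr
  have h5 : (k : ℝ) ≤ (1 + 4 * (q0 : ℝ)) + (th + 4 * q0 * thp) * Real.logb 2 (1 / e) := by
    nlinarith
  have h6 := two_pow_le he.1 h5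
  have h7 : e ^ (-(th + 4 * q0 * thp)) ≤ e ^ (-(1 / 8) : ℝ) :=
    Real.rpow_le_rpow_of_exponent_ge he.1 he1 (by linarith)
  have h8 : 0 < e ^ (1 / 4 : ℝ) := Real.rpow_pos_of_pos he.1 _
  have h9 : (0 : ℝ) < 2 ^ (1 + 4 * (q0 : ℝ)) := by positivity
  calc (2 : ℝ) ^ k * e ^ (1 / 4 : ℝ) ≤
      2 ^ (1 + 4 * (q0 : ℝ)) * e ^ (-(1 / 8) : ℝ) * e ^ (1 / 4 : ℝ) := by
        refine mul_le_mul_of_nonneg_right (h6.trans ?_) h8.le
        exact mul_le_mul_of_nonneg_left h7 h9.le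
    _ = 2 ^ (1 + 4 * (q0 : ℝ)) * e ^ (1 / 8 : ℝ) := by
      rw [mul_assoc, ← Real.rpow_add he.1]
      norm_num
    _ ≤ 2 ^ (1 + 4 * (q0 : ℝ)) * (c / 2 ^ (1 + 4 * (q0 : ℝ))) :=
      mul_le_mul_of_nonneg_left hp h9.le
    _ = c := by field_simp

/-- (7): the far term -/
lemma sc5 {th thp C0 c C : ℝ} (q0 : ℕ) (h1 : 0 < th) (h4 : 0 ≤ thp) (h3 : 0 < C0) (hc : 0 < c)
    (hC : 1 ≤ C) :
    ∀ᶠ e in 𝓝[>] (0 : ℝ), ∀ k d : ℕ, k ≤ lg th e + q0 * (4 * lg thp e) → d ≤ 4 * lg thp e →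
      (4 : ℝ) ^ k / (4 * Real.pi) * (Real.exp (9 / 2) * (2 * 4 ^ (k + lg C0 e) * 2 ^ d *
        e ^ (-(1 / 32) : ℝ)) * (C * Real.exp (-(c * (2 ^ lg (th / 64) e - 2))))) ≤
        Real.exp (-(e ^ (-(th / 128)))) := by
  obtain ⟨a, ha⟩ : ∃ a : ℝ, a = 4 * (1 + 4 * q0) + 4 + 3 := ⟨_, rfl⟩
  obtain ⟨B, hB⟩ : ∃ B : ℝ, B = 4 * (th + 4 * q0 * thp) + 2 * C0 + 4 * thp + 1 / 32 := ⟨_, rfl⟩
  filter_upwards [ev_half, ev_log ((9 / 2 + Real.log C + 2 * c + a * Real.log 2) / c)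
    (B * Real.log 2 / c) (c := th / 128) (by positivity),
    ev_const (1 + c⁻¹) (c := th / 128) (by positivity)] with e he hl hc1 k d hk hd
  have he1 : e ≤ 1 := he.2.trans (by norm_num)
  have g1 := lg_le' (c := th) h1.le he.1 he1
  have g2 := lg_le' (c := thp) h4 he.1 he1
  have g3 := lg_le' (c := C0) h3.le he.1 he1
  have g4 := two_lg_ge' (th / 64) he.1
  obtain ⟨u, hu⟩ : ∃ u : ℝ, u = Real.logb 2 (1 / e) := ⟨_, rfl⟩
  rw [← hu] at g1 g2 g3 hl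
  have g0 : 0 ≤ u := by
    rw [hu]
    exact Real.logb_nonneg one_lt_two ((le_div_iff₀ he.1).2 (by linarith))
  have hkR : (k : ℝ) ≤ lg th e + q0 * (4 * lg thp e) := by exact_mod_cast hk
  have hq' : (q0 : ℝ) * (4 * lg thp e) ≤ q0 * (4 * (thp * u + 1)) := by gcongr
  have h5 : (k : ℝ) ≤ (1 + 4 * (q0 : ℝ)) + (th + 4 * q0 * thp) * u := by nlinarith
  have hdR : (d : ℝ) ≤ 4 * lg thp e := by exact_mod_cast hd
  -- the prefactor as one power of two
  have e1 : (4 : ℝ) ^ k * (2 * 4 ^ (k + lg C0 e) * 2 ^ d * e ^ (-(1 / 32) : ℝ)) ≤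
      (2 : ℝ) ^ (a + B * u) := by
    have e2 : e ^ (-(1 / 32) : ℝ) = (2 : ℝ) ^ (1 / 32 * u) := by
      rw [hu, two_rpow_logb he.1]
    have e3 : (4 : ℝ) ^ k * (2 * 4 ^ (k + lg C0 e) * 2 ^ d) =
        (2 : ℝ) ^ ((4 * k + 2 * lg C0 e + 1 + d : ℕ) : ℝ) := by
      rw [Real.rpow_natCast, show (4 : ℝ) = 2 ^ 2 by norm_num, ← pow_mul, ← pow_mul]
      ring
    calc (4 : ℝ) ^ k * (2 * 4 ^ (k + lg C0 e) * 2 ^ d * e ^ (-(1 / 32) : ℝ)) =
        (4 : ℝ) ^ k * (2 * 4 ^ (k + lg C0 e) * 2 ^ d) * e ^ (-(1 / 32) : ℝ) := by ring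
      _ = 2 ^ (((4 * k + 2 * lg C0 e + 1 + d : ℕ) : ℝ) + 1 / 32 * u) := by
        rw [e3, e2, ← Real.rpow_add (by norm_num)]
      _ ≤ _ := by
        refine Real.rpow_le_rpow_of_exponent_le (by norm_num) ?_
        push_cast
        rw [ha, hB]
        nlinarith
  have hpi : (1 : ℝ) ≤ 4 * Real.pi := by
    have := Real.pi_gt_three
    linarith
  have e4 : (2 : ℝ) ^ (a + B * u) = Real.exp ((a + B * u) * Real.log 2) := by
    rw [Real.rpow_def_of_pos (by norm_num)]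
    congr 1
    ring
  have hCl : C = Real.exp (Real.log C) := (Real.exp_log (by linarith)).symm
  have h10 : 0 ≤ (4 : ℝ) ^ k * (2 * 4 ^ (k + lg C0 e) * 2 ^ d * e ^ (-(1 / 32) : ℝ)) := by
    have := Real.rpow_pos_of_pos he.1 (-(1 / 32) : ℝ)
    positivity
  calc (4 : ℝ) ^ k / (4 * Real.pi) * (Real.exp (9 / 2) * (2 * 4 ^ (k + lg C0 e) * 2 ^ d *
        e ^ (-(1 / 32) : ℝ)) * (C * Real.exp (-(c * (2 ^ lg (th / 64) e - 2)))))
      = ((4 : ℝ) ^ k * (2 * 4 ^ (k + lg C0 e) * 2 ^ d * e ^ (-(1 / 32) : ℝ))) / (4 * Real.pi) *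
        (Real.exp (9 / 2) * (C * Real.exp (-(c * (2 ^ lg (th / 64) e - 2))))) := by ring
    _ ≤ ((2 : ℝ) ^ (a + B * u)) * (Real.exp (9 / 2) * (C * Real.exp
        (-(c * (2 ^ lg (th / 64) e - 2))))) := by
      refine mul_le_mul_of_nonneg_right ?_ (by positivity)
      exact (div_le_self h10 hpi).trans e1
    _ = Real.exp ((a + B * u) * Real.log 2 + 9 / 2 + Real.log C -
        c * (2 ^ lg (th / 64) e - 2)) := by
      rw [e4]
      nth_rewrite 1 [hCl]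
      rw [← Real.exp_add, ← Real.exp_add, ← Real.exp_add]
      congr 1
      ring
    _ ≤ _ := by
      refine Real.exp_le_exp.2 ?_
      have h6 : (9 / 2 + Real.log C + 2 * c + a * Real.log 2) + B * Real.log 2 * u ≤
          c * e ^ (-(th / 128)) := by
        have h7 := mul_le_mul_of_nonneg_left hl hc.le
        have e5 : c * ((9 / 2 + Real.log C + 2 * c + a * Real.log 2) / c +
            B * Real.log 2 / c * u) = (9 / 2 + Real.log C + 2 * c + a * Real.log 2) +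
            B * Real.log 2 * u := by field_simp
        rwa [e5] at h7
      have h8 : c * e ^ (-(th / 64)) ≤ c * 2 ^ lg (th / 64) e := mul_le_mul_of_nonneg_left g4 hc.le
      have h9 : e ^ (-(th / 64)) = e ^ (-(th / 128)) * e ^ (-(th / 128)) := by
        rw [← Real.rpow_add he.1]
        congr 1
        ring
      have h11 : c * e ^ (-(th / 128)) + e ^ (-(th / 128)) ≤
          c * (e ^ (-(th / 128)) * e ^ (-(th / 128))) := by
        have h12 : 0 < e ^ (-(th / 128)) := Real.rpow_pos_of_pos he.1 _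
        have h13 : (c + 1) * 1 ≤ c * e ^ (-(th / 128)) := by
          have h14 := mul_le_mul_of_nonneg_left hc1 hc.le
          have e6 : c * (1 + c⁻¹) = c + 1 := by field_simp
          rw [e6] at h14
          linarith
        nlinarith
      rw [h9] at h8
      linarith

/-- (8), (9): the bad set -/
lemma sc6 {th thp : ℝ} (q0 : ℕ) (h1 : 0 < th) (h4 : 0 ≤ thp) :
    ∀ᶠ e in 𝓝[>] (0 : ℝ), e ^ (1 / 16 : ℝ) ≤ 1 / 1000 ∧
      Real.exp (-(e ^ (-(th / 16)))) ≤ 1 / 100 ∧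
      (∀ k : ℕ, k ≤ lg th e + q0 * (4 * lg thp e) →
      Real.exp (-(e ^ (-(th / 16)))) + Real.exp (e ^ (1 / 16 : ℝ)) *
        (Real.exp (e ^ (1 / 16 : ℝ)) / (1 - Real.exp (-(e ^ (-(th / 16))))) *
          Real.exp (-(e ^ (-(th / 16)))) +
        4 ^ k * (2 * Real.exp (-((e ^ (-(th / 128))) ^ 2 / 7))) + e ^ (1 / 16 : ℝ)) ≤
          20 * e ^ (1 / 16 : ℝ)) ∧
      (Real.exp (e ^ (1 / 16 : ℝ)) / (1 - 20 * e ^ (1 / 16 : ℝ)) - 1) + 2 * (20 * e ^ (1 / 16 : ℝ))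
        ≤ e ^ (1 / 17 : ℝ) := by
  filter_upwards [ev_half, ev_pow (A := 1 / 1000) (c := 1 / 16) (by norm_num) (by norm_num),
    ev_log 0 (1 / 16 * Real.log 2) (c := th / 16) (by positivity),
    ev_const (Real.log 100) (c := th / 16) (by positivity),
    ev_log (7 * (Real.log 2 + 2 * (1 + 4 * q0) * Real.log 2))
      (7 * ((1 / 16 + 2 * (th + 4 * q0 * thp)) * Real.log 2)) (c := th / 64) (by positivity),
    ev_pow (A := 1 / 200) (c := 1 / 16 - 1 / 17) (by norm_num) (by norm_num)]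
    with e he hη hp hp1 ha h17
  have he1 : e ≤ 1 := he.2.trans (by norm_num)
  have g1 := lg_le' (c := th) h1.le he.1 he1
  have g2 := lg_le' (c := thp) h4 he.1 he1
  obtain ⟨η, hηe⟩ : ∃ η : ℝ, η = e ^ (1 / 16 : ℝ) := ⟨_, rfl⟩
  obtain ⟨p, hpe⟩ : ∃ p : ℝ, p = Real.exp (-(e ^ (-(th / 16)))) := ⟨_, rfl⟩
  rw [← hηe] at hη
  have hη0 : 0 < η := by rw [hηe]; exact Real.rpow_pos_of_pos he.1 _
  have hηx : η = Real.exp (-(1 / 16 * Real.log 2 * Real.logb 2 (1 / e))) := by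
    have hlb : Real.logb 2 (1 / e) = -Real.log e / Real.log 2 := by
      rw [Real.logb, one_div, Real.log_inv]
    rw [hηe, Real.rpow_def_of_pos he.1, hlb]
    congr 1
    have : Real.log 2 ≠ 0 := (Real.log_pos one_lt_two).ne'
    field_simp
  have hpη : p ≤ η := by
    rw [hpe, hηx]
    refine Real.exp_le_exp.2 ?_
    linarith
  have hp100 : p ≤ 1 / 100 := by
    rw [hpe, Real.exp_neg]
    rw [inv_le_comm₀ (Real.exp_pos _) (by norm_num)]
    calc (1 / 100 : ℝ)⁻¹ = Real.exp (Real.log 100) := by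
          rw [Real.exp_log (by norm_num)]; norm_num
      _ ≤ _ := Real.exp_le_exp.2 hp1
  have hp0 : 0 < p := by rw [hpe]; exact Real.exp_pos _
  have hex : Real.exp η ≤ 1 + 2 * η := by
    have h5 := Real.abs_exp_sub_one_le (x := η) (by rw [abs_of_pos hη0]; linarith)
    rw [abs_of_pos hη0] at h5
    have := (abs_le.1 h5).2
    linarith
  rw [← hηe, ← hpe]
  refine ⟨hη, hp100, fun k hk => ?_, ?_⟩
  · have hkR : (k : ℝ) ≤ lg th e + q0 * (4 * lg thp e) := by exact_mod_cast hk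
    obtain ⟨u, hu⟩ : ∃ u : ℝ, u = Real.logb 2 (1 / e) := ⟨_, rfl⟩
    rw [← hu] at g1 g2 ha hηx
    have g0 : 0 ≤ u := by
      rw [hu]
      exact Real.logb_nonneg one_lt_two ((le_div_iff₀ he.1).2 (by linarith))
    have hq' : (q0 : ℝ) * (4 * lg thp e) ≤ q0 * (4 * (thp * u + 1)) := by gcongr
    have h5 : (k : ℝ) ≤ (1 + 4 * (q0 : ℝ)) + (th + 4 * q0 * thp) * u := by nlinarith
    have hl2 : 0 < Real.log 2 := Real.log_pos one_lt_two
    have ea : (e ^ (-(th / 128))) ^ 2 = e ^ (-(th / 64)) := by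
      rw [← Real.rpow_natCast, ← Real.rpow_mul he.1.le]
      congr 1
      push_cast
      ring
    have h6 : (4 : ℝ) ^ k * (2 * Real.exp (-((e ^ (-(th / 128))) ^ 2 / 7))) ≤ η := by
      have e4 : (4 : ℝ) ^ k = Real.exp (2 * k * Real.log 2) := by
        rw [show (4 : ℝ) = 2 ^ 2 by norm_num, ← pow_mul, ← Real.rpow_natCast,
          Real.rpow_def_of_pos (by norm_num)]
        congr 1
        push_cast
        ring
      have e5 : (2 : ℝ) = Real.exp (Real.log 2) := (Real.exp_log (by norm_num)).symm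
      rw [e4, ea]
      nth_rewrite 3 [e5]
      rw [← Real.exp_add, ← Real.exp_add, hηx]
      refine Real.exp_le_exp.2 ?_
      have h7 : 2 * k * Real.log 2 ≤
          2 * ((1 + 4 * (q0 : ℝ)) + (th + 4 * q0 * thp) * u) * Real.log 2 := by gcongr
      linarith
    have h7 : Real.exp η ≤ 2 := by linarith
    have h8 : 0 < Real.exp η := Real.exp_pos η
    have h9 : Real.exp η / (1 - p) * p ≤ 3 * η := by
      have h10 : Real.exp η / (1 - p) ≤ 3 := by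
        rw [div_le_iff₀ (by linarith)]
        linarith
      exact mul_le_mul h10 hpη hp0.le (by norm_num)
    have h10 : Real.exp η / (1 - p) * p + 4 ^ k * (2 * Real.exp (-((e ^ (-(th / 128))) ^ 2 / 7))) +
        η ≤ 5 * η := by linarith
    have h11 : 0 ≤ Real.exp η / (1 - p) * p + 4 ^ k * (2 * Real.exp
        (-((e ^ (-(th / 128))) ^ 2 / 7))) + η := by
      have : 0 < 1 - p := by linarith
      positivity
    have h12 := mul_le_mul h7 h10 h11 (by norm_num)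
    linarith
  · have h5 : Real.exp η / (1 - 20 * η) ≤ 1 + 60 * η := by
      rw [div_le_iff₀ (by linarith)]
      nlinarith
    have h6 : 200 * η ≤ e ^ (1 / 17 : ℝ) := by
      have e1 : η = e ^ (1 / 16 - 1 / 17 : ℝ) * e ^ (1 / 17 : ℝ) := by
        rw [hηe, ← Real.rpow_add he.1]
        norm_num
      have h7 : 0 < e ^ (1 / 17 : ℝ) := Real.rpow_pos_of_pos he.1 _
      rw [e1]
      nlinarith
    linarith

end

end Vale.Agent.P159.H415
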