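import Vale.Agent.P159.H415.EvF
import Vale.Agent.P159.H316.Yb3

/-!
P159 (helper415), persistence of the zero background numbers relative to the activity (`PERS` of
helper316's contract), part 1: the numbers, and all tori of the new level from the base torus.
-/

set_option linter.unusedSectionVars false

namespace Vale.Agent.P159.H415

open Filter Topology
open Vale.Agent.P159.H864 (yt)
open Vale.Agent.P159.H972 (lg tn Par Good)
open Vale.Agent.P159.H801 (Ev PS FLC)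

noncomputable section

/-- lengths and powers in a full window -/
lemma pn1 {th thp : ℝ} (h1 : 0 < th) (h2 : 1000 * th ≤ thp) :
    ∀ᶠ e in 𝓝[>] (0 : ℝ), ∀ d : ℕ, lg thp e ≤ d → d ≤ 4 * lg thp e →
      lg th e ≤ d / 10 ∧ (4 : ℝ) ^ (d / 10) ≤ 2 * e ^ (-(4 / 5 * thp)) ∧
        (2 : ℝ) ^ (-((d : ℝ) / 20)) ≤ e ^ (thp / 20) ∧ 16 ≤ d := by
  filter_upwards [ev_half, ev_lgb (100 / thp), ev_lgb (100 / th)] with e he g1 g2 d hd1 hd2
  have he1 : e ≤ 1 := he.2.trans (by norm_num)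
  have hthp : 0 < thp := by linarith
  have l1 := lg_ge' thp e
  have l2 := lg_le' hthp.le he.1 he1
  have l3 := lg_le' h1.le he.1 he1
  obtain ⟨u, hu⟩ : ∃ u : ℝ, u = Real.logb 2 (1 / e) := ⟨_, rfl⟩
  rw [← hu] at g1 g2 l1 l2 l3
  have k1 : 100 ≤ thp * u := by
    rw [div_le_iff₀ hthp] at g1
    linarith
  have k2 : 100 ≤ th * u := by
    rw [div_le_iff₀ h1] at g2
    linarith
  have u0 : 0 ≤ u := by
    rw [hu]
    exact Real.logb_nonneg one_lt_two ((le_div_iff₀ he.1).2 (by linarith))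
  have k3 : 1000 * th * u ≤ thp * u := mul_le_mul_of_nonneg_right h2 u0
  have pw : ∀ c : ℝ, e ^ (-c) = (2 : ℝ) ^ (c * u) := fun c => by rw [hu, two_rpow_logb he.1]
  have pw' : ∀ c : ℝ, e ^ c = (2 : ℝ) ^ (-(c * u)) := fun c => by
    rw [← neg_neg c, pw (-c)]
    congr 1
    ring
  have hdR1 : (lg thp e : ℝ) ≤ d := by exact_mod_cast hd1
  have hdR2 : (d : ℝ) ≤ 4 * lg thp e := by exact_mod_cast hd2
  have hdiv : ((d / 10 : ℕ) : ℝ) ≤ (d : ℝ) / 10 := Nat.cast_div_le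
  have hdiv2 : (d : ℝ) / 10 - 1 ≤ ((d / 10 : ℕ) : ℝ) := by
    have h3 : d ≤ 10 * (d / 10) + 9 := by omega
    have h4 : (d : ℝ) ≤ 10 * ((d / 10 : ℕ) : ℝ) + 9 := by exact_mod_cast h3
    linarith
  refine ⟨?_, ?_, ?_, ?_⟩
  · have : (lg th e : ℝ) ≤ ((d / 10 : ℕ) : ℝ) := by linarith
    exact_mod_cast this
  · have h3 : (4 : ℝ) ^ (d / 10) = (2 : ℝ) ^ (2 * ((d / 10 : ℕ) : ℝ)) := by
      rw [Real.rpow_mul (by norm_num), Real.rpow_natCast]
      norm_num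
    rw [h3, pw]
    have h4 : (2 : ℝ) * 2 ^ (4 / 5 * thp * u) = (2 : ℝ) ^ (1 + 4 / 5 * thp * u) := by
      rw [Real.rpow_add (by norm_num), Real.rpow_one]
    rw [h4]
    refine Real.rpow_le_rpow_of_exponent_le (by norm_num) ?_
    linarith
  · rw [pw']
    refine Real.rpow_le_rpow_of_exponent_le (by norm_num) ?_
    linarith
  · have : ((16 : ℕ) : ℝ) ≤ (d : ℝ) := by
      push_cast
      linarith
    exact_mod_cast this

/-- the sizes of one step -/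
lemma pn2 {th thp κ C : ℝ} (h1 : 0 < th) (hκ : 0 ≤ κ) (h2 : 1000 * (κ + 3) * th ≤ thp)
    (h3 : thp ≤ 1 / 100) (hC : 0 < C) :
    ∀ᶠ e in 𝓝[>] (0 : ℝ), 32 * e ^ (-(4 / 5 * thp)) * (e ^ (-(thp / 20)) *
        (e ^ (-(1 / 100 : ℝ)) * e ^ (20 / 39 : ℝ))) ≤ 1 ∧
      2 * e ^ (-(4 / 5 * thp)) * e ^ (-(thp / 20)) * e ^ (8 * thp) ≤ 1 ∧
      4 * (e ^ (-th) * e ^ (-(κ * th))) + e ^ (-(κ * th)) + 1 ≤ e ^ (-((κ + 2) * th)) ∧
      e ^ (-((κ + 2) * th)) * (e ^ (-(1 / 100 : ℝ)) * e ^ (20 / 39 : ℝ)) ≤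
        4 * (e / 2) ^ (1 / 4 : ℝ) ∧
      C * e ^ (-((κ + 2) * th)) ≤ 1 / 2 * e ^ (-(thp / 400)) := by
  have hthp : 0 < thp := by nlinarith
  have hκth : κ * th ≤ thp / 1000 := by nlinarith
  have hth : th ≤ thp / 3000 := by nlinarith
  filter_upwards [ev_half, ev_pow (show (0 : ℝ) < 1 / 32 by norm_num)
      (show (0 : ℝ) < 1 / 4 by norm_num), ev_pow (show (0 : ℝ) < 1 / 2 by norm_num) hthp,
      ev_const 6 h1, ev_const 4 h1, ev_const (2 * C) (show (0 : ℝ) < thp / 2000 by positivity)]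
    with e he g1 g2 g3 g4 g5
  have he0 := he.1
  have he1 : e ≤ 1 := he.2.trans (by norm_num)
  have q : ∀ a b : ℝ, e ^ a * e ^ b = e ^ (a + b) := fun a b => (Real.rpow_add he0 a b).symm
  have dec : ∀ a b : ℝ, b ≤ a → e ^ a ≤ e ^ b := fun a b h =>
    Real.rpow_le_rpow_of_exponent_ge he0 he1 h
  refine ⟨?_, ?_, ?_, ?_, ?_⟩
  · rw [mul_assoc, q, q, q]
    have := dec (-(4 / 5 * thp) + (-(thp / 20) + (-(1 / 100) + 20 / 39))) (1 / 4) (by linarith)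
    linarith
  · rw [mul_assoc, mul_assoc, q, q]
    have := dec (-(4 / 5 * thp) + (-(thp / 20) + 8 * thp)) thp (by linarith)
    linarith
  · have e1 : e ^ (-((κ + 2) * th)) = e ^ (-th) * (e ^ (-th) * e ^ (-(κ * th))) := by
      rw [q, q]
      congr 1
      ring
    rw [e1]
    have p1 : 1 ≤ e ^ (-th) := by linarith
    have p2 : 1 ≤ e ^ (-(κ * th)) :=
      Real.one_le_rpow_of_pos_of_le_one_of_nonpos he0 he1 (by nlinarith)
    obtain ⟨X, hX⟩ : ∃ X : ℝ, X = e ^ (-th) * e ^ (-(κ * th)) := ⟨_, rfl⟩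
    rw [← hX]
    have p3 : e ^ (-(κ * th)) ≤ X := by
      rw [hX]
      exact le_mul_of_one_le_left (by linarith) p1
    nlinarith
  · rw [q, q]
    have h5 : e ^ (-((κ + 2) * th) + (-(1 / 100) + 20 / 39)) ≤ e ^ (1 / 4 : ℝ) :=
      dec _ _ (by nlinarith)
    have h6 : e ^ (1 / 4 : ℝ) = (e / 2) ^ (1 / 4 : ℝ) * 2 ^ (1 / 4 : ℝ) := by
      rw [← Real.mul_rpow (by positivity) (by norm_num)]
      congr 1
      ring
    have h7 : (2 : ℝ) ^ (1 / 4 : ℝ) ≤ 4 := by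
      calc (2 : ℝ) ^ (1 / 4 : ℝ) ≤ 2 ^ (1 : ℝ) :=
            Real.rpow_le_rpow_of_exponent_le (by norm_num) (by norm_num)
        _ ≤ 4 := by norm_num
    have h8 : 0 ≤ (e / 2) ^ (1 / 4 : ℝ) := by positivity
    nlinarith
  · have e1 : e ^ (-(thp / 400)) = e ^ (-(thp / 2000)) * e ^ (-(thp / 500)) := by
      rw [q]
      congr 1
      ring
    have h5 : e ^ (-((κ + 2) * th)) ≤ e ^ (-(thp / 500)) := dec _ _ (by nlinarith)
    have p1 : 0 < e ^ (-(thp / 500)) := Real.rpow_pos_of_pos he0 _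
    have p2 : 0 < e ^ (-((κ + 2) * th)) := Real.rpow_pos_of_pos he0 _
    rw [e1]
    calc C * e ^ (-((κ + 2) * th)) ≤ C * e ^ (-(thp / 500)) := by gcongr
      _ ≤ 1 / 2 * (e ^ (-(thp / 2000)) * e ^ (-(thp / 500))) := by nlinarith

/-- the exponential remainder -/
lemma pn3 {th thp c C c1 : ℝ} (h1 : 0 < th) (hthp : 0 < thp) (hc : 0 < c) (hC : 0 < C)
    (h2 : c1 ≤ th / 2) :
    ∀ᶠ e in 𝓝[>] (0 : ℝ), ∀ (e' y z : ℝ), 0 < e' → e' ≤ e ^ (19 / 20 : ℝ) → 0 < y →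
      Real.log (1 / y) ≤ e ^ (-c1) → e ^ (1 / 100 : ℝ) * y ≤ z →
      C * Real.exp (-(c * e' ^ (-th))) ≤ 1 / 2 * (e ^ (-(thp / 400)) * z) := by
  filter_upwards [ev_half, ev_const (2 / c) (show (0 : ℝ) < th / 4 by positivity),
    ev_log (Real.log (2 * C)) (1 / 100 * Real.log 2) (show (0 : ℝ) < 7 / 10 * th by positivity)]
    with e he g1 g2 e' y z he' hee hy hyl hyz
  have he0 := he.1
  have he1 : e ≤ 1 := he.2.trans (by norm_num)
  have h5 : e ^ (-(19 / 20 * th)) ≤ e' ^ (-th) := by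
    have h6 : (e ^ (19 / 20 : ℝ)) ^ (-th) ≤ e' ^ (-th) :=
      Real.rpow_le_rpow_of_nonpos he' hee (by linarith)
    rw [← Real.rpow_mul he0.le] at h6
    calc e ^ (-(19 / 20 * th)) = e ^ (19 / 20 * -th) := by congr 1; ring
      _ ≤ _ := h6
  have h7 : e ^ (-c1) ≤ e ^ (-(7 / 10 * th)) :=
    Real.rpow_le_rpow_of_exponent_ge he0 he1 (by linarith)
  have h8 : 2 * e ^ (-(7 / 10 * th)) ≤ c * e ^ (-(19 / 20 * th)) := by
    have h9 : e ^ (-(19 / 20 * th)) = e ^ (-(th / 4)) * e ^ (-(7 / 10 * th)) := by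
      rw [← Real.rpow_add he0]
      congr 1
      ring
    have p1 : 0 < e ^ (-(7 / 10 * th)) := Real.rpow_pos_of_pos he0 _
    rw [h9]
    rw [div_le_iff₀ hc] at g1
    nlinarith
  have h10 : c * e ^ (-(19 / 20 * th)) ≤ c * e' ^ (-th) := by gcongr
  -- logarithms
  have hz : 0 < z := lt_of_lt_of_le (by positivity) hyz
  have hl1 : Real.log e = -(Real.log 2 * Real.logb 2 (1 / e)) := by
    rw [Real.logb, one_div, Real.log_inv]
    have := (Real.log_pos one_lt_two).ne'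
    field_simp
  have h11 : 1 / 100 * Real.log e + Real.log y ≤ Real.log z := by
    have := Real.log_le_log (by positivity) hyz
    rwa [Real.log_mul (Real.rpow_pos_of_pos he0 _).ne' hy.ne', Real.log_rpow he0] at this
  have h12 : -Real.log y ≤ e ^ (-(7 / 10 * th)) := by
    rw [one_div, Real.log_inv] at hyl
    linarith
  have h13 : Real.log (2 * C) - c * e' ^ (-th) ≤ Real.log z := by
    rw [hl1] at h11
    linarith
  have h14 : 2 * C * Real.exp (-(c * e' ^ (-th))) ≤ z := by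
    have : Real.log (2 * C * Real.exp (-(c * e' ^ (-th)))) ≤ Real.log z := by
      rw [Real.log_mul (by positivity) (Real.exp_pos _).ne', Real.log_exp]
      linarith
    exact (Real.log_le_log_iff (by positivity) hz).1 this
  have h15 : 1 ≤ e ^ (-(thp / 400)) :=
    Real.one_le_rpow_of_pos_of_le_one_of_nonpos he0 he1 (by linarith)
  nlinarith

/-- **all tori of the new level from its base torus**, relative to the activity -/
theorem ev_core {b1 : ℝ} (hb1 : 0 < b1) (b2 pf : ℝ) (hpf : 1 / 4 ≤ pf) (Q : ℕ) (κ : ℝ)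
    (hκ : 0 ≤ κ) :
    Ev b1 b2 pf Q fun P c1 => ∀ (b : ℝ) (a : ℕ → ℝ), b1 ≤ b → b ≤ b2 → FLC P b a →
      Tendsto a atTop (𝓝 (Real.pi / 2)) → ∀ᶠ m in atTop, ∀ (e e' y z : ℝ), 0 < e → e ≤ P.es →
        e / 2 ≤ e' → e' ≤ e ^ (19 / 20 : ℝ) → e' ≤ P.es → Good P b m e' → 0 < y →
        y ≤ e ^ (20 / 39 : ℝ) → Real.log (1 / y) ≤ e ^ (-c1) → e ^ (1 / 100 : ℝ) * y ≤ z →
        z ≤ e ^ (-(1 / 100 : ℝ)) * y →
        yt (2 ^ (m + P.kE e')) b (4 * tn m) ≤ e ^ (-((κ + 2) * P.th)) * z →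
        ∀ r, m + P.kE e' ≤ r → yt (2 ^ r) b (4 * tn m) ≤ e ^ (-(P.thp / 400)) * z := by
  obtain ⟨W₀, h⟩ := H316.good_core hb1 b2
  refine H801.Ev.of ⟨W₀, fun W hW => ?_⟩
  obtain ⟨c, C, hc, hC, h⟩ := h W hW
  refine ⟨1, one_pos, fun ys _ _ => ⟨0, fun X0 _ => ⟨1, one_pos,
    fun x1 _ _ => ⟨1 / 100, by norm_num, fun thp ht1 ht2 =>
    ⟨min (1 / 32) (thp / (1000 * (κ + 3))), lt_min (by norm_num) (by positivity),
    fun th hs1 hs2 => ⟨0, fun C0 _ => ⟨th / 2, by positivity, fun c1 hc1 hc2 => ?_⟩⟩⟩⟩⟩⟩⟩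
  obtain ⟨es, hes, -, h⟩ := h th hs1 (hs2.trans (min_le_left _ _))
  have hthk : 1000 * (κ + 3) * th ≤ thp := by
    have h3 := hs2.trans (min_le_right _ _)
    rw [le_div_iff₀ (by positivity)] at h3
    linarith
  obtain ⟨E, hE, hE1, hN⟩ := le_of_ev ((pn2 hs1 hκ hthk ht2 hC).and
    (pn3 (c1 := c1) hs1 ht1 hc hC hc2))
  refine ⟨min es E, lt_min hes hE, fun P hP b a hbb1 hbb2 hfl ha => ?_⟩
  have hesE : P.es ≤ min es E := hP.ees
  filter_upwards [h P b a hP.adm hP.eth (hesE.trans (min_le_left _ _)) (by rw [hP.epf]; exact hpf)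
    hbb1 hbb2 hfl ha] with m hm
  intro e e' y z he hes2 hee hee' hes' hG hy hye hyl hyz hzy hyt r hr
  obtain ⟨⟨-, -, -, n4, n5⟩, n6⟩ := hN e he (hes2.trans (hesE.trans (min_le_right _ _)))
  have he' : 0 < e' := by linarith
  have hz : 0 < z := lt_of_lt_of_le (mul_pos (Real.rpow_pos_of_pos he _) hy) hyz
  rw [hP.eth] at hyt
  rw [hP.ethp]
  have hp : 0 < e ^ (-((κ + 2) * th)) := Real.rpow_pos_of_pos he _
  have h1 : e ^ (-((κ + 2) * th)) * z ≤ 4 * e' ^ (1 / 4 : ℝ) := by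
    have h2 : z ≤ e ^ (-(1 / 100 : ℝ)) * e ^ (20 / 39 : ℝ) :=
      hzy.trans (mul_le_mul_of_nonneg_left hye (Real.rpow_pos_of_pos he _).le)
    have h3 : (e / 2) ^ (1 / 4 : ℝ) ≤ e' ^ (1 / 4 : ℝ) :=
      Real.rpow_le_rpow (by positivity) hee (by norm_num)
    calc e ^ (-((κ + 2) * th)) * z
        ≤ e ^ (-((κ + 2) * th)) * (e ^ (-(1 / 100 : ℝ)) * e ^ (20 / 39 : ℝ)) :=
          mul_le_mul_of_nonneg_left h2 hp.le
      _ ≤ 4 * (e / 2) ^ (1 / 4 : ℝ) := n4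
      _ ≤ _ := by linarith
  have h4 := (hm e' he' hes' hG _ (mul_pos hp hz) h1 hyt e' le_rfl hes' r hr).2
  have h5 := n6 e' y z he' hee' hy hyl hyz
  have h6 : C * (e ^ (-((κ + 2) * th)) * z) ≤ 1 / 2 * (e ^ (-(thp / 400)) * z) := by
    have := mul_le_mul_of_nonneg_right n5 hz.le
    linarith
  calc yt (2 ^ r) b (4 * tn m) ≤ _ := h4
    _ = C * (e ^ (-((κ + 2) * th)) * z) + C * Real.exp (-(c * e' ^ (-th))) := by ring
    _ ≤ _ := by linarith

end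

end Vale.Agent.P159.H415
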