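import Vale.Agent.P159.H415.Grad

/-!
P159, module CH2 (helper415), part 6: **recursion of the charges `|q| ≥ 2`**:
`ch2' ≤ 2 ω² + |S| / (4 π) (5/2 (ch2 + 2 ω²) (exp (-8 π²/κ) + θ + 2 δ) + ε)`,
`ch2` at the double mass `2 t` before the window, `ch2'` after it. Also for every other set of
charges (`window_nq`).
-/

namespace Vale.Agent.P159.H415

open MeasureTheory ProbabilityTheory Finset
open Vale.Agent.P159.H37 (gau Zn Un ZM Zq wM)
open Vale.Agent.P159.H764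
open Vale.Agent.P159.H896 (ph continuous_ph norm_ph Chn WM cN)
open Vale.Agent.P159.H43 (ch2 nm hat Phq)
open Vale.Agent.P159.TM.H870 (gr Zr lin)
open Vale.Agent.P159.TM.H104 (EM dU U)

noncomputable section

/-- Bessel on the circle, bound on `[0,1]` only -/
lemma nq_bessel' {f : ℝ → ℝ} (hf : Continuous f) {B : ℝ} (hB : 0 ≤ B)
    (hb : ∀ s ∈ Set.Icc (0 : ℝ) 1, |f s| ≤ B) (Q : Finset ℤ) :
    nq Q (fun q => ∫ s in (0 : ℝ)..1, (f s : ℂ) * ph q s) ≤ B := by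
  have h1 := H43.hasSum_hat hf
  have h2 : ∑ q ∈ Q, ‖hat f q‖ ^ 2 ≤ nm f ^ 2 :=
    sum_le_hasSum Q (fun q _ => sq_nonneg _) h1
  have h3 : nm f ≤ B := H43.nm_le hf hB fun u hu => hb u hu
  exact (nq_le_iff hB).2 (h2.trans (pow_le_pow_left₀ (H43.nm_nonneg f) h3 2))

section model

variable {V : Type*} [Fintype V] {w : (V → ℤ) → ℝ} {Wb : ℝ}
variable {I I' : Type*} [Fintype I] [Fintype I']

variable (hw0 : ∀ h, 0 ≤ w h) (hwb : ∀ h, w h ≤ Wb) (hp : ∃ h, 0 < w h)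
  (hs : ∀ h, w (h + 1) = w h)

include hw0 hwb hp

lemma nq_Dh_sub {t ε c₀ : ℝ} (ht : 0 < t) (hε : 0 ≤ ε) {Q : Finset ℤ} (hQ : ∀ q ∈ Q, q ≠ 0)
    (g F F' : V → ℝ)
    (h : ∀ s ∈ Set.Icc (0 : ℝ) 1,
      |dU w (cm t) (shc F s) g - dU w (cm t) (shc F' s) g - c₀| ≤ ε) :
    nq Q (fun q => Dh w t q g F - Dh w t q g F') ≤ ε := by
  have hc : ∀ F : V → ℝ, Continuous fun s : ℝ => dU w (cm t) (shc F s) g := fun F =>
    (continuous_dU' hw0 hwb hp ht g).comp (continuous_shc F)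
  have e : ∀ q ∈ Q, Dh w t q g F - Dh w t q g F' = ∫ s in (0 : ℝ)..1,
      ((dU w (cm t) (shc F s) g - dU w (cm t) (shc F' s) g - c₀ : ℝ) : ℂ) * ph q s := by
    intro q hq
    have i1 : ∀ F : V → ℝ, IntervalIntegrable
        (fun s : ℝ => (dU w (cm t) (shc F s) g : ℂ) * ph q s) volume 0 1 := fun F =>
      ((cont_s_dU hw0 hwb hp ht F g).mul (continuous_ph q)).intervalIntegrable _ _
    have i2 : IntervalIntegrable (fun s : ℝ => (c₀ : ℂ) * ph q s) volume 0 1 :=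
      (continuous_const.mul (continuous_ph q)).intervalIntegrable _ _
    have i3 : ∫ s in (0 : ℝ)..1, (c₀ : ℂ) * ph q s = 0 := by
      rw [intervalIntegral.integral_const_mul, int_ph (hQ q hq), mul_zero]
    unfold Dh
    rw [← intervalIntegral.integral_sub (i1 F) (i1 F'), ← sub_zero (∫ s in (0 : ℝ)..1,
      ((dU w (cm t) (shc F s) g : ℂ) * ph q s - (dU w (cm t) (shc F' s) g : ℂ) * ph q s)),
      ← i3, ← intervalIntegral.integral_sub ((i1 F).sub (i1 F')) i2]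
    refine intervalIntegral.integral_congr fun s _ => ?_
    push_cast
    ring
  rw [nq_congr e]
  exact nq_bessel' (((hc F).sub (hc F')).sub continuous_const) hε h Q

include hs

/-- one local term, all the charges of `Q` together -/
lemma one_term_nq {t b : ℝ} (ht : 0 < t) (hb0 : 0 ≤ b)
    {A : Matrix V I ℝ} {A' : Matrix V I' ℝ} {R : (V → ℝ) → ℝ} {K : ℝ} (hR : Ref w t A A' R K)
    {θ : ℝ} (hθ : ∫ z, Real.exp (R (A'.mulVec z)) ∂(gau I') ≤ 1 + θ)
    {Q : Finset ℤ} {n : ℝ} (hn : 0 < n) (hQ : ∀ q ∈ Q, n ≤ |(q : ℝ)|)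
    {g : V → ℝ} (hg : ∀ F : V → ℝ, nq Q (fun q => Dh w t q g F) ≤ b)
    {B : Set V} {cut : (V → ℝ) → V → ℝ} (hcut : Cut B cut)
    {u : I' → ℝ} (hu : ∀ x ∈ B, A'.mulVec u x = 1) (hu0 : 0 < ∑ i, u i ^ 2) {κ : ℝ}
    (hκ : ∑ i, u i ^ 2 ≤ κ) {good : Set (V → ℝ)} (hgm : MeasurableSet good) {ε δ : ℝ}
    (hε : 0 ≤ ε)
    (hloc : ∀ F ∈ good, ∃ c₀ : ℝ, ∀ s ∈ Set.Icc (0 : ℝ) 1,
      |dU w (cm t) (shc F s) g - dU w (cm t) (shc (cut F) s) g - c₀| ≤ ε)
    (hbad : ∫ z, goodᶜ.indicator (fun F => Nt w t F) (A.mulVec z) ∂(gau I) ≤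
      δ * ∫ z, Nt w t (A.mulVec z) ∂(gau I)) :
    nq Q (fun q => ∫ z, Dh w t q g (A.mulVec z) * (Nt w t (A.mulVec z) : ℂ) ∂(gau I)) ≤
      (b * (Real.exp (-(2 * Real.pi ^ 2 * n ^ 2 / κ)) + θ + 2 * δ) + ε) *
        ∫ z, Nt w t (A.mulVec z) ∂(gau I) := by
  set N0 := ∫ z, Nt w t (A.mulVec z) ∂(gau I) with hN0
  have hN0p : 0 < N0 := int_Nt_pos hw0 hwb hp ht A
  have hκ0 : 0 < κ := lt_of_lt_of_le hu0 hκ
  have hDm : ∀ q, Measurable (Dh w t q g) := fun q => (continuous_Dh hw0 hwb hp ht q g).measurable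
  have hDq : ∀ q ∈ Q, ∀ F, ‖Dh w t q g F‖ ≤ b := by
    intro q hq F
    have h1 : ‖Dh w t q g F‖ ^ 2 ≤ ∑ q ∈ Q, ‖Dh w t q g F‖ ^ 2 :=
      single_le_sum (f := fun q => ‖Dh w t q g F‖ ^ 2) (fun _ _ => sq_nonneg _) hq
    have h2 := (nq_le_iff hb0).1 (hg F)
    exact (abs_le_of_sq_le_sq' (h1.trans h2) hb0).2
  set L : ℤ → (V → ℝ) → ℂ := fun q F => Dh w t q g (cut F) with hL
  have hLm : ∀ q, Measurable (L q) := fun q => (hDm q).comp hcut.meas
  have hLb : ∀ q ∈ Q, ∀ F, ‖L q F‖ ≤ b := fun q hq F => hDq q hq _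
  have hLn : ∀ F, nq Q (fun q => L q F) ≤ b := fun F => hg (cut F)
  -- splitting
  have i1 : ∀ q ∈ Q, Integrable (fun z => Dh w t q g (A.mulVec z) *
      (Nt w t (A.mulVec z) : ℂ)) (gau I) := fun q hq =>
    int_mul_Nt hw0 hwb hp ht A (hDm q) (hDq q hq)
  have i2 : ∀ q ∈ Q, Integrable (fun z => L q (A.mulVec z) *
      (Nt w t (A.mulVec z) : ℂ)) (gau I) := fun q hq =>
    int_mul_Nt hw0 hwb hp ht A (hLm q) (hLb q hq)
  have e1 : ∀ q ∈ Q, ∫ z, Dh w t q g (A.mulVec z) * (Nt w t (A.mulVec z) : ℂ) ∂(gau I) =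
      (∫ z, (Dh w t q g (A.mulVec z) - L q (A.mulVec z)) * (Nt w t (A.mulVec z) : ℂ) ∂(gau I)) +
        ∫ z, L q (A.mulVec z) * (Nt w t (A.mulVec z) : ℂ) ∂(gau I) := by
    intro q hq
    have : ∀ z : I → ℝ, (Dh w t q g (A.mulVec z) - L q (A.mulVec z)) *
        (Nt w t (A.mulVec z) : ℂ) = Dh w t q g (A.mulVec z) * (Nt w t (A.mulVec z) : ℂ) -
          L q (A.mulVec z) * (Nt w t (A.mulVec z) : ℂ) := fun z => by ring
    simp_rw [this]
    rw [integral_sub (i1 q hq) (i2 q hq)]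
    ring
  have hind : Integrable (fun z => goodᶜ.indicator (fun F => Nt w t F) (A.mulVec z)) (gau I) := by
    refine (int_Nt hw0 hwb hp ht A).mono' ?_ (Filter.Eventually.of_forall fun z => ?_)
    · exact ((continuous_Nt hw0 hwb hp ht).measurable.indicator hgm.compl).comp
        (meas_mulVec A) |>.aestronglyMeasurable
    · by_cases hz : A.mulVec z ∈ goodᶜ
      · rw [Set.indicator_of_mem hz, Real.norm_eq_abs, abs_of_pos (Nt_pos hw0 hwb hp ht _)]
      · rw [Set.indicator_of_notMem hz, norm_zero]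
        exact (Nt_pos hw0 hwb hp ht _).le
  have b1 : nq Q (fun q => ∫ z, (Dh w t q g (A.mulVec z) - L q (A.mulVec z)) *
      (Nt w t (A.mulVec z) : ℂ) ∂(gau I)) ≤ (ε + 2 * b * δ) * N0 := by
    have h1 := nq_integral (P := gau I) (Q := Q)
      (f := fun q z => (Dh w t q g (A.mulVec z) - L q (A.mulVec z)) * (Nt w t (A.mulVec z) : ℂ))
      (b := fun z => ε * Nt w t (A.mulVec z) +
          2 * b * goodᶜ.indicator (fun F => Nt w t F) (A.mulVec z)) (fun q hq => by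
        have := (i1 q hq).sub (i2 q hq)
        refine this.congr (Filter.Eventually.of_forall fun z => ?_)
        simp only [Pi.sub_apply]
        ring)
      (((int_Nt hw0 hwb hp ht A).const_mul ε).add (hind.const_mul _)) (fun z => ?_)
    · refine h1.trans ?_
      rw [integral_add ((int_Nt hw0 hwb hp ht A).const_mul ε) (hind.const_mul _),
        integral_const_mul, integral_const_mul]
      have := mul_le_mul_of_nonneg_left hbad (by positivity : 0 ≤ 2 * b)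
      calc _ ≤ ε * N0 + 2 * b * (δ * N0) := by linarith
        _ = _ := by ring
    · have hNp := Nt_pos hw0 hwb hp ht (A.mulVec z)
      have h5 : nq Q (fun q => (Dh w t q g (A.mulVec z) - L q (A.mulVec z)) *
          (Nt w t (A.mulVec z) : ℂ)) = Nt w t (A.mulVec z) *
          nq Q (fun q => Dh w t q g (A.mulVec z) - L q (A.mulVec z)) := by
        have h6 := nq_mul Q (Nt w t (A.mulVec z) : ℂ)
          fun q => Dh w t q g (A.mulVec z) - L q (A.mulVec z)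
        rw [Complex.norm_real, Real.norm_eq_abs, abs_of_pos hNp] at h6
        rw [← h6]
        exact nq_congr fun q _ => mul_comm _ _
      rw [h5]
      by_cases hz : A.mulVec z ∈ good
      · obtain ⟨c₀, hc₀⟩ := hloc _ hz
        have h2 : nq Q (fun q => Dh w t q g (A.mulVec z) - L q (A.mulVec z)) ≤ ε :=
          nq_Dh_sub hw0 hwb hp ht hε (fun q hq h0 => by
            have h9 := hQ q hq
            rw [h0] at h9
            simp at h9
            linarith) g _ _ hc₀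
        rw [Set.indicator_of_notMem (fun h' : A.mulVec z ∈ goodᶜ => h' hz), mul_zero, add_zero,
          mul_comm]
        exact mul_le_mul_of_nonneg_right h2 hNp.le
      · have h2 : nq Q (fun q => Dh w t q g (A.mulVec z) - L q (A.mulVec z)) ≤ 2 * b := by
          refine (nq_sub Q _ _).trans ?_
          linarith [hg (A.mulVec z), hLn (A.mulVec z)]
        rw [Set.indicator_of_mem (show A.mulVec z ∈ goodᶜ from hz), mul_comm]
        have := mul_le_mul_of_nonneg_right h2 hNp.le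
        nlinarith [mul_nonneg hε hNp.le]
  -- the local term
  have hθ0 : 0 ≤ θ := by
    have h3 : (1 : ℝ) ≤ ∫ z, Real.exp (R (A'.mulVec z)) ∂(gau I') := by
      have : ∫ _z : I' → ℝ, (1 : ℝ) ∂(gau I') = 1 := by simp
      rw [← this]
      exact integral_mono (integrable_const 1) hR.Ri fun z => Real.one_le_exp (hR.R0 _)
    linarith
  have b2 : nq Q (fun q => ∫ z, L q (A.mulVec z) * (Nt w t (A.mulVec z) : ℂ) ∂(gau I)) ≤
      b * (Real.exp (-(2 * Real.pi ^ 2 * n ^ 2 / κ)) + θ) * N0 := by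
    have hK0 := hR.K0
    have hN0K : K ≤ N0 := by
      have h1 := hR.eq (fun _ => 1) measurable_const ⟨1, fun _ => by simp⟩
      simp only [one_mul] at h1
      rw [integral_complex_ofReal, integral_complex_ofReal, ← Complex.ofReal_mul] at h1
      have h2 : N0 = K * ∫ z, Real.exp (R (A'.mulVec z)) ∂(gau I') := by exact_mod_cast h1
      have h3 : (1 : ℝ) ≤ ∫ z, Real.exp (R (A'.mulVec z)) ∂(gau I') := by
        have : ∫ _z : I' → ℝ, (1 : ℝ) ∂(gau I') = 1 := by simp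
        rw [← this]
        exact integral_mono (integrable_const 1) hR.Ri fun z => Real.one_le_exp (hR.R0 _)
      rw [h2]
      nlinarith
    have j1 : ∀ q ∈ Q, Integrable (fun z => L q (A'.mulVec z)) (gau I') := fun q hq =>
      Integrable.mono' (integrable_const b) ((hLm q).comp (meas_mulVec A')).aestronglyMeasurable
        (Filter.Eventually.of_forall fun z => hLb q hq _)
    have j3 : Integrable (fun z => Real.exp (R (A'.mulVec z)) - 1) (gau I') :=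
      hR.Ri.sub (integrable_const 1)
    have j2 : ∀ q ∈ Q, Integrable (fun z => L q (A'.mulVec z) *
        ((Real.exp (R (A'.mulVec z)) - 1 : ℝ) : ℂ)) (gau I') := fun q hq =>
      (j3.ofReal).bdd_mul (c := b) (f := fun z => L q (A'.mulVec z))
        ((hLm q).comp (meas_mulVec A')).aestronglyMeasurable
        (Filter.Eventually.of_forall fun z => hLb q hq _)
    have e2 : ∀ q ∈ Q, ∫ z, L q (A.mulVec z) * (Nt w t (A.mulVec z) : ℂ) ∂(gau I) =
        (K : ℂ) * ((∫ z, L q (A'.mulVec z) ∂(gau I')) +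
          ∫ z, L q (A'.mulVec z) * ((Real.exp (R (A'.mulVec z)) - 1 : ℝ) : ℂ) ∂(gau I')) := by
      intro q hq
      rw [hR.eq (L q) (hLm q) ⟨b, hLb q hq⟩, ← integral_add (j1 q hq) (j2 q hq)]
      congr 1
      refine integral_congr_ae (Filter.Eventually.of_forall fun z => ?_)
      simp only
      push_cast
      ring
    have c1 : nq Q (fun q => ∫ z, L q (A'.mulVec z) ∂(gau I')) ≤
        Real.exp (-(2 * Real.pi ^ 2 * n ^ 2 / κ)) * b := by
      set G := Real.exp (-(2 * Real.pi ^ 2 * n ^ 2 / κ)) with hG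
      have h3 : nq Q (fun q => ∫ z, ((‖L q (A'.mulVec z)‖ : ℝ) : ℂ) ∂(gau I')) ≤ b := by
        have h4 := nq_integral (P := gau I') (Q := Q)
          (f := fun q z => ((‖L q (A'.mulVec z)‖ : ℝ) : ℂ)) (b := fun _ => b)
          (fun q hq => (j1 q hq).norm.ofReal) (integrable_const _) (fun z => by
            have h5 : nq Q (fun q => ((‖L q (A'.mulVec z)‖ : ℝ) : ℂ)) =
                nq Q (fun q => L q (A'.mulVec z)) := by
              unfold nq
              simp only [Complex.norm_real, norm_norm]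
            rw [h5]
            exact hLn _)
        simpa using h4
      calc nq Q (fun q => ∫ z, L q (A'.mulVec z) ∂(gau I'))
          ≤ nq Q (fun q => (G : ℂ) * ∫ z, ((‖L q (A'.mulVec z)‖ : ℝ) : ℂ) ∂(gau I')) := by
            refine nq_mono fun q hq => ?_
            have h1 := gain_le (hcut.chg (Dh_chg hw0 hwb hp hs ht q g))
              (hcut.dep _) (hLm q) 0 A' hu0 hu
            simp only [zero_add] at h1
            rw [norm_mul, Complex.norm_real, Real.norm_eq_abs, abs_of_pos (Real.exp_pos _),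
              integral_complex_ofReal, Complex.norm_real, Real.norm_eq_abs,
              abs_of_nonneg (integral_nonneg fun z => norm_nonneg _)]
            refine h1.trans (mul_le_mul_of_nonneg_right ?_
              (integral_nonneg fun z => norm_nonneg _))
            refine Real.exp_le_exp.2 (neg_le_neg ?_)
            have h6 : n ^ 2 ≤ (q : ℝ) ^ 2 := by
              rw [← sq_abs (q : ℝ)]
              exact pow_le_pow_left₀ hn.le (hQ q hq) 2
            calc 2 * Real.pi ^ 2 * n ^ 2 / κ ≤ 2 * Real.pi ^ 2 * q ^ 2 / κ := by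
                  refine div_le_div_of_nonneg_right ?_ hκ0.le
                  exact mul_le_mul_of_nonneg_left h6 (by positivity)
              _ ≤ 2 * Real.pi ^ 2 * q ^ 2 / ∑ i, u i ^ 2 :=
                  div_le_div_of_nonneg_left (by positivity) hu0 hκ
        _ = G * nq Q (fun q => ∫ z, ((‖L q (A'.mulVec z)‖ : ℝ) : ℂ) ∂(gau I')) := by
            rw [nq_mul, Complex.norm_real, Real.norm_eq_abs, abs_of_pos (Real.exp_pos _)]
        _ ≤ G * b := mul_le_mul_of_nonneg_left h3 (Real.exp_pos _).le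
    have c2 : nq Q (fun q => ∫ z, L q (A'.mulVec z) *
        ((Real.exp (R (A'.mulVec z)) - 1 : ℝ) : ℂ) ∂(gau I')) ≤ b * θ := by
      have h1 := nq_integral (P := gau I') (Q := Q)
        (f := fun q z => L q (A'.mulVec z) * ((Real.exp (R (A'.mulVec z)) - 1 : ℝ) : ℂ))
        (b := fun z => b * (Real.exp (R (A'.mulVec z)) - 1)) j2 (j3.const_mul _) (fun z => by
          have h0 : 0 ≤ Real.exp (R (A'.mulVec z)) - 1 := by
            linarith [Real.one_le_exp (hR.R0 (A'.mulVec z))]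
          have h6 := nq_mul Q ((Real.exp (R (A'.mulVec z)) - 1 : ℝ) : ℂ)
            fun q => L q (A'.mulVec z)
          rw [Complex.norm_real, Real.norm_eq_abs, abs_of_nonneg h0] at h6
          have h7 : nq Q (fun q => L q (A'.mulVec z) *
              ((Real.exp (R (A'.mulVec z)) - 1 : ℝ) : ℂ)) =
              (Real.exp (R (A'.mulVec z)) - 1) * nq Q (fun q => L q (A'.mulVec z)) := by
            rw [← h6]
            exact nq_congr fun q _ => mul_comm _ _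
          rw [h7, mul_comm]
          exact mul_le_mul_of_nonneg_right (hLn _) h0)
      refine h1.trans ?_
      rw [integral_const_mul, integral_sub hR.Ri (integrable_const 1)]
      have : ∫ _z : I' → ℝ, (1 : ℝ) ∂(gau I') = 1 := by simp
      rw [this]
      exact mul_le_mul_of_nonneg_left (by linarith) hb0
    rw [nq_congr e2, nq_mul, Complex.norm_real, Real.norm_eq_abs, abs_of_pos hK0]
    calc K * nq Q _ ≤ K * (Real.exp (-(2 * Real.pi ^ 2 * n ^ 2 / κ)) * b + b * θ) :=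
          mul_le_mul_of_nonneg_left ((nq_add Q _ _).trans (add_le_add c1 c2)) hK0.le
      _ ≤ N0 * (Real.exp (-(2 * Real.pi ^ 2 * n ^ 2 / κ)) * b + b * θ) :=
          mul_le_mul_of_nonneg_right hN0K (by positivity)
      _ = _ := by ring
  rw [nq_congr e1]
  refine (nq_add Q _ _).trans ((add_le_add b1 b2).trans (le_of_eq ?_))
  ring

/-- **one window, all the charges of `Q` together.** `B` bounds the charges of `Q` at the double
mass `2 t` in every background. -/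
theorem window_nq {t ω B : ℝ} (ht : 0 < t) (hω : ω ≤ 1 / 2) (h : NC w t ω) (hc : CH w t ω)
    {A : Matrix V I ℝ} {A' : Matrix V I' ℝ} {R : (V → ℝ) → ℝ} {K : ℝ} (hR : Ref w t A A' R K)
    {θ : ℝ} (hθ : ∫ z, Real.exp (R (A'.mulVec z)) ∂(gau I') ≤ 1 + θ)
    {Q : Finset ℤ} {n : ℝ} (hn : 0 < n) (hQ : ∀ q ∈ Q, n ≤ |(q : ℝ)|)
    (hB0 : 0 ≤ B) (hB : ∀ F : V → ℝ, nq Q (fun q => Pq w (2 * t) q F) ≤ B)
    {ι : Type*} (S : Finset ι) (g : ι → V → ℝ) (hg1 : ∑ i ∈ S, g i = fun _ => 1)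
    (hg : ∀ i ∈ S, t * ∑ x, g i x ^ 2 ≤ 1) (Bs : ι → Set V) (cut : ι → (V → ℝ) → V → ℝ)
    (hcut : ∀ i ∈ S, Cut (Bs i) (cut i)) (u : ι → I' → ℝ)
    (hu : ∀ i ∈ S, ∀ x ∈ Bs i, A'.mulVec (u i) x = 1) (hu0 : ∀ i ∈ S, 0 < ∑ j, u i j ^ 2)
    {κ : ℝ} (hκ : ∀ i ∈ S, ∑ j, u i j ^ 2 ≤ κ) {good : Set (V → ℝ)}
    (hgm : MeasurableSet good) {ε δ : ℝ} (hε : 0 ≤ ε)
    (hloc : ∀ F ∈ good, ∀ i ∈ S, ∃ c₀ : ℝ, ∀ s ∈ Set.Icc (0 : ℝ) 1,
      |dU w (cm t) (shc F s) (g i) - dU w (cm t) (shc (cut i F) s) (g i) - c₀| ≤ ε)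
    (hbad : ∫ z, goodᶜ.indicator (fun F => Nt w t F) (A.mulVec z) ∂(gau I) ≤
      δ * ∫ z, Nt w t (A.mulVec z) ∂(gau I)) :
    nq Q (fun q => ∫ z, Sc w t q (A.mulVec z) ∂(gau I)) ≤
      (2 * ω ^ 2 + S.card / (2 * Real.pi * n) * (5 / 2 * (B + 2 * ω ^ 2) *
        (Real.exp (-(2 * Real.pi ^ 2 * n ^ 2 / κ)) + θ + 2 * δ) + ε)) *
        ∫ z, Nt w t (A.mulVec z) ∂(gau I) := by
  set N0 := ∫ z, Nt w t (A.mulVec z) ∂(gau I) with hN0
  have hN0p : 0 < N0 := int_Nt_pos hw0 hwb hp ht A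
  have hω0 := h.ω0
  have hQ0 : ∀ q ∈ Q, q ≠ 0 := by
    intro q hq h0
    have := hQ q hq
    rw [h0] at this
    simp at this
    linarith
  set b := 5 / 2 * (B + 2 * ω ^ 2) with hb
  have hb0 : 0 ≤ b := by positivity
  have hDn : ∀ i ∈ S, ∀ F : V → ℝ, nq Q (fun q => Dh w t q (g i) F) ≤ b := by
    intro i hi F
    refine (Dh_nq hw0 hwb hp hs ht hω h hc hQ0 hB0 hB (g i) F).trans ?_
    have h1 : Real.sqrt (t * ∑ x, g i x ^ 2) ≤ 1 := Real.sqrt_le_one.2 (hg i hi)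
    nlinarith [Real.sqrt_nonneg (t * ∑ x, g i x ^ 2)]
  have hDq : ∀ q ∈ Q, ∀ i ∈ S, ∀ F, ‖Dh w t q (g i) F‖ ≤ b := by
    intro q hq i hi F
    have h1 : ‖Dh w t q (g i) F‖ ^ 2 ≤ ∑ q ∈ Q, ‖Dh w t q (g i) F‖ ^ 2 :=
      single_le_sum (f := fun q => ‖Dh w t q (g i) F‖ ^ 2) (fun _ _ => sq_nonneg _) hq
    have h2 := (nq_le_iff hb0).1 (hDn i hi F)
    exact (abs_le_of_sq_le_sq' (h1.trans h2) hb0).2
  have hWm : ∀ q, Measurable (Wh w t q) := fun q => (continuous_Wh hw0 hwb hp ht q).measurable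
  have hPm : ∀ q, Measurable (Pq w t q) := fun q => (continuous_Pq hw0 hwb hp ht q).measurable
  have hPb : ∀ q ∈ Q, ∀ F, ‖Pq w t q F‖ ≤ ω := fun q hq =>
    norm_Pq_le hw0 hwb hp hs ht hc (hQ0 q hq)
  have hPW : ∀ q ∈ Q, ∀ F, ‖Pq w t q F + Wh w t q F‖ ≤ 2 * ω ^ 2 := fun q hq =>
    Pq_add_Wh hw0 hwb hp hs ht hω hc (hQ0 q hq)
  have hWb : ∀ q ∈ Q, ∀ F, ‖Wh w t q F‖ ≤ ω + 2 * ω ^ 2 := by
    intro q hq F
    have : Wh w t q F = (Pq w t q F + Wh w t q F) - Pq w t q F := by ring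
    rw [this]
    refine (norm_sub_le _ _).trans ?_
    linarith [hPb q hq F, hPW q hq F]
  have i1 : ∀ q ∈ Q, Integrable (fun z => (Pq w t q (A.mulVec z) + Wh w t q (A.mulVec z)) *
      (Nt w t (A.mulVec z) : ℂ)) (gau I) := fun q hq =>
    int_mul_Nt hw0 hwb hp ht A ((hPm q).add (hWm q)) (φ := fun F => Pq w t q F + Wh w t q F)
      (hPW q hq)
  have i2 : ∀ q ∈ Q, Integrable (fun z => Wh w t q (A.mulVec z) *
      (Nt w t (A.mulVec z) : ℂ)) (gau I) := fun q hq =>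
    int_mul_Nt hw0 hwb hp ht A (hWm q) (hWb q hq)
  have e1 : ∀ q ∈ Q, ∫ z, Sc w t q (A.mulVec z) ∂(gau I) =
      (∫ z, (Pq w t q (A.mulVec z) + Wh w t q (A.mulVec z)) * (Nt w t (A.mulVec z) : ℂ) ∂(gau I)) -
        ∫ z, Wh w t q (A.mulVec z) * (Nt w t (A.mulVec z) : ℂ) ∂(gau I) := by
    intro q hq
    rw [← integral_sub (i1 q hq) (i2 q hq)]
    refine integral_congr_ae (Filter.Eventually.of_forall fun z => ?_)
    simp only
    have : Sc w t q (A.mulVec z) = Pq w t q (A.mulVec z) * (Nt w t (A.mulVec z) : ℂ) := by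
      unfold Pq
      rw [div_mul_cancel₀]
      exact_mod_cast (Nt_pos hw0 hwb hp ht _).ne'
    rw [this]
    ring
  have b1 : nq Q (fun q => ∫ z, (Pq w t q (A.mulVec z) + Wh w t q (A.mulVec z)) *
      (Nt w t (A.mulVec z) : ℂ) ∂(gau I)) ≤ 2 * ω ^ 2 * N0 := by
    have h1 := nq_integral (P := gau I) (Q := Q)
      (f := fun q z => (Pq w t q (A.mulVec z) + Wh w t q (A.mulVec z)) *
        (Nt w t (A.mulVec z) : ℂ)) (b := fun z => 2 * ω ^ 2 * Nt w t (A.mulVec z)) i1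
      ((int_Nt hw0 hwb hp ht A).const_mul _) (fun z => by
        have hNp := Nt_pos hw0 hwb hp ht (A.mulVec z)
        have h6 := nq_mul Q (Nt w t (A.mulVec z) : ℂ)
          fun q => Pq w t q (A.mulVec z) + Wh w t q (A.mulVec z)
        rw [Complex.norm_real, Real.norm_eq_abs, abs_of_pos hNp] at h6
        have h7 : nq Q (fun q => (Pq w t q (A.mulVec z) + Wh w t q (A.mulVec z)) *
            (Nt w t (A.mulVec z) : ℂ)) = Nt w t (A.mulVec z) *
            nq Q (fun q => Pq w t q (A.mulVec z) + Wh w t q (A.mulVec z)) := by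
          rw [← h6]
          exact nq_congr fun q _ => mul_comm _ _
        rw [h7, mul_comm]
        refine mul_le_mul_of_nonneg_right ?_ hNp.le
        obtain ⟨f, hf, hfb, hfe⟩ := Pq_Wh_hat hw0 hwb hp hs ht hω hc (A.mulVec z)
        rw [nq_congr fun q hq => hfe q (hQ0 q hq)]
        exact nq_bessel hf (by positivity) hfb Q)
    rw [integral_const_mul] at h1
    exact h1
  -- the harmonic
  have e2 : ∀ q ∈ Q, (2 * Real.pi * q * Complex.I) *
      ∫ z, Wh w t q (A.mulVec z) * (Nt w t (A.mulVec z) : ℂ) ∂(gau I) =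
      ∑ i ∈ S, ∫ z, Dh w t q (g i) (A.mulVec z) * (Nt w t (A.mulVec z) : ℂ) ∂(gau I) := by
    intro q hq
    have hint : ∀ i ∈ S, Integrable (fun z => Dh w t q (g i) (A.mulVec z) *
        (Nt w t (A.mulVec z) : ℂ)) (gau I) := fun i hi =>
      int_mul_Nt hw0 hwb hp ht A (continuous_Dh hw0 hwb hp ht q (g i)).measurable (hDq q hq i hi)
    rw [← integral_const_mul, ← integral_finsetSum _ hint]
    refine integral_congr_ae (Filter.Eventually.of_forall fun z => ?_)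
    simp only
    rw [← mul_assoc, Wh_eq_sum hw0 hwb hp hs ht q S g hg1, Finset.sum_mul]
  set E := b * (Real.exp (-(2 * Real.pi ^ 2 * n ^ 2 / κ)) + θ + 2 * δ) + ε with hE
  have b2 : nq Q (fun q => ∫ z, Wh w t q (A.mulVec z) * (Nt w t (A.mulVec z) : ℂ) ∂(gau I)) ≤
      S.card / (2 * Real.pi * n) * E * N0 := by
    have h1 : nq Q (fun q => ∑ i ∈ S, ∫ z, Dh w t q (g i) (A.mulVec z) *
        (Nt w t (A.mulVec z) : ℂ) ∂(gau I)) ≤ S.card * (E * N0) := by
      refine (nq_sum Q S fun i q => ∫ z, Dh w t q (g i) (A.mulVec z) *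
        (Nt w t (A.mulVec z) : ℂ) ∂(gau I)).trans ?_
      calc ∑ i ∈ S, nq Q _ ≤ ∑ i ∈ S, E * N0 := Finset.sum_le_sum fun i hi =>
            one_term_nq hw0 hwb hp hs ht hb0 hR hθ hn hQ (hDn i hi) (hcut i hi) (hu i hi)
              (hu0 i hi) (hκ i hi) hgm hε (fun F hF => hloc F hF i hi) hbad
        _ = S.card * (E * N0) := by rw [Finset.sum_const, nsmul_eq_mul]
    have h3 : 0 < 2 * Real.pi * n := by positivity
    have h4 : nq Q (fun q => ((2 * Real.pi * n : ℝ) : ℂ) *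
        ∫ z, Wh w t q (A.mulVec z) * (Nt w t (A.mulVec z) : ℂ) ∂(gau I)) ≤
        nq Q (fun q => ∑ i ∈ S, ∫ z, Dh w t q (g i) (A.mulVec z) *
        (Nt w t (A.mulVec z) : ℂ) ∂(gau I)) := by
      refine nq_mono fun q hq => ?_
      rw [← e2 q hq, norm_mul, norm_mul]
      refine mul_le_mul_of_nonneg_right ?_ (norm_nonneg _)
      have h2 : ‖(2 * (Real.pi : ℂ) * q * Complex.I)‖ = 2 * Real.pi * |(q : ℝ)| := by
        rw [norm_mul, norm_mul, norm_mul, Complex.norm_I, mul_one, Complex.norm_real,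
          Real.norm_eq_abs, abs_of_pos Real.pi_pos, Complex.norm_two, Complex.norm_intCast]
      rw [h2, Complex.norm_real, Real.norm_eq_abs, abs_of_pos h3]
      exact mul_le_mul_of_nonneg_left (hQ q hq) (by positivity)
    rw [nq_mul, Complex.norm_real, Real.norm_eq_abs, abs_of_pos h3] at h4
    rw [div_mul_eq_mul_div, div_mul_eq_mul_div, le_div_iff₀ h3, mul_comm]
    calc _ ≤ _ := h4.trans h1
      _ = _ := by ring
  rw [nq_congr e1]
  refine (nq_sub Q _ _).trans ((add_le_add b1 b2).trans (le_of_eq ?_))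
  ring

end model

section rec

variable {V : Type} [Fintype V] {w : (V → ℤ) → ℝ} {Wb : ℝ}
variable {I I' : Type} [Fintype I] [Fintype I']

lemma Phq_scalar [DecidableEq V] (t : ℝ) (q : ℤ) (F : V → ℝ) :
    Phq w (t • (1 : Matrix V V ℝ)) q F = Pq w t q F := by
  unfold Phq Pq
  rw [Zq_eq_Sc, Zn_cm]

/-- the charges `|q| ≥ 2` -/
lemma ch2_le_of_nq [DecidableEq V] {M : Matrix V V ℝ} (hM : M.transpose = M) (hE : EM (wM w M))
    {F : V → ℝ} {X : ℝ} (hX : 0 ≤ X)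
    (h : ∀ Q : Finset ℤ, (∀ q ∈ Q, (2 : ℝ) ≤ |(q : ℝ)|) → nq Q (fun q => Phq w M q F) ≤ X) :
    ch2 w M F ≤ X := by
  have hsum := H43.hasSum_ch2 (w := w) hM hE F
  have h1 : ch2 w M F ^ 2 ≤ X ^ 2 := by
    refine le_of_tendsto' hsum fun Q => ?_
    have h2 : ∑ q ∈ Q, (if q = 0 ∨ q = 1 ∨ q = -1 then 0 else ‖Phq w M q F‖ ^ 2) =
        ∑ q ∈ Q.filter (fun q => ¬(q = 0 ∨ q = 1 ∨ q = -1)), ‖Phq w M q F‖ ^ 2 := by
      rw [sum_filter]
      refine sum_congr rfl fun q _ => ?_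
      by_cases hq : q = 0 ∨ q = 1 ∨ q = -1
      · rw [if_pos hq, if_neg (not_not.2 hq)]
      · rw [if_neg hq, if_pos hq]
    rw [h2]
    refine (nq_le_iff hX).1 (h _ fun q hq => ?_)
    have h3 := (mem_filter.1 hq).2
    have h4 : (2 : ℤ) ≤ |q| := by
      rcases lt_or_ge q 0 with h5 | h5
      · rw [abs_of_neg h5]; omega
      · rw [abs_of_nonneg h5]; omega
    exact_mod_cast h4
  exact (abs_le_of_sq_le_sq' h1 hX).2

lemma nq_le_ch2 [DecidableEq V] {M : Matrix V V ℝ} (hM : M.transpose = M) (hE : EM (wM w M))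
    (F : V → ℝ) {Q : Finset ℤ} (hQ : ∀ q ∈ Q, (2 : ℝ) ≤ |(q : ℝ)|) :
    nq Q (fun q => Phq w M q F) ≤ ch2 w M F := by
  have hsum := H43.hasSum_ch2 (w := w) hM hE F
  refine (nq_le_iff (H43.nm_nonneg _)).2 ?_
  have h1 := sum_le_hasSum Q (fun q _ => by split_ifs <;> positivity) hsum
  refine le_trans (le_of_eq (sum_congr rfl fun q hq => ?_)) h1
  have h2 := hQ q hq
  rw [if_neg]
  rintro (h | h | h) <;> rw [h] at h2 <;> norm_num at h2

/-- **CH2, recursion**: the charges `|q| ≥ 2` after one window from the charges `|q| ≥ 2` before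
the window (at the double mass). -/
theorem ch2_rec [DecidableEq V] (hw0 : ∀ h, 0 ≤ w h) (hwb : ∀ h, w h ≤ Wb)
    (hp : ∃ h, 0 < w h) (hs : ∀ h, w (h + 1) = w h)
    {t ω : ℝ} (ht : 0 < t) (hω : ω ≤ 1 / 2) (h : NC w t ω) (hc : CH w t ω)
    {M' : Matrix V V ℝ} {A : Matrix V I ℝ} {Kc : Matrix I V ℝ}
    (hch : Chn (t • (1 : Matrix V V ℝ)) M' A Kc) (hwm : WM w M')
    (hwm2 : WM w ((2 * t) • (1 : Matrix V V ℝ)))
    {A' : Matrix V I' ℝ} {R : (V → ℝ) → ℝ} {K : ℝ} (hR : Ref w t A A' R K)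
    {θ : ℝ} (hθ : ∫ z, Real.exp (R (A'.mulVec z)) ∂(gau I') ≤ 1 + θ)
    {ι : Type*} (S : Finset ι) (g : ι → V → ℝ) (hg1 : ∑ i ∈ S, g i = fun _ => 1)
    (hg : ∀ i ∈ S, t * ∑ x, g i x ^ 2 ≤ 1) (Bs : ι → Set V) (cut : ι → (V → ℝ) → V → ℝ)
    (hcut : ∀ i ∈ S, Cut (Bs i) (cut i)) (u : ι → I' → ℝ)
    (hu : ∀ i ∈ S, ∀ x ∈ Bs i, A'.mulVec (u i) x = 1) (hu0 : ∀ i ∈ S, 0 < ∑ j, u i j ^ 2)
    {κ : ℝ} (hκ : ∀ i ∈ S, ∑ j, u i j ^ 2 ≤ κ) {good : Set (V → ℝ)}
    (hgm : MeasurableSet good) {ε δ : ℝ} (hε : 0 ≤ ε) (hδ : 0 ≤ δ)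
    (hloc : ∀ F ∈ good, ∀ i ∈ S, ∃ c₀ : ℝ, ∀ s ∈ Set.Icc (0 : ℝ) 1,
      |dU w (cm t) (shc F s) (g i) - dU w (cm t) (shc (cut i F) s) (g i) - c₀| ≤ ε)
    (hbad : ∫ z, goodᶜ.indicator (fun F => Nt w t F) (A.mulVec z) ∂(gau I) ≤
      δ * ∫ z, Nt w t (A.mulVec z) ∂(gau I)) :
    ch2 w M' 0 ≤ 2 * ω ^ 2 + S.card / (4 * Real.pi) *
      (5 / 2 * (ch2 w ((2 * t) • (1 : Matrix V V ℝ)) 0 + 2 * ω ^ 2) *
        (Real.exp (-(8 * Real.pi ^ 2 / κ)) + θ + 2 * δ) + ε) := by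
  have hN0p : 0 < ∫ z, Nt w t (A.mulVec z) ∂(gau I) := int_Nt_pos hw0 hwb hp ht A
  have hB0 : 0 ≤ ch2 w ((2 * t) • (1 : Matrix V V ℝ)) 0 := H43.nm_nonneg _
  have hθ0 : 0 ≤ θ := by
    have h3 : (1 : ℝ) ≤ ∫ z, Real.exp (R (A'.mulVec z)) ∂(gau I') := by
      have : ∫ _z : I' → ℝ, (1 : ℝ) ∂(gau I') = 1 := by simp
      rw [← this]
      exact integral_mono (integrable_const 1) hR.Ri fun z => Real.one_le_exp (hR.R0 _)
    linarith
  refine ch2_le_of_nq hwm.sym hwm.em (by have := Real.pi_pos; positivity) fun Q hQ => ?_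
  have hB : ∀ F : V → ℝ, nq Q (fun q => Pq w (2 * t) q F) ≤
      ch2 w ((2 * t) • (1 : Matrix V V ℝ)) 0 := by
    intro F
    have h1 := nq_le_ch2 (w := w) hwm2.sym hwm2.em F hQ
    simp only [Phq_scalar] at h1
    exact h1.trans (H43.ch2_le hwm2 F)
  have h1 := window_nq hw0 hwb hp hs ht hω h hc hR hθ (n := 2) (by norm_num) hQ hB0 hB S g hg1 hg
    Bs cut hcut u hu hu0 hκ hgm hε hloc hbad
  have e1 : 2 * Real.pi ^ 2 * (2 : ℝ) ^ 2 / κ = 8 * Real.pi ^ 2 / κ := by ring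
  have e2 : 2 * Real.pi * 2 = 4 * Real.pi := by ring
  rw [e1, e2] at h1
  have h2 : nq Q (fun q => Phq w M' q 0) =
      (1 / ∫ z, Nt w t (A.mulVec z) ∂(gau I)) * nq Q (fun q => ∫ z, Sc w t q (A.mulVec z) ∂(gau I)) := by
    have h3 := nq_mul Q ((1 / ∫ z, Nt w t (A.mulVec z) ∂(gau I) : ℝ) : ℂ)
      fun q => ∫ z, Sc w t q (A.mulVec z) ∂(gau I)
    rw [Complex.norm_real, Real.norm_eq_abs, abs_of_pos (by positivity)] at h3
    rw [← h3]
    refine nq_congr fun q _ => ?_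
    rw [Phq_eq_ratio hch hwm q]
    push_cast
    ring
  rw [h2, div_mul_eq_mul_div, one_mul, div_le_iff₀ hN0p]
  exact h1

end rec

end

end Vale.Agent.P159.H415
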