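import Vale.Agent.P159.H415.Rec
import Vale.Agent.P159.H663.Tilt

/-!
P159, module CH2 (helper415), part 9: the reference law of the channel (`Ref`) from the neutral
free energy by completing the square (`TILT` of helper663); the factor `θ` from the good set; the
capacity vector.
-/

namespace Vale.Agent.P159.H415

open MeasureTheory ProbabilityTheory Finset Matrix
open Vale.Agent.P159.H37 (gau Zn Un ZM Zq wM qf qf_eq qf_smul)
open Vale.Agent.P159.H764
open Vale.Agent.P159.H663 (tc tc_pos tilt_pd tilt_pd_integrable qf_cont)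
open Vale.Agent.P159.TM.H870 (gr Zr lin)

noncomputable section

section

variable {V : Type*} [Fintype V] {w : (V → ℤ) → ℝ} {Wb : ℝ}

/-- the remainder of the neutral free energy -/
def RU (w : (V → ℤ) → ℝ) (t : ℝ) (An : Matrix V V ℝ) (F : V → ℝ) : ℝ := qf An F / 2 - UN w t F

variable {L I' : Type*} [Fintype L] [Fintype I'] [DecidableEq L]

lemma qf_one_add {Q : Matrix L L ℝ} (s : ℝ) (v : L → ℝ) :
    qf (1 + s • Q) v = (∑ x, v x ^ 2) + s * qf Q v := by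
  rw [qf_eq, qf_eq, add_mulVec, dotProduct_add, one_mulVec, smul_mulVec, dotProduct_smul,
    smul_eq_mul]
  congr 1
  simp [dotProduct, pow_two]

lemma pd_one_add {Q : Matrix L L ℝ} (hQ0 : ∀ φ, 0 ≤ qf Q φ) {s : ℝ} (hs : 0 ≤ s) (v : L → ℝ)
    (hv : v ≠ 0) : 0 < qf (1 + s • Q) v := by
  rw [qf_one_add]
  have h1 : 0 < ∑ x, v x ^ 2 := by
    obtain ⟨x, hx⟩ := Function.ne_iff.1 hv
    refine sum_pos' (fun _ _ => sq_nonneg _) ⟨x, mem_univ x, ?_⟩
    exact pow_pos_of_sq x hx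
  have h2 := mul_nonneg hs (hQ0 v)
  linarith
where
  pow_pos_of_sq {v : L → ℝ} (x : L) (hx : v x ≠ (0 : L → ℝ) x) : 0 < v x ^ 2 := by
    simp only [Pi.zero_apply] at hx
    positivity

variable (hw0 : ∀ h, 0 ≤ w h) (hwb : ∀ h, w h ≤ Wb) (hp : ∃ h, 0 < w h)

include hw0 hwb hp

lemma exp_neg_UN {t : ℝ} (ht : 0 < t) (F : V → ℝ) :
    Nt w t F = Nt w t 0 * Real.exp (-UN w t F) := by
  have h0 := Nt_pos hw0 hwb hp ht (0 : V → ℝ)
  have h1 := Nt_pos hw0 hwb hp ht F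
  unfold UN
  rw [neg_neg, Real.exp_log (div_pos h1 h0)]
  field_simp

lemma continuous_UN {t : ℝ} (ht : 0 < t) : Continuous (UN w t) := by
  have h0 := Nt_pos hw0 hwb hp ht (0 : V → ℝ)
  have hc := continuous_Nt hw0 hwb hp ht
  have hpos : ∀ F : V → ℝ, Nt w t F / Nt w t 0 ≠ 0 := fun F =>
    (div_pos (Nt_pos hw0 hwb hp ht F) h0).ne'
  have h1 : Continuous fun F : V → ℝ => Nt w t F / Nt w t 0 := hc.div_const _
  exact (h1.log hpos).neg

lemma continuous_RU {t : ℝ} (ht : 0 < t) (An : Matrix V V ℝ) : Continuous (RU w t An) :=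
  ((qf_cont An).div_const 2).sub (continuous_UN hw0 hwb hp ht)

/-- **the reference law**: Gaussian with the neutral stiffness, up to `exp R`, `R ≥ 0` -/
theorem ref_tilt {t : ℝ} (ht : 0 < t) {An : Matrix V V ℝ}
    (hU : ∀ F, UN w t F ≤ qf An F / 2) {Lf : Matrix V L ℝ} {Q : Matrix L L ℝ} (hQ : Qᵀ = Q)
    (hQL : ∀ φ, qf Q φ = qf An (Lf *ᵥ φ)) (hQ0 : ∀ φ, 0 ≤ qf Q φ) {σ : ℝ}
    {G : Matrix L I' ℝ} (hG : G * Gᵀ = σ ^ 2 • (1 + σ ^ 2 • Q)⁻¹) :
    Ref w t (σ • Lf) (Lf * G) (RU w t An) (Nt w t 0 * tc (σ ^ 2) Q 0) := by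
  have h0 := Nt_pos hw0 hwb hp ht (0 : V → ℝ)
  have hpd : ∀ v : L → ℝ, v ≠ 0 → 0 < qf (1 + σ ^ 2 • Q) v := fun v hv =>
    pd_one_add hQ0 (sq_nonneg σ) v hv
  have htc := tc_pos hQ hpd 0
  have hRc := continuous_RU hw0 hwb hp ht An
  have hLc : Continuous fun φ : L → ℝ => Lf *ᵥ φ := by
    unfold Matrix.mulVec dotProduct
    fun_prop
  -- the weight on the range
  have hwt : ∀ g : L → ℝ, Nt w t ((σ • Lf) *ᵥ g) = Real.exp (-(qf Q (σ • g) / 2)) *
      (Nt w t 0 * Real.exp (RU w t An (Lf *ᵥ (σ • g)))) := by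
    intro g
    have e1 : (σ • Lf) *ᵥ g = Lf *ᵥ (σ • g) := by
      rw [smul_mulVec, mulVec_smul]
    rw [e1, exp_neg_UN hw0 hwb hp ht (Lf *ᵥ (σ • g)), hQL]
    unfold RU
    rw [mul_left_comm, ← Real.exp_add]
    congr 2
    ring
  have hint1 : Integrable (fun g : L → ℝ => Real.exp (-(qf Q (0 + σ • g) / 2)) •
      (Real.exp (RU w t An (Lf *ᵥ (0 + σ • g))))) (gau L) := by
    have h1 := (int_Nt hw0 hwb hp ht (I := L) (σ • Lf)).const_mul (Nt w t 0)⁻¹
    refine h1.congr (Filter.Eventually.of_forall fun g => ?_)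
    simp only [zero_add, smul_eq_mul]
    rw [hwt g]
    field_simp
  have hRi := (tilt_pd_integrable (I := I') hQ hpd hG 0
    (G := fun φ : L → ℝ => Real.exp (RU w t An (Lf *ᵥ φ)))
    ((Real.continuous_exp.comp (hRc.comp hLc)).stronglyMeasurable)).1 hint1
  simp only [mulVec_zero, zero_add] at hRi
  refine ⟨mul_pos h0 htc, fun F => by unfold RU; linarith [hU F], hRc.measurable, ?_, ?_⟩
  · refine hRi.congr (Filter.Eventually.of_forall fun z => ?_)
    simp only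
    rw [mulVec_mulVec]
  · intro Φ hΦ _
    have hm : StronglyMeasurable fun φ : L → ℝ =>
        Φ (Lf *ᵥ φ) * ((Nt w t 0 * Real.exp (RU w t An (Lf *ᵥ φ)) : ℝ) : ℂ) := by
      refine Measurable.stronglyMeasurable ?_
      refine (hΦ.comp hLc.measurable).mul (Complex.measurable_ofReal.comp ?_)
      exact measurable_const.mul ((Real.continuous_exp.comp (hRc.comp hLc)).measurable)
    have h1 := tilt_pd (I := I') hQ hpd hG 0 hm
    simp only [zero_add, mulVec_zero] at h1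
    have e1 : ∫ z, Φ ((σ • Lf) *ᵥ z) * (Nt w t ((σ • Lf) *ᵥ z) : ℂ) ∂(gau L) =
        ∫ g, Real.exp (-(qf Q (σ • g) / 2)) • (Φ (Lf *ᵥ (σ • g)) *
          ((Nt w t 0 * Real.exp (RU w t An (Lf *ᵥ (σ • g))) : ℝ) : ℂ)) ∂(gau L) := by
      refine integral_congr_ae (Filter.Eventually.of_forall fun g => ?_)
      simp only
      rw [hwt g]
      have e2 : (σ • Lf) *ᵥ g = Lf *ᵥ (σ • g) := by
        rw [smul_mulVec, mulVec_smul]
      rw [e2, Complex.real_smul]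
      push_cast
      ring
    rw [e1, h1, Complex.real_smul]
    have e3 : ∫ g, Φ (Lf *ᵥ (G *ᵥ g)) *
          ((Nt w t 0 * Real.exp (RU w t An (Lf *ᵥ (G *ᵥ g))) : ℝ) : ℂ) ∂(gau I') =
        (Nt w t 0 : ℂ) * ∫ z, Φ ((Lf * G) *ᵥ z) *
          (Real.exp (RU w t An ((Lf * G) *ᵥ z)) : ℂ) ∂(gau I') := by
      rw [← integral_const_mul]
      refine integral_congr_ae (Filter.Eventually.of_forall fun g => ?_)
      simp only
      rw [mulVec_mulVec]
      push_cast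
      ring
    rw [e3]
    push_cast
    ring

omit hw0 hwb hp in
/-- the exponential moment of the remainder from the good set of the exact law -/
theorem theta_of_good {t : ℝ} {I : Type*} [Fintype I]
    {A : Matrix V I ℝ} {A' : Matrix V I' ℝ} {R : (V → ℝ) → ℝ} {K : ℝ} (hR : Ref w t A A' R K)
    {good : Set (V → ℝ)} (hgm : MeasurableSet good) {η δ : ℝ} (hδ1 : δ < 1)
    (hη : ∀ F ∈ good, R F ≤ η)
    (hbad : ∫ z, goodᶜ.indicator (fun F => Nt w t F) (A *ᵥ z) ∂(gau I) ≤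
      δ * ∫ z, Nt w t (A *ᵥ z) ∂(gau I)) :
    ∫ z, Real.exp (R (A' *ᵥ z)) ∂(gau I') ≤ 1 + (Real.exp η / (1 - δ) - 1) := by
  have hK := hR.K0
  set X := ∫ z, Real.exp (R (A' *ᵥ z)) ∂(gau I') with hX
  have h1 : ∫ z, Nt w t (A *ᵥ z) ∂(gau I) = K * X := by
    have h2 := hR.eq (fun _ => 1) measurable_const ⟨1, fun _ => by simp⟩
    simp only [one_mul] at h2
    rw [integral_complex_ofReal, integral_complex_ofReal, ← Complex.ofReal_mul] at h2
    exact_mod_cast h2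
  have h2 : ∫ z, goodᶜ.indicator (fun F => Nt w t F) (A *ᵥ z) ∂(gau I) =
      K * ∫ z, goodᶜ.indicator (fun F => Real.exp (R F)) (A' *ᵥ z) ∂(gau I') := by
    have h3 := hR.eq (goodᶜ.indicator fun _ => 1) (measurable_const.indicator hgm.compl)
      ⟨1, fun F => by
        by_cases hF : F ∈ goodᶜ
        · rw [Set.indicator_of_mem hF]; simp
        · rw [Set.indicator_of_notMem hF]; simp⟩
    have e2 : ∀ z : I → ℝ, (goodᶜ.indicator (fun _ => (1 : ℂ)) (A *ᵥ z)) *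
        (Nt w t (A *ᵥ z) : ℂ) = ((goodᶜ.indicator (fun F => Nt w t F) (A *ᵥ z) : ℝ) : ℂ) := by
      intro z
      by_cases hF : A *ᵥ z ∈ goodᶜ
      · rw [Set.indicator_of_mem hF, Set.indicator_of_mem hF, one_mul]
      · rw [Set.indicator_of_notMem hF, Set.indicator_of_notMem hF, zero_mul, Complex.ofReal_zero]
    have e3 : ∀ z : I' → ℝ, (goodᶜ.indicator (fun _ => (1 : ℂ)) (A' *ᵥ z)) *
        (Real.exp (R (A' *ᵥ z)) : ℂ) =
          ((goodᶜ.indicator (fun F => Real.exp (R F)) (A' *ᵥ z) : ℝ) : ℂ) := by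
      intro z
      by_cases hF : A' *ᵥ z ∈ goodᶜ
      · rw [Set.indicator_of_mem hF, Set.indicator_of_mem hF, one_mul]
      · rw [Set.indicator_of_notMem hF, Set.indicator_of_notMem hF, zero_mul, Complex.ofReal_zero]
    simp_rw [e2, e3] at h3
    rw [integral_complex_ofReal, integral_complex_ofReal, ← Complex.ofReal_mul] at h3
    exact_mod_cast h3
  rw [h1, h2, mul_left_comm] at hbad
  have h3 : ∫ z, goodᶜ.indicator (fun F => Real.exp (R F)) (A' *ᵥ z) ∂(gau I') ≤ δ * X :=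
    le_of_mul_le_mul_left hbad hK
  have hmA' : Measurable fun z : I' → ℝ => A' *ᵥ z := meas_mulVec A'
  have hexpm : Measurable fun F : V → ℝ => Real.exp (R F) := Real.measurable_exp.comp hR.Rm
  have i1 : Integrable (fun z => goodᶜ.indicator (fun F => Real.exp (R F)) (A' *ᵥ z)) (gau I') := by
    refine hR.Ri.mono' ((hexpm.indicator hgm.compl).comp hmA').aestronglyMeasurable
      (Filter.Eventually.of_forall fun z => ?_)
    by_cases hz : A' *ᵥ z ∈ goodᶜ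
    · rw [Set.indicator_of_mem hz, Real.norm_eq_abs, abs_of_pos (Real.exp_pos _)]
    · rw [Set.indicator_of_notMem hz, norm_zero]
      exact (Real.exp_pos _).le
  have h4 : X ≤ Real.exp η + δ * X := by
    have h5 : X ≤ ∫ z, (Real.exp η +
        goodᶜ.indicator (fun F => Real.exp (R F)) (A' *ᵥ z)) ∂(gau I') := by
      refine integral_mono hR.Ri ((integrable_const _).add i1) fun z => ?_
      simp only
      by_cases hz : A' *ᵥ z ∈ good
      · rw [Set.indicator_of_notMem (fun h' : A' *ᵥ z ∈ goodᶜ => h' hz), add_zero]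
        exact Real.exp_le_exp.2 (hη _ hz)
      · rw [Set.indicator_of_mem (show A' *ᵥ z ∈ goodᶜ from hz)]
        linarith [Real.exp_pos η]
    rw [integral_add (integrable_const _) i1] at h5
    have h6 : ∫ _z : I' → ℝ, Real.exp η ∂(gau I') = Real.exp η := by simp
    rw [h6] at h5
    linarith
  have h7 : X ≤ Real.exp η / (1 - δ) := by
    rw [le_div_iff₀ (by linarith)]
    linarith
  linarith

end

/-! ### the capacity vector -/

section cap

variable {L I' : Type*} [Fintype L] [Fintype I'] [DecidableEq L]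

lemma cap_vec {Γ Γi : Matrix L L ℝ} {G : Matrix L I' ℝ} (hG : G * Gᵀ = Γ) (hi : Γ * Γi = 1)
    (q : L → ℝ) :
    G *ᵥ (Gᵀ *ᵥ (Γi *ᵥ q)) = q ∧ ∑ j, (Gᵀ *ᵥ (Γi *ᵥ q)) j ^ 2 = (Γi *ᵥ q) ⬝ᵥ q := by
  have h1 : G *ᵥ (Gᵀ *ᵥ (Γi *ᵥ q)) = q := by
    rw [mulVec_mulVec, hG, mulVec_mulVec, hi, one_mulVec]
  refine ⟨h1, ?_⟩
  have h2 : ∑ j, (Gᵀ *ᵥ (Γi *ᵥ q)) j ^ 2 = (Gᵀ *ᵥ (Γi *ᵥ q)) ⬝ᵥ (Gᵀ *ᵥ (Γi *ᵥ q)) := by
    simp [dotProduct, pow_two]
  rw [h2, dotProduct_mulVec, vecMul_transpose, h1, dotProduct_comm]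

/-- `s (1 + s Q)⁻¹` and `Q + s⁻¹` are inverse to each other -/
lemma gam_mul {Q : Matrix L L ℝ} {s : ℝ} (hs : 0 < s)
    (hdet : IsUnit (1 + s • Q).det) :
    (s • (1 + s • Q)⁻¹) * (Q + s⁻¹ • (1 : Matrix L L ℝ)) = 1 := by
  have e : Q + s⁻¹ • (1 : Matrix L L ℝ) = s⁻¹ • (1 + s • Q) := by
    rw [smul_add, smul_smul, inv_mul_cancel₀ hs.ne', one_smul, add_comm]
  rw [e, smul_mul_smul_comm, mul_inv_cancel₀ hs.ne', one_smul]
  exact Matrix.nonsing_inv_mul _ hdet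

/-- a square root of `s (1 + s Q)⁻¹` -/
lemma exists_sqrt {Q : Matrix L L ℝ} (hQ : Qᵀ = Q) (hQ0 : ∀ φ, 0 ≤ qf Q φ) {σ : ℝ} :
    (∃ G : Matrix L L ℝ, G * Gᵀ = σ ^ 2 • (1 + σ ^ 2 • Q)⁻¹) ∧
      IsUnit (1 + σ ^ 2 • Q).det := by
  obtain ⟨O, d, hO, hO2, hQO, -⟩ := Vale.Agent.P159.H552.spec_real hQ
  have hd : ∀ i, 0 < 1 + σ ^ 2 * d i := fun i =>
    H663.spec_pos hO2 hQO (pd_one_add hQ0 (sq_nonneg σ)) i
  refine ⟨⟨_, H663.tilt_cov hO hO2 hQO hd⟩, ?_⟩
  rw [H663.spec_det hO hQO, isUnit_iff_ne_zero]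
  exact (prod_pos fun i _ => hd i).ne'

end cap

end

end Vale.Agent.P159.H415
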