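import Vale.Agent.P159.H415.GeoC
import Vale.Agent.P159.H239.Loc2

/-!
P159, module CH2 (helper415), part 16: sources of cell fields, the cut of a source, energies.
-/

set_option linter.unusedSectionVars false

namespace Vale.Agent.P159.H415

open MeasureTheory ProbabilityTheory Finset Matrix
open Vale.Agent.P159.H37 (gau qf qf_eq Rs Zs Gm Ech post Tq)
open Vale.Agent.P159.H864 (MC cobV cl up cobV_mul_tr)
open Vale.Agent.P159.H963 (nwt nMC obsN Pn Neu Gnc ntr)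
open Vale.Agent.P159.H363 (lf lf_eq)
open Vale.Agent.P159.TM.H104 (EM Ex Cv Gr li)
open Vale.Agent.P159.TM.H764 (nrm bx)
open Vale.Agent.P159.TM.Spec (V)
open Vale.Agent.P159.H447 (CN)
open Vale.Agent.P159.H859 (Sgn WN kap2 Lw dB)

noncomputable section

variable {N l : ℕ} [NeZero N] [NeZero (N / l)] {b T s : ℝ} {I : Type*} [Fintype I]

lemma CNt_mulVec (φ : V (N / l) → ℝ) : (CN N l)ᵀ *ᵥ φ = (cobV N l)ᵀ *ᵥ (Pn *ᵥ φ) := by
  unfold H447.CN
  rw [transpose_mul, H963.Pn_transpose, mulVec_mulVec]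

/-- the source of a cell field -/
lemma src_CN (hl : l ∣ N) (hT : 0 < T) (φ : V (N / l) → ℝ) :
    ntr (T • (1 : Matrix (V N) (V N) ℝ)) T *ᵥ lf N l φ = (T * l) • ((CN N l)ᵀ *ᵥ φ) := by
  have h := src_lf (N := N) hl hT le_rfl φ
  rw [H864.MC_self] at h
  rw [h, CNt_mulVec]

lemma CN_CNt (hl : l ∣ N) (φ : V (N / l) → ℝ) : CN N l *ᵥ ((CN N l)ᵀ *ᵥ φ) = Pn *ᵥ φ := by
  rw [CNt_mulVec]
  unfold H447.CN
  rw [mulVec_mulVec, Matrix.mul_assoc, cobV_mul_tr hl, Matrix.mul_one, mulVec_mulVec,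
    H963.Pn_mul_Pn]

lemma CNt_const (c : ℝ) : (CN N l)ᵀ *ᵥ (fun _ : V (N / l) => c) = 0 := by
  rw [CNt_mulVec]
  have h : (Pn : Matrix (V (N / l)) (V (N / l)) ℝ) *ᵥ (fun _ => c) = 0 := by
    rw [H963.Pn_mulVec]
    funext x
    have hc : (Fintype.card (V (N / l)) : ℝ) ≠ 0 := by
      exact_mod_cast Fintype.card_ne_zero
    simp only [sum_const, card_univ, nsmul_eq_mul, Pi.zero_apply]
    field_simp
    ring
  rw [h, mulVec_zero]

lemma Lw_Pn {w w₀ : Finset (V (N / l))} (h0 : w₀.Nonempty) (φ : V (N / l) → ℝ) :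
    Lw w w₀ *ᵥ ((Pn : Matrix (V (N / l)) (V (N / l)) ℝ) *ᵥ φ) = Lw w w₀ *ᵥ φ := by
  have hc : (w₀.card : ℝ) ≠ 0 := by exact_mod_cast h0.card_pos.ne'
  funext x
  rw [H859.Lw_mulVec, H859.Lw_mulVec, H963.Pn_mulVec]
  split_ifs
  · rw [sum_sub_distrib, sum_const, nsmul_eq_mul, mul_sub, inv_mul_cancel_left₀ hc]
    ring
  · rfl

/-- the cut of a source -/
def cutJ (w w₀ : Finset (V (N / l))) (J : V N → ℝ) : V N → ℝ :=
  (CN N l)ᵀ *ᵥ (Lw w w₀ *ᵥ (CN N l *ᵥ J))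

lemma cutJ_smul (w w₀ : Finset (V (N / l))) (r : ℝ) (J : V N → ℝ) :
    cutJ (N := N) w w₀ (r • J) = r • cutJ (N := N) w w₀ J := by
  unfold cutJ
  rw [mulVec_smul, mulVec_smul, mulVec_smul]

lemma measurable_cutJ (w w₀ : Finset (V (N / l))) : Measurable (cutJ (N := N) w w₀) := by
  unfold cutJ
  exact (H552.meas_mulVec _).comp ((H552.meas_mulVec _).comp (H552.meas_mulVec _))

/-- the cut of the source is the source of the cut field -/
lemma cutJ_src (hl : l ∣ N) (hT : 0 < T) {w w₀ : Finset (V (N / l))} (h0 : w₀.Nonempty)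
    (φ : V (N / l) → ℝ) :
    ntr (T • (1 : Matrix (V N) (V N) ℝ)) T *ᵥ lf N l (cutA w w₀ φ) =
      cutJ w w₀ (ntr (T • (1 : Matrix (V N) (V N) ℝ)) T *ᵥ lf N l φ) := by
  rw [src_CN hl hT, src_CN hl hT, cutJ_smul]
  congr 1
  unfold cutJ
  rw [CN_CNt hl, Lw_Pn h0, cutA_eq]
  have e : (fun x => (Lw w w₀ *ᵥ φ) x + (w₀.card : ℝ)⁻¹ * ∑ y ∈ w₀, φ y) =
      Lw w w₀ *ᵥ φ + fun _ => (w₀.card : ℝ)⁻¹ * ∑ y ∈ w₀, φ y := rfl
  rw [e, mulVec_add, CNt_const, add_zero]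

/-- the cut of the Gaussian source -/
lemma cutJ_gauss (hl : l ∣ N) {w w₀ : Finset (V (N / l))} (h0 : w₀.Nonempty)
    (A : Matrix (V (N / l)) I ℝ) (g : I → ℝ) :
    cutJ w w₀ (((CN N l)ᵀ * A) *ᵥ g) = ((CN N l)ᵀ * Lw w w₀ * A) *ᵥ g := by
  unfold cutJ
  rw [← mulVec_mulVec g, CN_CNt hl, Lw_Pn h0, ← mulVec_mulVec, ← mulVec_mulVec]

/-! ### energies -/

/-- energy of a source on the cells -/
def enJ (N l : ℕ) [NeZero N] [NeZero (N / l)] (J : V N → ℝ) : ℝ := ∑ c, (CN N l *ᵥ J) c ^ 2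

lemma measurable_enJ : Measurable (enJ N l) := by
  unfold enJ
  exact Finset.measurable_sum _ fun c _ =>
    ((measurable_pi_apply c).comp (H552.meas_mulVec _)).pow_const 2

lemma enJ_src (hl : l ∣ N) (hT : 0 < T) (φ : V (N / l) → ℝ) :
    enJ N l (ntr (T • (1 : Matrix (V N) (V N) ℝ)) T *ᵥ lf N l φ) =
      (T * l) ^ 2 * ∑ c, ((Pn : Matrix (V (N / l)) (V (N / l)) ℝ) *ᵥ φ) c ^ 2 := by
  unfold enJ
  rw [src_CN hl hT, mulVec_smul, CN_CNt hl, mul_sum]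
  refine sum_congr rfl fun c _ => ?_
  rw [Pi.smul_apply, smul_eq_mul, mul_pow]

/-- energy of what the cut removes -/
lemma en_cut (hl : l ∣ N) {w w₀ : Finset (V (N / l))} (h0 : w₀.Nonempty) (φ : V (N / l) → ℝ) :
    ∑ x, (lf N l φ x - lf N l (cutA w w₀ φ) x) ^ 2 ≤
      4 * ((N / l : ℕ) : ℝ) ^ 2 * (l : ℝ) ^ 2 *
        ∑ c, ((Pn : Matrix (V (N / l)) (V (N / l)) ℝ) *ᵥ φ) c ^ 2 := by
  have hc : (0 : ℝ) < w₀.card := by exact_mod_cast h0.card_pos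
  have hc1 : (1 : ℝ) ≤ w₀.card := by exact_mod_cast h0.card_pos
  set G := (Pn : Matrix (V (N / l)) (V (N / l)) ℝ) *ᵥ φ with hG
  set E := ∑ c, G c ^ 2 with hE
  have hE0 : 0 ≤ E := sum_nonneg fun _ _ => sq_nonneg _
  set av := (w₀.card : ℝ)⁻¹ * ∑ y ∈ w₀, G y with hav
  have hav2 : av ^ 2 ≤ E := by
    have h1 : (∑ y ∈ w₀, G y) ^ 2 ≤ w₀.card * ∑ y ∈ w₀, G y ^ 2 := sq_sum_le_card_mul_sum_sq
    have h2 : ∑ y ∈ w₀, G y ^ 2 ≤ E := sum_le_univ_sum_of_nonneg fun _ => sq_nonneg _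
    have h3 : av ^ 2 = (∑ y ∈ w₀, G y) ^ 2 / (w₀.card : ℝ) ^ 2 := by
      rw [hav]
      field_simp
    rw [h3, div_le_iff₀ (by positivity)]
    have h4 : 0 ≤ E * ((w₀.card : ℝ) ^ 2 - w₀.card) :=
      mul_nonneg hE0 (by nlinarith)
    have h5 : (w₀.card : ℝ) * ∑ y ∈ w₀, G y ^ 2 ≤ w₀.card * E :=
      mul_le_mul_of_nonneg_left h2 hc.le
    nlinarith
  -- pointwise
  have hpt : ∀ c, (φ c - cutA w w₀ φ c) ^ 2 ≤ 2 * G c ^ 2 + 2 * E := by
    intro c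
    have e1 : ∀ c, φ c = G c + (∑ y, φ y) / Fintype.card (V (N / l)) := by
      intro c
      rw [hG, H963.Pn_mulVec]
      ring
    unfold cutA
    split_ifs with hw
    · rw [sub_self]
      have := sq_nonneg (G c)
      nlinarith
    · have e2 : (w₀.card : ℝ)⁻¹ * ∑ y ∈ w₀, φ y = av + (∑ y, φ y) / Fintype.card (V (N / l)) := by
        rw [sum_congr rfl fun y _ => e1 y, sum_add_distrib, sum_const, nsmul_eq_mul, mul_add,
          inv_mul_cancel_left₀ hc.ne']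
      rw [e1 c, e2]
      nlinarith [sq_nonneg (G c + av)]
  have h1 : ∀ x : V N, (lf N l φ x - lf N l (cutA w w₀ φ) x) ^ 2 =
      (fun c => (φ c - cutA w w₀ φ c) ^ 2) (cl x) := fun x => rfl
  simp_rw [h1]
  have h2 : ∑ x : V N, (fun c : V (N / l) => (φ c - cutA w w₀ φ c) ^ 2) (cl x) =
      (l : ℝ) ^ 2 * ∑ c, (φ c - cutA w w₀ φ c) ^ 2 := by
    rw [← Finset.sum_fiberwise (s := (univ : Finset (V N))) (g := fun x => (cl x : V (N / l))),
      mul_sum]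
    refine sum_congr rfl fun c _ => ?_
    have h3 : ∑ x ∈ univ.filter (fun x : V N => (cl x : V (N / l)) = c),
        (fun c : V (N / l) => (φ c - cutA w w₀ φ c) ^ 2) (cl x) =
        ∑ x ∈ univ.filter (fun x : V N => (cl x : V (N / l)) = c), (φ c - cutA w w₀ φ c) ^ 2 := by
      refine sum_congr rfl fun x hx => ?_
      rw [(mem_filter.1 hx).2]
    rw [h3, sum_const, nsmul_eq_mul, H864.card_cell hl]
  rw [h2]
  have hn : (1 : ℝ) ≤ ((N / l : ℕ) : ℝ) ^ 2 := by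
    have : (1 : ℝ) ≤ ((N / l : ℕ) : ℝ) := by exact_mod_cast NeZero.pos (N / l)
    nlinarith
  have h3 : ∑ c, (φ c - cutA w w₀ φ c) ^ 2 ≤ 2 * E + 2 * ((N / l : ℕ) : ℝ) ^ 2 * E := by
    refine (sum_le_sum fun c _ => hpt c).trans (le_of_eq ?_)
    rw [sum_add_distrib, ← mul_sum, sum_const, card_univ, nsmul_eq_mul, H963.cardV]
    ring
  have hl2 : (0 : ℝ) ≤ (l : ℝ) ^ 2 := sq_nonneg _
  calc (l : ℝ) ^ 2 * ∑ c, (φ c - cutA w w₀ φ c) ^ 2
      ≤ (l : ℝ) ^ 2 * (4 * ((N / l : ℕ) : ℝ) ^ 2 * E) := by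
        refine mul_le_mul_of_nonneg_left (h3.trans ?_) hl2
        nlinarith
    _ = _ := by ring

/-- the removed part lives outside the window -/
lemma cut_supp {w w₀ : Finset (V (N / l))} (φ : V (N / l) → ℝ) {x : V N}
    (hx : lf N l φ x - lf N l (cutA w w₀ φ) x ≠ 0) : (cl x : V (N / l)) ∉ w := by
  intro h
  apply hx
  unfold H363.lf cutA
  rw [if_pos h, sub_self]

lemma qf_Pn_le (F : V (N / l) → ℝ) :
    qf (Pn : Matrix (V (N / l)) (V (N / l)) ℝ) F ≤ ∑ c, F c ^ 2 := by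
  rw [qf_eq, H963.Pn_mulVec]
  unfold dotProduct
  have e : ∑ c, F c * (F c - (∑ y, F y) / (Fintype.card (V (N / l)) : ℝ)) =
      ∑ c, F c ^ 2 - (∑ y, F y) ^ 2 / (Fintype.card (V (N / l)) : ℝ) := by
    simp_rw [mul_sub]
    rw [sum_sub_distrib, ← sum_mul]
    congr 1
    · exact sum_congr rfl fun c _ => by ring
    · ring
  rw [e]
  have : 0 ≤ (∑ y, F y) ^ 2 / (Fintype.card (V (N / l)) : ℝ) := by positivity
  linarith

/-- **Markov for the Gaussian energy** -/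
lemma en_prob (hb : 0 < b) (hl : l ∣ N) (hs : 0 < s) (hsT : s < T)
    {A : Matrix (V (N / l)) I ℝ} (hA : A * Aᵀ = Sgn N l b T s) {E : ℝ} (hE : 0 < E) :
    (gau I).real {g | E < enJ N l (((CN N l)ᵀ * A) *ᵥ g)} ≤
      ((N / l : ℕ) : ℝ) ^ 2 * (T ^ 2 / s) / E := by
  have hT : 0 < T := hs.trans hsT
  have h0 : ∀ g : I → ℝ, enJ N l (((CN N l)ᵀ * A) *ᵥ g) ≤ ∑ c, (A *ᵥ g) c ^ 2 := by
    intro g
    unfold enJ
    have e : CN N l *ᵥ (((CN N l)ᵀ * A) *ᵥ g) = Pn *ᵥ (A *ᵥ g) := by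
      rw [← mulVec_mulVec g, CN_CNt hl]
    rw [e, ← sum_Pn_sq]
    exact qf_Pn_le _
  have hi : ∀ c, Integrable (fun g : I → ℝ => (A *ᵥ g) c ^ 2) (gau I) := by
    intro c
    have h1 : H37.EGr fun g : I → ℝ => (A *ᵥ g) c := H239.egr_mv (H159.egr_coord c) A
    have h2 := H708.egr_integrable (h1.mul h1)
    simpa only [← pow_two] using h2
  have hsum : ∫ g, ∑ c, (A *ᵥ g) c ^ 2 ∂(gau I) ≤ ((N / l : ℕ) : ℝ) ^ 2 * (T ^ 2 / s) := by
    rw [integral_finsetSum _ fun c _ => hi c]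
    have h1 : ∀ c, ∫ g, (A *ᵥ g) c ^ 2 ∂(gau I) ≤ T ^ 2 / s := by
      intro c
      have h2 := H239.int_mv_mul A A c c
      simp only [← pow_two] at h2
      rw [h2, hA]
      have h3 := H859.Sgn_up_all hb hl hT hs hsT (Pi.single c (1 : ℝ) : V (N / l) → ℝ)
      have h4 : qf (Sgn N l b T s) (Pi.single c (1 : ℝ)) = Sgn N l b T s c c := by
        rw [qf_eq, mulVec_single_one, single_one_dotProduct]
        rfl
      have h5 : ∑ x, (Pi.single c (1 : ℝ) : V (N / l) → ℝ) x ^ 2 = 1 := by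
        rw [sum_eq_single c]
        · rw [Pi.single_eq_same, one_pow]
        · intro x _ hx
          rw [Pi.single_eq_of_ne hx]
          norm_num
        · intro hx
          exact absurd (mem_univ _) hx
      rw [h4, h5, mul_one] at h3
      exact h3
    refine (sum_le_sum fun c _ => h1 c).trans (le_of_eq ?_)
    rw [sum_const, card_univ, nsmul_eq_mul, H963.cardV]
  have hm := mul_meas_ge_le_integral_of_nonneg (μ := gau I)
    (f := fun g : I → ℝ => ∑ c, (A *ᵥ g) c ^ 2)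
    (Filter.Eventually.of_forall fun g => sum_nonneg fun _ _ => sq_nonneg _)
    (integrable_finsetSum _ fun c _ => hi c) E
  rw [le_div_iff₀ hE]
  have h6 : (gau I).real {g | E < enJ N l (((CN N l)ᵀ * A) *ᵥ g)} ≤
      (gau I).real {g | E ≤ ∑ c, (A *ᵥ g) c ^ 2} :=
    measureReal_mono fun g hg => (le_of_lt (lt_of_lt_of_le hg (h0 g)))
  calc _ ≤ (gau I).real {g | E ≤ ∑ c, (A *ᵥ g) c ^ 2} * E :=
        mul_le_mul_of_nonneg_right h6 hE.le
    _ = E * (gau I).real {g | E ≤ ∑ c, (A *ᵥ g) c ^ 2} := mul_comm _ _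
    _ ≤ _ := hm.trans hsum

end

end Vale.Agent.P159.H415
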