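import Vale.Agent.P159.H415.TrC
import Vale.Agent.P159.H415.Mono

/-!
P159, module CH2 (helper415), part 23: **the step of CH2** from level `n` to level `m`, all tori of
the new level (`ch2_next`).
-/

set_option linter.unusedSectionVars false

namespace Vale.Agent.P159.H415

open Finset Matrix Filter Topology
open Vale.Agent.P159.H896 (Om)
open Vale.Agent.P159.H43 (ch2)
open Vale.Agent.P159.H864 (yt)
open Vale.Agent.P159.TM.Spec (V Rng)
open Vale.Agent.P159.TM.SpecC (wT)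
open Vale.Agent.P159.H972 (lg tn Par RNG)

noncomputable section

/-- **CH2**: the harmonics `|q| ≥ 2` at mass `4 t_n` on all tori of level `n`, size `Z` per
`ξ × ξ` block -/
def CH2 (P : Par) (b : ℝ) (n : ℕ) (e Z : ℝ) : Prop :=
  ∀ r, P.TT n e r →
    ch2 (wT b (2 ^ r)) ((4 * tn n) • (1 : Matrix (V (2 ^ r)) (V (2 ^ r)) ℝ)) 0 ≤
      (2 ^ (r - n)) ^ 2 * Z

lemma CH2.mono {P : Par} {b : ℝ} {n : ℕ} {e Z Z' : ℝ} (h : CH2 P b n e Z) (hZ : Z ≤ Z') :
    CH2 P b n e Z' := fun r hr =>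
  (h r hr).trans (mul_le_mul_of_nonneg_left hZ (by positivity))

/-- the same at every smaller mass (in particular `t_n`) -/
lemma CH2.mass {P : Par} {b : ℝ} {n : ℕ} {e Z : ℝ} (hb : 0 < b) (h : CH2 P b n e Z) {r : ℕ}
    (hr : P.TT n e r) {t : ℝ} (ht : 0 < t) (ht4 : t ≤ 4 * tn n) :
    ch2 (wT b (2 ^ r)) (t • (1 : Matrix (V (2 ^ r)) (V (2 ^ r)) ℝ)) 0 ≤
      (2 ^ (r - n)) ^ 2 * Z :=
  (ch2_scalar ht ht4 (H896.wp_t hb.le ht).toWM).trans (h r hr)

lemma lg_near {th e e' : ℝ} (h0 : 0 ≤ th) (h1 : th ≤ 1) (he : 0 < e) (he' : e / 2 ≤ e') :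
    lg th e' ≤ lg th e + 1 := by
  unfold lg
  have h3 : Real.logb 2 (1 / e') ≤ Real.logb 2 (1 / e) + 1 := by
    have e1 : Real.logb 2 (1 / e) + 1 = Real.logb 2 (1 / (e / 2)) := by
      rw [show 1 / (e / 2) = (1 / e) * 2 by field_simp, Real.logb_mul (by positivity) (by norm_num),
        Real.logb_self_eq_one (by norm_num)]
    rw [e1]
    have he0 : 0 < e' := by linarith
    refine Real.logb_le_logb_of_le one_lt_two (by positivity) ?_
    exact one_div_le_one_div_of_le (by positivity) he'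
  have h4 : th * Real.logb 2 (1 / e') ≤ th * Real.logb 2 (1 / e) + 1 := by nlinarith
  by_cases h5 : 0 ≤ th * Real.logb 2 (1 / e)
  · calc ⌈th * Real.logb 2 (1 / e')⌉₊ ≤ ⌈th * Real.logb 2 (1 / e) + (1 : ℕ)⌉₊ :=
          Nat.ceil_mono (by push_cast; exact h4)
      _ = _ := Nat.ceil_add_natCast h5 1
  · push Not at h5
    have : ⌈th * Real.logb 2 (1 / e')⌉₊ ≤ 1 := by
      rw [Nat.ceil_le]
      push_cast
      linarith
    omega

/-- scalar: the contraction -/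
lemma sc7 {th thp : ℝ} (h1 : 0 < th) (h2 : 10 * th ≤ thp) (h3 : 20 * thp ≤ 1 / 34) :
    ∀ᶠ e in 𝓝[>] (0 : ℝ), ∀ d k' : ℕ, lg thp e ≤ d → d ≤ 4 * lg thp e → k' ≤ lg th e + 1 →
      (2 : ℝ) ^ (4 * d + 2 * k') * (e ^ (-(th / 4)) * (2 : ℝ) ^ (-(9 / 2 * (d : ℝ))) +
        e ^ (1 / 17 : ℝ)) ≤ 1 / 2 * (2 : ℝ) ^ (-(1 / 4 * (d : ℝ))) ∧
      e ^ (-(th / 4)) * (2 : ℝ) ^ (-(9 / 2 * (d : ℝ))) + e ^ (1 / 17 : ℝ) ≤ 1 ∧
      16 * (2 : ℝ) ^ (6 * d + 4 * k') ≤ e ^ (-(26 * thp)) := by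
  have hp0 : 0 < thp := by linarith
  filter_upwards [ev_half, ev_pow (A := 1 / 64) (c := (thp - 9 * th) / 4) (by norm_num)
    (by linarith), ev_pow (A := 1 / 2 ^ 23) (c := 1 / 17 - 17 * thp - 2 * th) (by norm_num)
    (by linarith), ev_const (2 ^ 36) (c := 2 * thp - 4 * th) (by linarith),
    ev_pow (A := 1 / 2) (c := 1 / 17) (by norm_num) (by norm_num),
    ev_pow (A := 1 / 2) (c := 9 / 2 * thp - th / 4) (by norm_num) (by linarith)]
    with e he g1 g2 g3 g4 g5 d k' hd1 hd2 hk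
  have he1 : e ≤ 1 := he.2.trans (by norm_num)
  have u0 : 0 ≤ Real.logb 2 (1 / e) :=
    Real.logb_nonneg one_lt_two ((le_div_iff₀ he.1).2 (by linarith))
  have l1 := lg_ge' thp e
  have l2 := lg_le' (c := thp) hp0.le he.1 he1
  have l3 := lg_le' (c := th) h1.le he.1 he1
  obtain ⟨u, hu⟩ : ∃ u : ℝ, u = Real.logb 2 (1 / e) := ⟨_, rfl⟩
  rw [← hu] at u0 l1 l2 l3
  have pw : ∀ c : ℝ, e ^ (-c) = (2 : ℝ) ^ (c * u) := fun c => by rw [hu, two_rpow_logb he.1]
  have pw' : ∀ c : ℝ, e ^ c = (2 : ℝ) ^ (-(c * u)) := fun c => by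
    rw [← neg_neg c, pw (-c)]
    congr 1
    ring
  have hdR1 : (lg thp e : ℝ) ≤ d := by exact_mod_cast hd1
  have hdR2 : (d : ℝ) ≤ 4 * lg thp e := by exact_mod_cast hd2
  have hkR : (k' : ℝ) ≤ lg th e + 1 := by exact_mod_cast hk
  have d0 : (0 : ℝ) ≤ d := Nat.cast_nonneg d
  refine ⟨?_, ?_, ?_⟩
  · have e1 : (2 : ℝ) ^ (4 * d + 2 * k') = (2 : ℝ) ^ ((4 * d + 2 * k' : ℕ) : ℝ) :=
      (Real.rpow_natCast _ _).symm
    rw [mul_add]
    have a1 : (2 : ℝ) ^ (4 * d + 2 * k') * (e ^ (-(th / 4)) * (2 : ℝ) ^ (-(9 / 2 * (d : ℝ)))) ≤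
        1 / 4 * (2 : ℝ) ^ (-(1 / 4 * (d : ℝ))) := by
      have a2 : (2 : ℝ) ^ (4 * d + 2 * k') * (e ^ (-(th / 4)) * (2 : ℝ) ^ (-(9 / 2 * (d : ℝ)))) ≤
          16 * e ^ ((thp - 9 * th) / 4) * (2 : ℝ) ^ (-(1 / 4 * (d : ℝ))) := by
        rw [e1, pw, pw', show (16 : ℝ) = (2 : ℝ) ^ (4 : ℝ) by norm_num,
          ← Real.rpow_add (by norm_num), ← Real.rpow_add (by norm_num),
          ← Real.rpow_add (by norm_num), ← Real.rpow_add (by norm_num)]
        refine Real.rpow_le_rpow_of_exponent_le (by norm_num) ?_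
        push_cast
        nlinarith
      have a3 : (0 : ℝ) < (2 : ℝ) ^ (-(1 / 4 * (d : ℝ))) := by positivity
      nlinarith
    have b1 : (2 : ℝ) ^ (4 * d + 2 * k') * e ^ (1 / 17 : ℝ) ≤
        1 / 4 * (2 : ℝ) ^ (-(1 / 4 * (d : ℝ))) := by
      have b2 : (2 : ℝ) ^ (4 * d + 2 * k') * e ^ (1 / 17 : ℝ) ≤
          2 ^ 21 * e ^ (1 / 17 - 17 * thp - 2 * th) * (2 : ℝ) ^ (-(1 / 4 * (d : ℝ))) := by
        rw [e1, pw', pw', show (2 : ℝ) ^ (21 : ℕ) = (2 : ℝ) ^ (21 : ℝ) by norm_num,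
          ← Real.rpow_add (by norm_num), ← Real.rpow_add (by norm_num),
          ← Real.rpow_add (by norm_num)]
        refine Real.rpow_le_rpow_of_exponent_le (by norm_num) ?_
        push_cast
        nlinarith
      have a3 : (0 : ℝ) < (2 : ℝ) ^ (-(1 / 4 * (d : ℝ))) := by positivity
      nlinarith
    linarith
  · have a1 : e ^ (-(th / 4)) * (2 : ℝ) ^ (-(9 / 2 * (d : ℝ))) ≤ e ^ (9 / 2 * thp - th / 4) := by
      rw [pw, pw', ← Real.rpow_add (by norm_num)]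
      refine Real.rpow_le_rpow_of_exponent_le (by norm_num) ?_
      nlinarith
    linarith
  · have e1 : (2 : ℝ) ^ (6 * d + 4 * k') = (2 : ℝ) ^ ((6 * d + 4 * k' : ℕ) : ℝ) :=
      (Real.rpow_natCast _ _).symm
    calc 16 * (2 : ℝ) ^ (6 * d + 4 * k') ≤ 2 ^ 36 * e ^ (-(24 * thp + 4 * th)) := by
          rw [e1, pw, show (16 : ℝ) = (2 : ℝ) ^ (4 : ℝ) by norm_num,
            show (2 : ℝ) ^ (36 : ℕ) = (2 : ℝ) ^ (36 : ℝ) by norm_num,
            ← Real.rpow_add (by norm_num), ← Real.rpow_add (by norm_num)]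
          refine Real.rpow_le_rpow_of_exponent_le (by norm_num) ?_
          push_cast
          nlinarith
      _ ≤ e ^ (-(2 * thp - 4 * th)) * e ^ (-(24 * thp + 4 * th)) := by
          have := Real.rpow_pos_of_pos he.1 (-(24 * thp + 4 * th))
          exact mul_le_mul_of_nonneg_right g3 this.le
      _ = _ := by
          rw [← Real.rpow_add he.1]
          congr 1
          ring

/-- scalar: the change of the torus -/
lemma sc8 {th thp c C : ℝ} (q1 : ℕ) (h1 : 0 < th) (h2 : 0 ≤ thp) (hc : 0 < c) (hC : 0 < C)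
    (hq : th + 4 * q1 * thp ≤ 1 / 16) :
    ∀ᶠ e in 𝓝[>] (0 : ℝ), ∀ k : ℕ, k ≤ lg th e + q1 * (4 * lg thp e) →
      e ^ (1 / 4 : ℝ) * (2 ^ (k + 1)) ^ 2 ≤ 1 ∧
      16 * (2 ^ k) ^ 2 ≤ e ^ (-(3 * (th + 4 * q1 * thp))) ∧
      16 * C * (2 ^ k) ^ 2 * Real.exp (-(c * √(2 ^ (lg th e + 1)))) ≤
        Real.exp (-(e ^ (-(th / 4)))) := by
  have ht0 : 0 < th + 4 * q1 * thp := by positivity
  filter_upwards [ev_half, ev_pow (A := 1 / 2 ^ (4 + 8 * (q1 : ℝ))) (c := 1 / 8) (by positivity)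
    (by norm_num), ev_const ((2 : ℝ) ^ (6 + 8 * (q1 : ℝ))) (c := th + 4 * q1 * thp) ht0,
    ev_log ((Real.log C + (6 + 8 * q1) * Real.log 2) / c) (2 * (th + 4 * q1 * thp) * Real.log 2 / c)
      (c := th / 4) (by positivity), ev_const (1 + c⁻¹) (c := th / 4) (by positivity)]
    with e he g1 g2 g3 g4 k hk
  have he1 : e ≤ 1 := he.2.trans (by norm_num)
  have u0 : 0 ≤ Real.logb 2 (1 / e) :=
    Real.logb_nonneg one_lt_two ((le_div_iff₀ he.1).2 (by linarith))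
  have l2 := lg_le' (c := thp) h2 he.1 he1
  have l3 := lg_le' (c := th) h1.le he.1 he1
  have l4 := two_lg_ge' th he.1
  obtain ⟨u, hu⟩ : ∃ u : ℝ, u = Real.logb 2 (1 / e) := ⟨_, rfl⟩
  rw [← hu] at u0 l2 l3 g3
  have pw : ∀ c : ℝ, e ^ (-c) = (2 : ℝ) ^ (c * u) := fun c => by rw [hu, two_rpow_logb he.1]
  have pw' : ∀ c : ℝ, e ^ c = (2 : ℝ) ^ (-(c * u)) := fun c => by
    rw [← neg_neg c, pw (-c)]
    congr 1
    ring
  have hkR : (k : ℝ) ≤ lg th e + q1 * (4 * lg thp e) := by exact_mod_cast hk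
  have hq' : (q1 : ℝ) * (4 * lg thp e) ≤ q1 * (4 * (thp * u + 1)) := by gcongr
  have h5 : (k : ℝ) ≤ (1 + 4 * (q1 : ℝ)) + (th + 4 * q1 * thp) * u := by nlinarith
  have e1 : ∀ j : ℕ, (2 : ℝ) ^ j = (2 : ℝ) ^ (j : ℝ) := fun j => (Real.rpow_natCast _ _).symm
  refine ⟨?_, ?_, ?_⟩
  · calc e ^ (1 / 4 : ℝ) * (2 ^ (k + 1)) ^ 2 ≤
          2 ^ (4 + 8 * (q1 : ℝ)) * e ^ (1 / 8 : ℝ) := by
          rw [← pow_mul, e1, pw', pw', ← Real.rpow_add (by norm_num),
            ← Real.rpow_add (by norm_num)]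
          refine Real.rpow_le_rpow_of_exponent_le (by norm_num) ?_
          push_cast
          nlinarith
      _ ≤ 2 ^ (4 + 8 * (q1 : ℝ)) * (1 / 2 ^ (4 + 8 * (q1 : ℝ))) :=
          mul_le_mul_of_nonneg_left g1 (by positivity)
      _ = 1 := by field_simp
  · calc 16 * ((2 : ℝ) ^ k) ^ 2 ≤ 2 ^ (6 + 8 * (q1 : ℝ)) *
          e ^ (-(2 * (th + 4 * q1 * thp))) := by
          rw [← pow_mul, e1, pw, show (16 : ℝ) = (2 : ℝ) ^ (4 : ℝ) by norm_num,
            ← Real.rpow_add (by norm_num), ← Real.rpow_add (by norm_num)]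
          refine Real.rpow_le_rpow_of_exponent_le (by norm_num) ?_
          push_cast
          nlinarith
      _ ≤ e ^ (-(th + 4 * q1 * thp)) * e ^ (-(2 * (th + 4 * q1 * thp))) := by
          have := Real.rpow_pos_of_pos he.1 (-(2 * (th + 4 * q1 * thp)))
          exact mul_le_mul_of_nonneg_right g2 this.le
      _ = _ := by
          rw [← Real.rpow_add he.1]
          congr 1
          ring
  · have h6 : 16 * ((2 : ℝ) ^ k) ^ 2 ≤
        Real.exp (((6 + 8 * q1) + 2 * (th + 4 * q1 * thp) * u) * Real.log 2) := by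
      have e2 : Real.exp (((6 + 8 * q1) + 2 * (th + 4 * q1 * thp) * u) * Real.log 2) =
          (2 : ℝ) ^ ((6 + 8 * q1) + 2 * (th + 4 * q1 * thp) * u) := by
        rw [Real.rpow_def_of_pos (by norm_num)]
        congr 1
        ring
      rw [e2, ← pow_mul, e1, show (16 : ℝ) = (2 : ℝ) ^ (4 : ℝ) by norm_num,
        ← Real.rpow_add (by norm_num)]
      refine Real.rpow_le_rpow_of_exponent_le (by norm_num) ?_
      push_cast
      nlinarith
    have hCl : C = Real.exp (Real.log C) := (Real.exp_log hC).symm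
    have h7 : e ^ (-(th / 2)) ≤ √(2 ^ (lg th e + 1)) := by
      refine Real.le_sqrt_of_sq_le ?_
      have e3 : (e ^ (-(th / 2))) ^ 2 = e ^ (-th) := by
        rw [← Real.rpow_natCast, ← Real.rpow_mul he.1.le]
        congr 1
        push_cast
        ring
      rw [e3]
      refine l4.trans ?_
      exact pow_le_pow_right₀ (by norm_num) (by omega)
    calc 16 * C * (2 ^ k) ^ 2 * Real.exp (-(c * √(2 ^ (lg th e + 1)))) =
          (16 * ((2 : ℝ) ^ k) ^ 2) * (C * Real.exp (-(c * √(2 ^ (lg th e + 1))))) := by ring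
      _ ≤ Real.exp (((6 + 8 * q1) + 2 * (th + 4 * q1 * thp) * u) * Real.log 2) *
          (C * Real.exp (-(c * √(2 ^ (lg th e + 1))))) :=
          mul_le_mul_of_nonneg_right h6 (by positivity)
      _ = Real.exp (((6 + 8 * q1) + 2 * (th + 4 * q1 * thp) * u) * Real.log 2 + Real.log C -
          c * √(2 ^ (lg th e + 1))) := by
          nth_rewrite 1 [hCl]
          rw [← Real.exp_add, ← Real.exp_add]
          congr 1
          ring
      _ ≤ _ := by
          refine Real.exp_le_exp.2 ?_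
          have h8 := mul_le_mul_of_nonneg_left g3 hc.le
          have e4 : c * ((Real.log C + (6 + 8 * q1) * Real.log 2) / c +
              2 * (th + 4 * q1 * thp) * Real.log 2 / c * u) =
              ((6 + 8 * q1) + 2 * (th + 4 * q1 * thp) * u) * Real.log 2 + Real.log C := by
            field_simp
            ring
          rw [e4] at h8
          have h9 : c * e ^ (-(th / 2)) ≤ c * √(2 ^ (lg th e + 1)) :=
            mul_le_mul_of_nonneg_left h7 hc.le
          have h10 : e ^ (-(th / 2)) = e ^ (-(th / 4)) * e ^ (-(th / 4)) := by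
            rw [← Real.rpow_add he.1]
            congr 1
            ring
          have h11 : 0 < e ^ (-(th / 4)) := Real.rpow_pos_of_pos he.1 _
          have h12 : (c + 1) * 1 ≤ c * e ^ (-(th / 4)) := by
            have h14 := mul_le_mul_of_nonneg_left g4 hc.le
            have e6 : c * (1 + c⁻¹) = c + 1 := by field_simp
            rw [e6] at h14
            linarith
          rw [h10] at h9
          nlinarith

end

end Vale.Agent.P159.H415
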