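import Vale.Agent.P159.H415.StepC

/-!
P159, module CH2 (helper415), part 24: **the step of CH2** (`ch2_next`).
-/

set_option linter.unusedSectionVars false

namespace Vale.Agent.P159.H415

open Finset Matrix Filter Topology
open Vale.Agent.P159.H896 (Om)
open Vale.Agent.P159.H43 (ch2)
open Vale.Agent.P159.H864 (yt)
open Vale.Agent.P159.TM.Spec (V Rng)
open Vale.Agent.P159.TM.SpecC (wT)
open Vale.Agent.P159.H972 (lg tn Par RNG)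

noncomputable section

/-- algebra of the window: density at the base torus of the new level -/
lemma base_dens {G B Z Y F : ℝ} {d k' : ℕ} (hG0 : 0 ≤ G) (hG1 : G ≤ 1) (hB : B ≤ (2 ^ (d + k')) ^ 2 * Z)
    {x : ℝ} (hF : 0 ≤ F)
    (h : x ≤ (2 ^ (d + k')) ^ 2 * (G * (B + 2 * (2 * ((2 ^ (d + k')) ^ 2 * Y)) ^ 2)) +
      (2 * (2 * ((2 ^ (d + k')) ^ 2 * Y)) ^ 2 + F)) :
    x ≤ (2 ^ k') ^ 2 * ((2 : ℝ) ^ (4 * d + 2 * k') * G * Z + 16 * 2 ^ (6 * d + 4 * k') * Y ^ 2 + F) := by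
  have e1 : ((2 : ℝ) ^ (d + k')) ^ 2 = (2 ^ d) ^ 2 * (2 ^ k') ^ 2 := by
    rw [pow_add]
    ring
  have e2 : (2 : ℝ) ^ (4 * d + 2 * k') = (2 ^ d) ^ 4 * (2 ^ k') ^ 2 := by
    rw [pow_add, ← pow_mul, ← pow_mul]
    congr 2 <;> ring
  have e3 : (2 : ℝ) ^ (6 * d + 4 * k') = (2 ^ d) ^ 6 * (2 ^ k') ^ 4 := by
    rw [pow_add, ← pow_mul, ← pow_mul]
    congr 2 <;> ring
  rw [e1] at h hB
  rw [e2, e3]
  obtain ⟨D, hD⟩ : ∃ D : ℝ, D = (2 : ℝ) ^ d := ⟨_, rfl⟩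
  obtain ⟨K, hK⟩ : ∃ K : ℝ, K = (2 : ℝ) ^ k' := ⟨_, rfl⟩
  have hD1 : 1 ≤ D := by rw [hD]; exact one_le_pow₀ (by norm_num)
  have hK1 : 1 ≤ K := by rw [hK]; exact one_le_pow₀ (by norm_num)
  rw [← hD, ← hK] at h hB ⊢
  have h1 : D ^ 2 * K ^ 2 * (G * B) ≤ D ^ 2 * K ^ 2 * (G * (D ^ 2 * K ^ 2 * Z)) := by gcongr
  have h2 : D ^ 2 * K ^ 2 * (G * (8 * (D ^ 4 * K ^ 4 * Y ^ 2))) ≤
      D ^ 2 * K ^ 2 * (1 * (8 * (D ^ 4 * K ^ 4 * Y ^ 2))) := by gcongr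
  have h3 : 8 * (D ^ 4 * K ^ 4 * Y ^ 2) ≤ 8 * (D ^ 6 * K ^ 6 * Y ^ 2) := by
    have h4 : D ^ 4 ≤ D ^ 6 := pow_le_pow_right₀ hD1 (by norm_num)
    have h5 : K ^ 4 ≤ K ^ 6 := pow_le_pow_right₀ hK1 (by norm_num)
    gcongr
  have h4 : F ≤ K ^ 2 * F := le_mul_of_one_le_left hF (one_le_pow₀ hK1)
  calc x ≤ D ^ 2 * K ^ 2 * (G * B) + D ^ 2 * K ^ 2 * (G * (8 * (D ^ 4 * K ^ 4 * Y ^ 2))) +
        8 * (D ^ 4 * K ^ 4 * Y ^ 2) + F := by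
        refine h.trans (le_of_eq ?_)
        ring
    _ ≤ D ^ 2 * K ^ 2 * (G * (D ^ 2 * K ^ 2 * Z)) +
        D ^ 2 * K ^ 2 * (1 * (8 * (D ^ 4 * K ^ 4 * Y ^ 2))) + 8 * (D ^ 6 * K ^ 6 * Y ^ 2) +
        K ^ 2 * F := by linarith
    _ = _ := by ring

/-- algebra of the change of the torus -/
lemma tor_dens {x x0 Y' A F C q : ℝ} {j k' : ℕ} (hkj : k' ≤ j) (hA : x0 ≤ (2 ^ k') ^ 2 * A)
    (hF : 16 * C * (2 ^ j) ^ 2 * q ≤ F)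
    (h : x ≤ 2 * (2 * ((2 ^ j) ^ 2 * Y')) ^ 2 + (2 ^ (j - k')) ^ 2 *
        (x0 + 2 * (2 * ((2 ^ k') ^ 2 * Y')) ^ 2) + C * (2 ^ (j + 1)) ^ 4 * q) :
    x ≤ (2 ^ j) ^ 2 * (A + 16 * (2 ^ j) ^ 2 * Y' ^ 2 + F) := by
  have e1 : (2 : ℝ) ^ j = 2 ^ (j - k') * 2 ^ k' := by
    rw [← pow_add]
    congr 1
    omega
  obtain ⟨D, hD⟩ : ∃ D : ℝ, D = (2 : ℝ) ^ (j - k') := ⟨_, rfl⟩
  obtain ⟨K, hK⟩ : ∃ K : ℝ, K = (2 : ℝ) ^ k' := ⟨_, rfl⟩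
  have hD1 : 1 ≤ D := by rw [hD]; exact one_le_pow₀ (by norm_num)
  have hK1 : 1 ≤ K := by rw [hK]; exact one_le_pow₀ (by norm_num)
  have e2 : (2 : ℝ) ^ (j + 1) = D * K * 2 := by rw [pow_succ, e1, hD, hK]
  rw [e2] at h
  rw [e1] at h hF ⊢
  rw [← hD, ← hK] at h hF ⊢
  rw [← hK] at hA
  have h1 : D ^ 2 * x0 ≤ D ^ 2 * (K ^ 2 * A) := mul_le_mul_of_nonneg_left hA (sq_nonneg _)
  have h2 : D ^ 2 * (8 * (K ^ 4 * Y' ^ 2)) ≤ D ^ 4 * (8 * (K ^ 4 * Y' ^ 2)) :=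
    mul_le_mul_of_nonneg_right (pow_le_pow_right₀ hD1 (by norm_num)) (by positivity)
  have h3 : (D * K) ^ 2 * (16 * C * (D * K) ^ 2 * q) ≤ (D * K) ^ 2 * F :=
    mul_le_mul_of_nonneg_left hF (sq_nonneg _)
  calc x ≤ 8 * (D ^ 4 * K ^ 4 * Y' ^ 2) + (D ^ 2 * x0 + D ^ 2 * (8 * (K ^ 4 * Y' ^ 2))) +
        (D * K) ^ 2 * (16 * C * (D * K) ^ 2 * q) := by
        refine h.trans (le_of_eq ?_)
        ring
    _ ≤ 8 * (D ^ 4 * K ^ 4 * Y' ^ 2) + (D ^ 2 * (K ^ 2 * A) + D ^ 4 * (8 * (K ^ 4 * Y' ^ 2))) +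
        (D * K) ^ 2 * F := by linarith
    _ = _ := by ring

/-- **the step of CH2** -/
theorem ch2_next {b1 : ℝ} (hb1 : 0 < b1) (b2 : ℝ) :
    ∃ W₀ : ℝ, ∀ W : ℝ, W₀ ≤ W → ∃ ys : ℝ, ∃ X : ℕ, 0 < ys ∧
    ∀ (th thp C0 : ℝ) (q1 : ℕ), 0 < th → 10 * th ≤ thp → 20 * thp ≤ 1 / 34 → 0 < C0 →
      th + 4 * q1 * thp ≤ 1 / 16 → ∃ E0 : ℝ, 0 < E0 ∧
    ∀ P : Par, P.b1 = b1 → P.b2 = b2 → P.W = W → P.ys ≤ ys → X ≤ P.X0 → P.th = th →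
      P.thp = thp → P.C0 = C0 → P.q0 ≤ q1 → 2 ≤ P.q0 →
    ∀ (b : ℝ) (n m : ℕ) (e e' Z Y Y' : ℝ), 0 < e → e ≤ E0 → e / 2 ≤ e' → e' ≤ E0 →
      n + P.w e ≤ m → m ≤ n + 4 * P.w e → lg C0 e ≤ n →
      RNG P b n (m + P.kE e') e → (∀ r, P.TT m e' r → RNG P b (m - 1) r e') →
      (∀ _ : NeZero (2 ^ (m + P.kE e') / 2 ^ P.sE n e), H239.TypE (2 ^ (m + P.kE e'))
        (2 ^ P.sE n e) b (tn n) (4 * tn m) (e ^ (-(th / 16))) (e ^ (1 / 16 : ℝ))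
        (Real.exp (-(e ^ (-(th / 16)))))) →
      CH2 P b n e Z → yt (2 ^ (m + P.kE e')) b (4 * tn n) ≤ Y →
      4 * ((2 ^ (m + P.kE e' - n)) ^ 2 * Y) ≤ 1 →
      (∀ r, P.TT m e' r → yt (2 ^ r) b (4 * tn m) ≤ Y' ∧ 4 * ((2 ^ (r - m)) ^ 2 * Y') ≤ 1) →
    CH2 P b m e' (1 / 2 * (2 : ℝ) ^ (-(1 / 4 * ((m - n : ℕ) : ℝ))) * Z +
      e ^ (-(26 * thp)) * Y ^ 2 + e' ^ (-(3 * (th + 4 * q1 * thp))) * Y' ^ 2 +
      Real.exp (-(e ^ (-(th / 128)))) + Real.exp (-(e' ^ (-(th / 4))))) := by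
  obtain ⟨Wa, ysa, Xa, hysa, ha⟩ := ch2_win hb1 b2
  obtain ⟨Wt, ht⟩ := ch2_trs hb1 b2
  refine ⟨max Wa Wt, fun W hW => ?_⟩
  obtain ⟨ct, Ct, yst, Xt, hct, hCt, hyst, ht⟩ := ht W ((le_max_right _ _).trans hW)
  refine ⟨min ysa yst, max Xa Xt, lt_min hysa hyst, ?_⟩
  intro th thp C0 q1 hth hthp hthp2 hC0 hq
  have hthp0 : 0 < thp := by linarith
  obtain ⟨Ea, hEa, ha⟩ := ha th thp C0 q1 hth (by linarith) (by linarith) hC0 (by linarith)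
  obtain ⟨Eb, hEb, hEb2, hb⟩ := le_of_ev ((sc7 hth hthp hthp2).and
    ((sc8 q1 hth hthp0.le hct hCt hq).and (sc1 hth (by linarith : th ≤ thp) hC0)))
  refine ⟨min Ea Eb, lt_min hEa hEb, ?_⟩
  intro P p1 p2 pW py pX pth pthp pC0 pq pq2 b n m e e' Z Y Y' he heE hee' he'E hm1 hm2 hn hR hR'
    hTy hZ hY hYs hY'
  have he' : 0 < e' := by linarith
  obtain ⟨s7, s8, s1⟩ := hb e he (heE.trans (min_le_right _ _))
  obtain ⟨-, s8', -⟩ := hb e' he' (he'E.trans (min_le_right _ _))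
  have he1 : e ≤ 1 / 2 := (heE.trans (min_le_right _ _)).trans hEb2
  have hw : P.w e = lg thp e := by
    unfold Par.w
    rw [pthp]
  have hw' : P.w e' = lg thp e' := by
    unfold Par.w
    rw [pthp]
  have hkE : P.kE e = lg th e := by
    unfold Par.kE
    rw [pth]
  have hkE' : P.kE e' = lg th e' := by
    unfold Par.kE
    rw [pth]
  have hk1 : lg th e' ≤ lg th e + 1 := lg_near hth.le (by linarith) he hee'
  have hkw : lg th e ≤ lg thp e := by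
    unfold lg
    refine Nat.ceil_mono ?_
    have h1 : 0 ≤ Real.logb 2 (1 / e) :=
      Real.logb_nonneg one_lt_two ((le_div_iff₀ he).2 (by linarith))
    exact mul_le_mul_of_nonneg_right (by linarith) h1
  obtain ⟨-, -, -⟩ := s1 (lg thp e) le_rfl
  have hw4 : 4 ≤ lg thp e := by
    have := (s1 (lg thp e) le_rfl).1
    omega
  -- the base torus
  obtain ⟨r0, hr0⟩ : ∃ r0, r0 = m + P.kE e' := ⟨_, rfl⟩
  rw [← hr0] at hR hTy hY hYs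
  have hTT : P.TT n e r0 := by
    unfold Par.TT
    rw [hw] at hm1 hm2 ⊢
    rw [hkE, hr0, hkE']
    refine ⟨by omega, ?_⟩
    have h1 : 2 * (4 * lg thp e) ≤ P.q0 * (4 * lg thp e) := Nat.mul_le_mul_right _ pq2
    omega
  obtain ⟨d, hd⟩ : ∃ d, d = m - n := ⟨_, rfl⟩
  obtain ⟨k', hk'⟩ : ∃ k', k' = P.kE e' := ⟨_, rfl⟩
  have hd1 : lg thp e ≤ d := by rw [hw] at hm1; omega
  have hd2 : d ≤ 4 * lg thp e := by rw [hw] at hm2; omega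
  have hr0n : r0 - n = d + k' := by omega
  have hr0m : r0 - m = k' := by omega
  obtain ⟨g1, g2, g3⟩ := s7 d k' hd1 hd2 (by rw [hk', hkE']; exact hk1)
  have htm := tn_pos' m
  have hbb : 0 < b := by
    unfold RNG at hR
    rw [p1] at hR
    exact lt_of_lt_of_le hb1 hR.hb1
  have htn := tn_pos' n
  -- the window
  have h1 := ha P p1 p2 (by rw [pW]; exact (le_max_left _ _).trans hW) (py.trans (min_le_left _ _))
    ((le_max_left _ _).trans pX) pth pthp pC0 pq b n m r0 e (4 * tn m) Y he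
    (heE.trans (min_le_left _ _)) hR hTT hn (by omega) hm1 hm2 (by linarith) (by linarith) hTy hY hYs
  have hB := CH2.mass hbb hZ hTT (t := 2 * tn n) (by linarith) (by linarith)
  rw [hr0n] at h1 hB
  rw [← hd] at h1 ⊢
  obtain ⟨G, hG⟩ : ∃ G : ℝ, G = e ^ (-(th / 4)) * (2 : ℝ) ^ (-(9 / 2 * (d : ℝ))) +
      e ^ (1 / 17 : ℝ) := ⟨_, rfl⟩
  have hG0 : 0 ≤ G := by
    have a1 := Real.rpow_pos_of_pos he (-(th / 4))
    have a2 := Real.rpow_pos_of_pos he (1 / 17 : ℝ)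
    rw [hG]
    positivity
  rw [← hG] at h1 g1 g2
  have h2 := base_dens hG0 g2 hB (Real.exp_pos _).le h1
  have hZ0 : 0 ≤ Z := by
    have h3 : 0 ≤ (2 ^ (d + k')) ^ 2 * Z := le_trans (H43.nm_nonneg _) hB
    have h4 : (0 : ℝ) < (2 ^ (d + k')) ^ 2 := by positivity
    by_contra hc
    have := mul_neg_of_pos_of_neg h4 (not_le.1 hc)
    linarith
  have hA : (2 : ℝ) ^ (4 * d + 2 * k') * G * Z + 16 * 2 ^ (6 * d + 4 * k') * Y ^ 2 +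
      Real.exp (-(e ^ (-(th / 128)))) ≤ 1 / 2 * (2 : ℝ) ^ (-(1 / 4 * (d : ℝ))) * Z +
      e ^ (-(26 * thp)) * Y ^ 2 + Real.exp (-(e ^ (-(th / 128)))) := by
    have h3 := mul_le_mul_of_nonneg_right g1 hZ0
    have h4 := mul_le_mul_of_nonneg_right g3 (sq_nonneg Y)
    linarith
  -- all tori
  intro r hr
  have hr' := hr
  unfold Par.TT at hr'
  have hTT0 : P.TT m e' r0 := by
    unfold Par.TT
    rw [hr0]
    exact ⟨le_rfl, Nat.le_add_right _ _⟩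
  obtain ⟨hY1, hY2⟩ := hY' r hr
  obtain ⟨hY3, hY4⟩ := hY' r0 hTT0
  obtain ⟨j, hj⟩ : ∃ j, j = r - m := ⟨_, rfl⟩
  have hjq : j ≤ lg th e' + q1 * (4 * lg thp e') := by
    have h5 : P.q0 * (4 * lg thp e') ≤ q1 * (4 * lg thp e') := Nat.mul_le_mul_right _ pq
    rw [hw', hkE'] at hr'
    omega
  obtain ⟨t1, t2, t3⟩ := s8' j hjq
  have h3 := ht P p1 p2 pW (py.trans (min_le_right _ _)) ((le_max_right _ _).trans pX) b m r0 r e'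
    Y' (by omega) (by omega) (by omega) (hR' r0 hTT0) (hR' r hr) (by
      have : r - m + 1 = j + 1 := by omega
      rw [this]
      exact t1) hY3 hY1 hY2
  rw [← hj, hr0m, show r - r0 = j - k' by omega] at h3
  have h4 := tor_dens (q := Real.exp (-(ct * √(2 ^ (k' + 1)))))
    (F := Real.exp (-(e' ^ (-(th / 4))))) (by omega) (h2.trans (mul_le_mul_of_nonneg_left hA
      (by positivity))) (by
        rw [hk', hkE']
        exact t3) h3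
  rw [← hj]
  refine h4.trans (mul_le_mul_of_nonneg_left ?_ (by positivity))
  have h5 := mul_le_mul_of_nonneg_right t2 (sq_nonneg Y')
  linarith

end

end Vale.Agent.P159.H415
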