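import Vale.Agent.P159.H415.Torus

/-!
P159, module CH2 (helper415), part 12: **two volumes**. The density of the charges `|q| ≥ 2` at
background zero is the same on two tori as soon as the densities of the (first or second) derivative
of the free energy in the constant are the same.
-/

set_option linter.unusedSectionVars false

namespace Vale.Agent.P159.H415

open MeasureTheory ProbabilityTheory Finset Matrix
open Vale.Agent.P159.H37 (gau Zn Un ZM Zq wM wt qf qf_eq)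
open Vale.Agent.P159.H764 (NC cm Nt shc UN ZM_cm Zn_cm Un_cm shc_eq continuous_shc)
open Vale.Agent.P159.H896 (Chn WM WP om Om wp_t chn_row ph continuous_ph norm_ph)
open Vale.Agent.P159.H43 (ch2 Phq)
open Vale.Agent.P159.TM.H104 (EM Ex Cv Gr li dU U Cf ddU)
open Vale.Agent.P159.TM.Spec (V)
open Vale.Agent.P159.TM.SpecC (Tor wT)

noncomputable section

section two

variable {V₁ V₂ : Type} [Fintype V₁] [Fintype V₂]
variable {w₁ : (V₁ → ℤ) → ℝ} {W₁ : ℝ} {w₂ : (V₂ → ℤ) → ℝ} {W₂ : ℝ}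
variable (h0₁ : ∀ h, 0 ≤ w₁ h) (hb₁ : ∀ h, w₁ h ≤ W₁) (hp₁ : ∃ h, 0 < w₁ h)
  (hs₁ : ∀ h, w₁ (h + 1) = w₁ h)
variable (h0₂ : ∀ h, 0 ≤ w₂ h) (hb₂ : ∀ h, w₂ h ≤ W₂) (hp₂ : ∃ h, 0 < w₂ h)
  (hs₂ : ∀ h, w₂ (h + 1) = w₂ h)

include h0₁ hb₁ hp₁ hs₁ h0₂ hb₂ hp₂ hs₂

/-- the harmonics of the densities of the free energy -/
theorem Wh_two {t : ℝ} (ht : 0 < t) {v₁ v₂ e : ℝ} (he : 0 ≤ e)
    (F₁ : V₁ → ℝ) (F₂ : V₂ → ℝ)
    (h : ∀ s ∈ Set.Icc (0 : ℝ) 1, |dU w₁ (cm t) (shc F₁ s) (fun _ => 1) / v₁ -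
      dU w₂ (cm t) (shc F₂ s) (fun _ => 1) / v₂| ≤ e)
    {n : ℝ} (hn : 0 < n) {Q : Finset ℤ} (hQ : ∀ q ∈ Q, n ≤ |(q : ℝ)|) :
    nq Q (fun q => Wh w₁ t q F₁ / (v₁ : ℂ) - Wh w₂ t q F₂ / (v₂ : ℂ)) ≤ e / (2 * Real.pi * n) := by
  have hpi := Real.pi_pos
  set f : ℝ → ℝ := fun s => dU w₁ (cm t) (shc F₁ s) (fun _ => 1) / v₁ -
      dU w₂ (cm t) (shc F₂ s) (fun _ => 1) / v₂ with hf
  have hfc : Continuous f := by
    have c1 : Continuous fun s : ℝ => dU w₁ (cm t) (shc F₁ s) (fun _ => 1) :=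
      (continuous_dU' h0₁ hb₁ hp₁ ht _).comp (continuous_shc F₁)
    have c2 : Continuous fun s : ℝ => dU w₂ (cm t) (shc F₂ s) (fun _ => 1) :=
      (continuous_dU' h0₂ hb₂ hp₂ ht _).comp (continuous_shc F₂)
    exact (c1.div_const _).sub (c2.div_const _)
  have hX := nq_bessel' hfc he h Q
  have h1 : ∀ q ∈ Q, ‖Wh w₁ t q F₁ / (v₁ : ℂ) - Wh w₂ t q F₂ / (v₂ : ℂ)‖ ≤
      ‖((1 / (2 * Real.pi * n) : ℝ) : ℂ) * ∫ s in (0 : ℝ)..1, (f s : ℂ) * ph q s‖ := by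
    intro q hq
    have hq0 : 0 < |(q : ℝ)| := lt_of_lt_of_le hn (hQ q hq)
    have hqc : (2 * Real.pi * q * Complex.I : ℂ) ≠ 0 := by
      have hq1 : (q : ℝ) ≠ 0 := fun h => by rw [h] at hq0; simp at hq0
      have hq2 : (q : ℂ) ≠ 0 := by exact_mod_cast hq1
      have hpc : (Real.pi : ℂ) ≠ 0 := by exact_mod_cast hpi.ne'
      simp [hq2, hpc]
    have e1 := Dh_one h0₁ hb₁ hp₁ hs₁ ht q F₁
    have e2 := Dh_one h0₂ hb₂ hp₂ hs₂ ht q F₂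
    have i1 : IntervalIntegrable (fun s : ℝ => (dU w₁ (cm t) (shc F₁ s) (fun _ => 1) : ℂ) *
        ph q s) volume 0 1 := ((cont_s_dU h0₁ hb₁ hp₁ ht F₁ _).mul
          (continuous_ph q)).intervalIntegrable _ _
    have i2 : IntervalIntegrable (fun s : ℝ => (dU w₂ (cm t) (shc F₂ s) (fun _ => 1) : ℂ) *
        ph q s) volume 0 1 := ((cont_s_dU h0₂ hb₂ hp₂ ht F₂ _).mul
          (continuous_ph q)).intervalIntegrable _ _
    have e3 : ∫ s in (0 : ℝ)..1, (f s : ℂ) * ph q s =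
        (2 * Real.pi * q * Complex.I) * (Wh w₁ t q F₁ / (v₁ : ℂ) - Wh w₂ t q F₂ / (v₂ : ℂ)) := by
      have e4 : (2 * Real.pi * q * Complex.I) *
          (Wh w₁ t q F₁ / (v₁ : ℂ) - Wh w₂ t q F₂ / (v₂ : ℂ)) =
          (v₁ : ℂ)⁻¹ * Dh w₁ t q (fun _ => 1) F₁ - (v₂ : ℂ)⁻¹ * Dh w₂ t q (fun _ => 1) F₂ := by
        rw [e1, e2]
        ring
      rw [e4]
      unfold Dh
      rw [← intervalIntegral.integral_const_mul, ← intervalIntegral.integral_const_mul,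
        ← intervalIntegral.integral_sub (i1.const_mul _) (i2.const_mul _)]
      refine intervalIntegral.integral_congr fun s _ => ?_
      simp only [hf]
      push_cast
      ring
    rw [e3, norm_mul, norm_mul, ← mul_assoc]
    have h2 : ‖(2 * Real.pi * q * Complex.I : ℂ)‖ = 2 * Real.pi * |(q : ℝ)| := by
      simp [abs_of_pos hpi]
    have h3 : 1 ≤ ‖((1 / (2 * Real.pi * n) : ℝ) : ℂ)‖ * ‖(2 * Real.pi * q * Complex.I : ℂ)‖ := by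
      rw [h2, Complex.norm_real, Real.norm_eq_abs, abs_of_pos (by positivity), one_div,
        inv_mul_eq_div, le_div_iff₀ (by positivity), one_mul]
      have := hQ q hq
      gcongr
    exact le_mul_of_one_le_left (norm_nonneg _) h3
  refine (nq_mono h1).trans ?_
  rw [nq_mul, Complex.norm_real, Real.norm_eq_abs, abs_of_pos (by positivity)]
  refine (mul_le_mul_of_nonneg_left hX (by positivity)).trans (le_of_eq ?_)
  ring

/-- **the charges `|q| ≥ 2` in two volumes** -/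
theorem ch2_two [DecidableEq V₁] [DecidableEq V₂] {t ω₁ ω₂ : ℝ} (ht : 0 < t) (hω₁ : ω₁ ≤ 1 / 2)
    (hω₂ : ω₂ ≤ 1 / 2) (hc₁ : CH w₁ t ω₁) (hc₂ : CH w₂ t ω₂)
    (hwm₁ : WM w₁ (t • (1 : Matrix V₁ V₁ ℝ))) (hwm₂ : WM w₂ (t • (1 : Matrix V₂ V₂ ℝ)))
    {v₁ v₂ e : ℝ} (hv₁ : 0 < v₁) (hv₂ : 0 < v₂) (he : 0 ≤ e)
    (h : ∀ s ∈ Set.Icc (0 : ℝ) 1, |dU w₁ (cm t) (shc 0 s) (fun _ => 1) / v₁ -
      dU w₂ (cm t) (shc 0 s) (fun _ => 1) / v₂| ≤ e) :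
    ch2 w₁ (t • (1 : Matrix V₁ V₁ ℝ)) 0 ≤ 2 * ω₁ ^ 2 + v₁ / v₂ *
      (ch2 w₂ (t • (1 : Matrix V₂ V₂ ℝ)) 0 + 2 * ω₂ ^ 2) + v₁ * (e / (4 * Real.pi)) := by
  have hpi := Real.pi_pos
  have hB0 : 0 ≤ ch2 w₂ (t • (1 : Matrix V₂ V₂ ℝ)) 0 := H43.nm_nonneg _
  refine ch2_le_of_nq hwm₁.sym hwm₁.em (by positivity) fun Q hQ => ?_
  have hq0 : ∀ q ∈ Q, q ≠ 0 := by
    intro q hq h
    have := hQ q hq
    rw [h] at this
    norm_num at this
  have a1 : nq Q (fun q => Pq w₁ t q 0 + Wh w₁ t q 0) ≤ 2 * ω₁ ^ 2 := by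
    obtain ⟨f, hf, hb, hfe⟩ := Pq_Wh_hat h0₁ hb₁ hp₁ hs₁ ht hω₁ hc₁ 0
    rw [nq_congr fun q hq => hfe q (hq0 q hq)]
    exact nq_bessel' hf (by positivity) (fun s _ => hb s) Q
  have a2 : nq Q (fun q => Pq w₂ t q 0 + Wh w₂ t q 0) ≤ 2 * ω₂ ^ 2 := by
    obtain ⟨f, hf, hb, hfe⟩ := Pq_Wh_hat h0₂ hb₂ hp₂ hs₂ ht hω₂ hc₂ 0
    rw [nq_congr fun q hq => hfe q (hq0 q hq)]
    exact nq_bessel' hf (by positivity) (fun s _ => hb s) Q
  have a3 := Wh_two h0₁ hb₁ hp₁ hs₁ h0₂ hb₂ hp₂ hs₂ ht he 0 0 h (n := 2) (by norm_num) hQ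
  have a4 : nq Q (fun q => Phq w₂ (t • (1 : Matrix V₂ V₂ ℝ)) q 0) ≤
      ch2 w₂ (t • (1 : Matrix V₂ V₂ ℝ)) 0 := nq_le_ch2 hwm₂.sym hwm₂.em 0 hQ
  simp only [Phq_scalar] at a4 ⊢
  have a5 : nq Q (fun q => Wh w₂ t q 0) ≤ ch2 w₂ (t • (1 : Matrix V₂ V₂ ℝ)) 0 + 2 * ω₂ ^ 2 := by
    have e1 : nq Q (fun q => Wh w₂ t q 0) =
        nq Q (fun q => (Pq w₂ t q 0 + Wh w₂ t q 0) - Pq w₂ t q 0) :=
      nq_congr fun q _ => by ring
    rw [e1]
    refine (nq_sub Q _ _).trans ?_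
    linarith
  have a6 : nq Q (fun q => Wh w₁ t q 0) ≤ v₁ * (e / (2 * Real.pi * 2)) +
      v₁ / v₂ * (ch2 w₂ (t • (1 : Matrix V₂ V₂ ℝ)) 0 + 2 * ω₂ ^ 2) := by
    have hv1c : (v₁ : ℂ) ≠ 0 := by exact_mod_cast hv₁.ne'
    have hv2c : (v₂ : ℂ) ≠ 0 := by exact_mod_cast hv₂.ne'
    have e1 : nq Q (fun q => Wh w₁ t q 0) =
        nq Q (fun q => (v₁ : ℂ) * (Wh w₁ t q 0 / (v₁ : ℂ) - Wh w₂ t q 0 / (v₂ : ℂ)) +
          ((v₁ / v₂ : ℝ) : ℂ) * Wh w₂ t q 0) := by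
      refine nq_congr fun q _ => ?_
      push_cast
      field_simp
      ring
    rw [e1]
    refine (nq_add Q _ _).trans ?_
    rw [nq_mul, nq_mul, Complex.norm_real, Complex.norm_real, Real.norm_eq_abs, Real.norm_eq_abs,
      abs_of_pos hv₁, abs_of_pos (div_pos hv₁ hv₂)]
    exact add_le_add (mul_le_mul_of_nonneg_left a3 hv₁.le)
      (mul_le_mul_of_nonneg_left a5 (div_pos hv₁ hv₂).le)
  have e1 : nq Q (fun q => Pq w₁ t q 0) =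
      nq Q (fun q => (Pq w₁ t q 0 + Wh w₁ t q 0) - Wh w₁ t q 0) :=
    nq_congr fun q _ => by ring
  rw [e1]
  refine (nq_sub Q _ _).trans ?_
  have e2 : v₁ * (e / (2 * Real.pi * 2)) = v₁ * (e / (4 * Real.pi)) := by ring
  rw [e2] at a6
  linarith

/-- first derivatives from second derivatives: both free energies are periodic in the constant -/
theorem dU_two {t : ℝ} (ht : 0 < t) {v₁ v₂ e : ℝ} (F₁ : V₁ → ℝ) (F₂ : V₂ → ℝ)
    (h : ∀ s : ℝ, |ddU w₁ (cm t) (shc F₁ s) (fun _ => 1) (fun _ => 1) / v₁ -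
      ddU w₂ (cm t) (shc F₂ s) (fun _ => 1) (fun _ => 1) / v₂| ≤ e) :
    ∀ s ∈ Set.Icc (0 : ℝ) 1, |dU w₁ (cm t) (shc F₁ s) (fun _ => 1) / v₁ -
      dU w₂ (cm t) (shc F₂ s) (fun _ => 1) / v₂| ≤ e := by
  set G : ℝ → ℝ := fun s => U w₁ (cm t) (shc F₁ s) / v₁ - U w₂ (cm t) (shc F₂ s) / v₂ with hG
  set f : ℝ → ℝ := fun s => dU w₁ (cm t) (shc F₁ s) (fun _ => 1) / v₁ -
      dU w₂ (cm t) (shc F₂ s) (fun _ => 1) / v₂ with hf
  have hGd : ∀ s, HasDerivAt G (f s) s := by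
    intro s
    have h1 := (TM.H104.hasDerivAt_U (m := cm t) (fun _ => ht) h0₁ hb₁ hp₁ F₁ (fun _ => 1) s)
    have h2 := (TM.H104.hasDerivAt_U (m := cm t) (fun _ => ht) h0₂ hb₂ hp₂ F₂ (fun _ => 1) s)
    have e1 : ∀ s : ℝ, F₁ + s • (fun _ : V₁ => (1 : ℝ)) = shc F₁ s := fun s => (shc_eq F₁ s).symm
    have e2 : ∀ s : ℝ, F₂ + s • (fun _ : V₂ => (1 : ℝ)) = shc F₂ s := fun s => (shc_eq F₂ s).symm
    simp only [e1] at h1
    simp only [e2] at h2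
    exact (h1.div_const v₁).sub (h2.div_const v₂)
  have hfd : ∀ s, HasDerivAt f (ddU w₁ (cm t) (shc F₁ s) (fun _ => 1) (fun _ => 1) / v₁ -
      ddU w₂ (cm t) (shc F₂ s) (fun _ => 1) (fun _ => 1) / v₂) s := by
    intro s
    have h1 := (TM.H104.hasDerivAt_dU (m := cm t) (fun _ => ht) h0₁ hb₁ hp₁ F₁ (fun _ => 1)
      (fun _ => 1) s)
    have h2 := (TM.H104.hasDerivAt_dU (m := cm t) (fun _ => ht) h0₂ hb₂ hp₂ F₂ (fun _ => 1)
      (fun _ => 1) s)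
    have e1 : ∀ s : ℝ, F₁ + s • (fun _ : V₁ => (1 : ℝ)) = shc F₁ s := fun s => (shc_eq F₁ s).symm
    have e2 : ∀ s : ℝ, F₂ + s • (fun _ : V₂ => (1 : ℝ)) = shc F₂ s := fun s => (shc_eq F₂ s).symm
    simp only [e1] at h1
    simp only [e2] at h2
    exact (h1.div_const v₁).sub (h2.div_const v₂)
  have hG01 : G 0 = G 1 := by
    have h1 := U_shc_one h0₁ hb₁ hp₁ hs₁ ht F₁
    have h2 := U_shc_one h0₂ hb₂ hp₂ hs₂ ht F₂
    simp only [hG]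
    rw [h1, h2]
    have e1 : shc F₁ 0 = F₁ := by funext x; simp [shc]
    have e2 : shc F₂ 0 = F₂ := by funext x; simp [shc]
    rw [e1, e2]
  -- a zero of `f`
  obtain ⟨z, hz, hz0⟩ : ∃ z ∈ Set.Ioo (0 : ℝ) 1, f z = 0 := by
    have hcG : ContinuousOn G (Set.Icc 0 1) := fun s _ => (hGd s).continuousAt.continuousWithinAt
    exact exists_hasDerivAt_eq_zero zero_lt_one hcG hG01 fun s _ => hGd s
  intro s hs
  have h3 : ‖f s - f z‖ ≤ e * ‖s - z‖ := by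
    refine Convex.norm_image_sub_le_of_norm_hasDerivWithin_le (f := f) (s := Set.univ)
      (fun x _ => (hfd x).hasDerivWithinAt) (fun x _ => by
        rw [Real.norm_eq_abs]; exact h x) convex_univ (Set.mem_univ _) (Set.mem_univ _)
  rw [hz0, sub_zero, Real.norm_eq_abs, Real.norm_eq_abs] at h3
  have h4 : |s - z| ≤ 1 := by
    rw [abs_le]
    constructor <;> linarith [hs.1, hs.2, hz.1, hz.2]
  have h5 : 0 ≤ e := (abs_nonneg _).trans (h 0)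
  calc |f s| ≤ e * |s - z| := h3
    _ ≤ e * 1 := mul_le_mul_of_nonneg_left h4 h5
    _ = e := mul_one e

end two

/-! ### two tori -/

section tor

variable {N N' : ℕ} [NeZero N] [NeZero N'] {b t : ℝ}

/-- the density of the second derivative of the free energy in the constant -/
lemma ddU_wT (F : V N → ℝ) :
    ddU (wT b N) (cm t) F (fun _ => 1) (fun _ => 1) =
      t * (N : ℝ) ^ 2 - t ^ 2 * Cv (wt N b t) (t • F) (li fun _ => 1) (li fun _ => 1) := by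
  have e : TM.H104.bw (wT b N) (cm t : V N → ℝ) = wt N b t := (H864.wt_eq_bw t).symm
  unfold TM.H104.ddU
  rw [TM.H104.Cf_eq, e]
  have e1 : TM.H104.mf (cm t) F = t • F := by
    funext x
    simp [TM.H104.mf, cm]
  have e2 : (TM.H870.lin (cm t) (fun _ => 1) : (V N → ℤ) → ℝ) =
      li (t • fun _ => (1 : ℝ)) := by
    funext h
    simp only [TM.H870.lin, li, cm, Pi.smul_apply, smul_eq_mul]
  rw [e1, e2]
  have e3 : Cv (wt N b t) (t • F) (li (t • fun _ => (1 : ℝ))) (li (t • fun _ => (1 : ℝ))) =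
      t ^ 2 * Cv (wt N b t) (t • F) (li fun _ => 1) (li fun _ => 1) := by
    rw [H612.Cv_smul_smul]
    ring
  rw [e3]
  have e4 : ∑ x : V N, cm t x * 1 * 1 = t * (N : ℝ) ^ 2 := by
    simp only [cm, mul_one, sum_const, card_univ, nsmul_eq_mul]
    have : Fintype.card (V N) = N * N := by
      show Fintype.card (ZMod N × ZMod N) = N * N
      rw [Fintype.card_prod, ZMod.card]
    rw [this]
    push_cast
    ring
  rw [e4]

/-- **the charges `|q| ≥ 2` on two tori** -/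
theorem ch2_tor (hb : 0 ≤ b) (ht : 0 < t) {ω ω' : ℝ} (hω : ω ≤ 1 / 2) (hω' : ω' ≤ 1 / 2)
    (hO : Om (wT b N) (t • (1 : Matrix (V N) (V N) ℝ)) ≤ ω)
    (hO' : Om (wT b N') (t • (1 : Matrix (V N') (V N') ℝ)) ≤ ω') {X : ℝ}
    (hX : ∀ c : ℝ, |Cv (wt N b t) (fun _ => t * c) (li fun _ => 1) (li fun _ => 1) / (N : ℝ) ^ 2 -
      Cv (wt N' b t) (fun _ => t * c) (li fun _ => 1) (li fun _ => 1) / (N' : ℝ) ^ 2| ≤ X) :
    ch2 (wT b N) (t • (1 : Matrix (V N) (V N) ℝ)) 0 ≤ 2 * ω ^ 2 + ((N : ℝ) / N') ^ 2 *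
      (ch2 (wT b N') (t • (1 : Matrix (V N') (V N') ℝ)) 0 + 2 * ω' ^ 2) +
        (N : ℝ) ^ 2 * t ^ 2 * X / (4 * Real.pi) := by
  have hN : (0 : ℝ) < N := by exact_mod_cast NeZero.pos N
  have hN' : (0 : ℝ) < N' := by exact_mod_cast NeZero.pos N'
  have hX0 : 0 ≤ X := (abs_nonneg _).trans (hX 0)
  have h1 := dU_two (H789.wT_nonneg hb N) (H789.wT_le hb) ⟨0, H789.wT_zero_pos hb⟩ wT_one
    (H789.wT_nonneg hb N') (H789.wT_le hb) ⟨0, H789.wT_zero_pos hb⟩ wT_one ht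
    (v₁ := (N : ℝ) ^ 2) (v₂ := (N' : ℝ) ^ 2) (e := t ^ 2 * X) (0 : V N → ℝ) (0 : V N' → ℝ)
    (fun s => by
      rw [ddU_wT, ddU_wT]
      have e1 : t • shc (0 : V N → ℝ) s = fun _ => t * s := by
        funext x
        simp [shc]
      have e2 : t • shc (0 : V N' → ℝ) s = fun _ => t * s := by
        funext x
        simp [shc]
      rw [e1, e2]
      have e3 : ∀ A B : ℝ, (t * (N : ℝ) ^ 2 - t ^ 2 * A) / (N : ℝ) ^ 2 -
          (t * (N' : ℝ) ^ 2 - t ^ 2 * B) / (N' : ℝ) ^ 2 =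
          -(t ^ 2 * (A / (N : ℝ) ^ 2 - B / (N' : ℝ) ^ 2)) := by
        intro A B
        field_simp
        ring
      rw [e3, abs_neg, abs_mul, abs_of_nonneg (sq_nonneg t)]
      exact mul_le_mul_of_nonneg_left (hX s) (sq_nonneg t))
  have h2 := ch2_two (H789.wT_nonneg hb N) (H789.wT_le hb) ⟨0, H789.wT_zero_pos hb⟩ wT_one
    (H789.wT_nonneg hb N') (H789.wT_le hb) ⟨0, H789.wT_zero_pos hb⟩ wT_one ht hω hω'
    (ch_wT hb ht hO) (ch_wT hb ht hO') (wp_t hb ht).toWM (wp_t hb ht).toWM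
    (v₁ := (N : ℝ) ^ 2) (v₂ := (N' : ℝ) ^ 2) (by positivity) (by positivity)
    (e := t ^ 2 * X) (by positivity) h1
  refine h2.trans (le_of_eq ?_)
  rw [div_pow]
  ring

end tor

end

end Vale.Agent.P159.H415
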