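import Vale.Agent.P159.H415.WinC
import Vale.Agent.P159.H415.TwoT
import Vale.Agent.P159.H197.Nk10

/-!
P159, module CH2 (helper415), part 22: **change of the torus for `ch2`** at the mass `4 t_m`
(`ch2_trs`), from helper197's `nkt_row`.
-/

set_option linter.unusedSectionVars false

namespace Vale.Agent.P159.H415

open Finset Matrix
open Vale.Agent.P159.H37 (wt)
open Vale.Agent.P159.H896 (Om)
open Vale.Agent.P159.H43 (ch2)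
open Vale.Agent.P159.H864 (yt)
open Vale.Agent.P159.TM.H104 (Cv li)
open Vale.Agent.P159.TM.Spec (V Rng)
open Vale.Agent.P159.TM.SpecC (wT)
open Vale.Agent.P159.H972 (lg tn Par RNG)

noncomputable section

lemma tn_four_pred {m : ℕ} (hm : 1 ≤ m) : 4 * tn m = 1 / ((2 ^ (m - 1) : ℕ) : ℝ) ^ 2 := by
  rw [← tn_eq_inv]
  obtain ⟨k, rfl⟩ := Nat.exists_eq_add_of_le hm
  rw [Nat.add_sub_cancel_left, add_comm 1 k, tn_add]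
  ring

/-- **change of the torus** -/
theorem ch2_trs {b1 : ℝ} (hb1 : 0 < b1) (b2 : ℝ) :
    ∃ W₀ : ℝ, ∀ W : ℝ, W₀ ≤ W → ∃ c C ys : ℝ, ∃ X : ℕ, 0 < c ∧ 0 < C ∧ 0 < ys ∧
    ∀ P : Par, P.b1 = b1 → P.b2 = b2 → P.W = W → P.ys ≤ ys → X ≤ P.X0 →
    ∀ (b : ℝ) (m r0 r : ℕ) (e Y : ℝ), 1 ≤ m → m ≤ r0 → r0 ≤ r → RNG P b (m - 1) r0 e →
      RNG P b (m - 1) r e → e ^ (1 / 4 : ℝ) * (2 ^ (r - m + 1)) ^ 2 ≤ 1 →
      yt (2 ^ r0) b (4 * tn m) ≤ Y → yt (2 ^ r) b (4 * tn m) ≤ Y →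
      4 * ((2 ^ (r - m)) ^ 2 * Y) ≤ 1 →
    ch2 (wT b (2 ^ r)) ((4 * tn m) • (1 : Matrix (V (2 ^ r)) (V (2 ^ r)) ℝ)) 0 ≤
      2 * (2 * ((2 ^ (r - m)) ^ 2 * Y)) ^ 2 + (2 ^ (r - r0)) ^ 2 *
        (ch2 (wT b (2 ^ r0)) ((4 * tn m) • (1 : Matrix (V (2 ^ r0)) (V (2 ^ r0)) ℝ)) 0 +
          2 * (2 * ((2 ^ (r0 - m)) ^ 2 * Y)) ^ 2) +
        C * (2 ^ (r - m + 1)) ^ 4 * Real.exp (-(c * √(2 ^ (r0 - m + 1)))) := by
  obtain ⟨W₀, h0⟩ := H197.nkt_row hb1 b2 (a := 5 / 2) (by norm_num)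
  refine ⟨W₀, fun W hW => ?_⟩
  obtain ⟨c, C, ys, X, hc, hC, hys, hX, h⟩ := h0 W hW
  refine ⟨c, C, ys, X, hc, hC, hys, ?_⟩
  intro P p1 p2 pW py pX b m r0 r e Y hm hmr0 hr0r hR0 hR hyN hY0 hY hs
  unfold RNG at hR hR0
  rw [p1, p2, pW] at hR hR0
  have hR' := rng_thr' hR py pX
  have hR0' := rng_thr' hR0 py pX
  have hb : 0 < b := lt_of_lt_of_le hb1 hR'.hb1
  have ht0 := tn_pos' m
  have hYnn : 0 ≤ Y := (H864.yt_nonneg (N := 2 ^ r) hb.le (by linarith)).trans hY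
  obtain ⟨ξ, hξ⟩ : ∃ ξ : ℕ, ξ = 2 ^ (m - 1) := ⟨_, rfl⟩
  rw [← hξ] at hR' hR0'
  have hξR : (ξ : ℝ) = 2 ^ (m - 1) := by rw [hξ]; push_cast; rfl
  have hξ0 : (0 : ℝ) < ξ := by rw [hξR]; positivity
  have hrR : ((2 ^ r : ℕ) : ℝ) = 2 ^ (r - m + 1) * ξ := by
    rw [hξR]
    push_cast
    rw [← pow_add]
    congr 1
    omega
  have hr0R : ((2 ^ r0 : ℕ) : ℝ) = 2 ^ (r0 - m + 1) * ξ := by
    rw [hξR]
    push_cast
    rw [← pow_add]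
    congr 1
    omega
  have hT : 4 * tn m = 1 / (ξ : ℝ) ^ 2 := by rw [hξ]; exact tn_four_pred hm
  have key := h (2 ^ r0) (2 ^ r) b ξ (e ^ (1 / 4 : ℝ)) (pow_dvd_pow 2 hr0r) hR0' hR' (by
    rw [hrR]
    calc e ^ (1 / 4 : ℝ) * (2 ^ (r - m + 1) * (ξ : ℝ)) ^ 2 =
        (e ^ (1 / 4 : ℝ) * (2 ^ (r - m + 1)) ^ 2) * (ξ : ℝ) ^ 2 := by ring
      _ ≤ 1 * (ξ : ℝ) ^ 2 := mul_le_mul_of_nonneg_right hyN (sq_nonneg _)
      _ = _ := one_mul _)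
  rw [← hT] at key
  have hpow : ((2 : ℝ) ^ (r0 - m)) ^ 2 * Y ≤ (2 ^ (r - m)) ^ 2 * Y := by
    refine mul_le_mul_of_nonneg_right ?_ hYnn
    exact pow_le_pow_left₀ (by positivity) (pow_le_pow_right₀ (by norm_num) (by omega)) 2
  have hO := Om_yt hb (hmr0.trans hr0r) (T := 4 * tn m) (by linarith) le_rfl hY hs
  have hO0 := Om_yt hb hmr0 (T := 4 * tn m) (by linarith) le_rfl hY0 (by linarith)
  have h1 := ch2_tor (N := 2 ^ r) (N' := 2 ^ r0) hb.le (t := 4 * tn m) (by linarith)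
    (by linarith) (by linarith) hO hO0 (fun s => by
      rw [abs_sub_comm]
      exact key s)
  refine h1.trans ?_
  have e1 : ((2 ^ r : ℕ) : ℝ) / ((2 ^ r0 : ℕ) : ℝ) = 2 ^ (r - r0) := by
    rw [div_eq_iff (by positivity)]
    push_cast
    rw [← pow_add]
    congr 1
    omega
  have e2 : ((2 ^ r : ℕ) : ℝ) ^ 2 * (4 * tn m) ^ 2 * (C * (((2 ^ r : ℕ) : ℝ) / ξ) ^ 2 *
      Real.exp (-(c * √(((2 ^ r0 : ℕ) : ℝ) / ξ))) * (ξ : ℝ) ^ 2) / (4 * Real.pi) =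
      (C * (2 ^ (r - m + 1)) ^ 4 * Real.exp (-(c * √(2 ^ (r0 - m + 1))))) / (4 * Real.pi) := by
    rw [hr0R, mul_div_cancel_right₀ _ hξ0.ne', hrR, mul_div_cancel_right₀ _ hξ0.ne', hT]
    congr 1
    field_simp
  rw [e1, e2]
  have hpi : (1 : ℝ) ≤ 4 * Real.pi := by
    have := Real.pi_gt_three
    linarith
  have h3 : 0 ≤ C * (2 ^ (r - m + 1)) ^ 4 * Real.exp (-(c * √(2 ^ (r0 - m + 1)))) := by positivity
  have h4 := div_le_self h3 hpi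
  linarith

end

end Vale.Agent.P159.H415
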