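import Vale.Agent.P159.H415.Src
import Vale.Agent.P159.H415.AclU

/-!
P159, module CH2 (helper415), part 17: **one window of CH2 from the typical set of the exact law**
(`ch2_typ`): boxes of side `h`, cells of side `l`, windows `bx (cnr i) ρ`, reference box
`bx (cnr i) ρ₀`.
-/

set_option linter.unusedSectionVars false

namespace Vale.Agent.P159.H415

open MeasureTheory ProbabilityTheory Finset Matrix
open Vale.Agent.P159.H37 (gau qf qf_eq Rs Zs Gm Ech post Tq wt)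
open Vale.Agent.P159.H864 (MC cobV cl up cobV_mul_tr)
open Vale.Agent.P159.H896 (Om)
open Vale.Agent.P159.H43 (ch2)
open Vale.Agent.P159.H963 (nwt nMC obsN Pn Neu Gnc ntr)
open Vale.Agent.P159.H363 (lf lf_eq acl)
open Vale.Agent.P159.H145 (cs)
open Vale.Agent.P159.H612 (Far)
open Vale.Agent.P159.TM.H104 (EM Ex Cv Gr li)
open Vale.Agent.P159.TM.H764 (nrm bx)
open Vale.Agent.P159.TM.H859 (dirE)
open Vale.Agent.P159.TM.H459 (sd)
open Vale.Agent.P159.TM.Spec (V)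
open Vale.Agent.P159.TM.SpecC (wT)
open Vale.Agent.P159.H447 (CN)
open Vale.Agent.P159.H859 (Sgn WN kap2 Lw dB)

noncomputable section

variable {N l h ρ ρ₀ : ℕ} [NeZero N] [NeZero (N / l)] [NeZero (N / h)] {b T s Q η p : ℝ}

/-- the window of a box -/
def wdw (N l h ρ : ℕ) [NeZero N] [NeZero (N / l)] [NeZero (N / h)] (i : V (N / h)) :
    Finset (V (N / l)) := bx (cnr (N := N) (l := l) (h := h) i) ρ

lemma wdw_mono (hr : ρ₀ ≤ ρ) (i : V (N / h)) : wdw N l h ρ₀ i ⊆ wdw N l h ρ i := by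
  intro x hx
  unfold wdw at hx ⊢
  rw [TM.H764.mem_bx] at hx ⊢
  omega

lemma wdw_nonempty (i : V (N / h)) : (wdw N l h ρ i).Nonempty := by
  refine ⟨cnr (N := N) (l := l) (h := h) i, ?_⟩
  unfold wdw
  rw [TM.H764.mem_bx]
  simp

lemma wdw_box (i : V (N / h)) {x : V (N / l)} (hx : x ∈ wdw N l h ρ i) :
    x ∈ H462.box (cnr (N := N) (l := l) (h := h) i) ρ := by
  unfold wdw at hx
  rw [TM.H764.mem_bx] at hx
  rw [H462.mem_box]
  exact hx

/-- the good set of sources -/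
def gdJ (N l h ρ ρ₀ : ℕ) [NeZero N] [NeZero (N / l)] [NeZero (N / h)] (b T E : ℝ)
    (Gd : Set (V N → ℝ)) : Set (V N → ℝ) :=
  {J | J ∈ Gd ∧ (∀ i : V (N / h), Rs (nwt N b T 0)
    ((2 : ℝ) • cutJ (wdw N l h ρ i) (wdw N l h ρ₀ i) J) ≤ 1) ∧ enJ N l J ≤ E}

lemma measurableSet_gdJ (hb : 0 ≤ b) (hT : 0 < T) {E : ℝ} {Gd : Set (V N → ℝ)}
    (hG : MeasurableSet Gd) : MeasurableSet (gdJ N l h ρ ρ₀ b T E Gd) := by
  have hm := H447.maj_nwt (N := N) hb hT 0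
  have h1 : Measurable (Rs (nwt N b T 0)) := H586.rs_meas hm.em
  refine hG.inter (MeasurableSet.inter ?_ (measurableSet_le measurable_enJ measurable_const))
  have e : {J : V N → ℝ | ∀ i : V (N / h), Rs (nwt N b T 0)
      ((2 : ℝ) • cutJ (wdw N l h ρ i) (wdw N l h ρ₀ i) J) ≤ 1} =
      ⋂ i : V (N / h), {J : V N → ℝ | Rs (nwt N b T 0)
        ((2 : ℝ) • cutJ (wdw N l h ρ i) (wdw N l h ρ₀ i) J) ≤ 1} := by
    ext J
    simp only [Set.mem_ofPred_eq, Set.mem_iInter]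
  have h2 : MeasurableSet {J : V N → ℝ | ∀ i : V (N / h), Rs (nwt N b T 0)
      ((2 : ℝ) • cutJ (wdw N l h ρ i) (wdw N l h ρ₀ i) J) ≤ 1} := by
    rw [e]
    exact MeasurableSet.iInter fun i =>
      measurableSet_le (h1.comp ((measurable_cutJ _ _).const_smul (2 : ℝ))) measurable_const
  exact h2

/-- **the exact probability of the bad set** -/
theorem bad_gdJ (hb : 0 < b) (hl : l ∣ N) (hs : 0 < s) (hsT : s ≤ T / 2) (hQ : 1 ≤ Q)
    (hη : η ≤ 1) (hp : p ≤ 1 / 100) (hr : ρ₀ ≤ ρ) {Gd : Set (V N → ℝ)} (hG : MeasurableSet Gd)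
    (hR : ∀ J ∈ Gd, Rs (nwt N b T 0) (Q • J) ≤ η)
    (hE : Ech (nMC N l b T s 0) 0 (obsN N l (T - s)) (Gdᶜ.indicator fun _ => 1) ≤ p)
    {E κ a : ℝ} (hE0 : 0 < E) (hκ0 : 0 ≤ κ)
    (hκ : ∀ i : V (N / h), kap2 N l ρ b T s (wdw N l h ρ i).card (wdw N l h ρ₀ i).card ≤
      κ ^ 2 * (T - s)) (ha : 1 ≤ a) (hQa : a * (2 * κ) ≤ Q) :
    Ech (nMC N l b T s 0) 0 (obsN N l (T - s))
        ((gdJ N l h ρ ρ₀ b T E Gd)ᶜ.indicator fun _ => 1) ≤
      p + Real.exp η * (Real.exp η / (1 - p) * p +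
        ((N / h : ℕ) : ℝ) ^ 2 * (2 * Real.exp (-(a ^ 2 / 7))) +
        ((N / l : ℕ) : ℝ) ^ 2 * (T ^ 2 / s) / E) := by
  have hT : 0 < T := by linarith
  have hsT' : s < T := by linarith
  obtain ⟨A, hA⟩ : ∃ A : Matrix (V (N / l)) (V (N / l)) ℝ, A * Aᵀ = Sgn N l b T s := by
    refine H859.exists_gram (H859.psd_of ?_ fun u => ?_)
    · have h1 := (H859.dat_neu' hb hl hT).low hs hsT'
      have h2 := h1.isHermitian
      rw [IsHermitian, conjTranspose_eq_transpose_of_trivial, transpose_sub, transpose_smul,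
        transpose_one] at h2
      exact sub_left_injective h2
    · have h1 := H859.Sgn_low hb hl hT hs hsT' u
      have h2 : 0 ≤ (T - s) * ∑ x, u x ^ 2 :=
        mul_nonneg (by linarith) (sum_nonneg fun _ _ => sq_nonneg _)
      linarith
  have hR' : ∀ J ∈ Gd, Rs (nwt N b T 0) J ≤ η := by
    intro J hJ
    have h1 := Rs_scale (N := N) hb.le hT (Q := Q) (Q' := 1) zero_le_one hQ J
    rw [one_smul] at h1
    exact h1.trans (hR J hJ)
  have hG' := measurableSet_gdJ (N := N) (l := l) (h := h) (ρ := ρ) (ρ₀ := ρ₀) (E := E) hb.le hT hG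
  have h1 := H447.bad_law (N := N) (l := l) hb.le hl hs hsT' hA hG' hG hR'
  refine h1.trans (add_le_add hE (mul_le_mul_of_nonneg_left ?_ (Real.exp_pos _).le))
  have hfull := gauss_typ hb.le hl hs hsT' hQ hη hp ⟨Gd, hG, hR, hE⟩ hA
  -- the three parts
  have hsub : {g : V (N / l) → ℝ | ((CN N l)ᵀ * A) *ᵥ g ∉ gdJ N l h ρ ρ₀ b T E Gd} ⊆
      ({g | ((CN N l)ᵀ * A) *ᵥ g ∉ Gd} ∪
        ⋃ i ∈ (univ : Finset (V (N / h))), {g | 1 < Rs (nwt N b T 0) ((2 : ℝ) •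
          (((CN N l)ᵀ * Lw (wdw N l h ρ i) (wdw N l h ρ₀ i) * A) *ᵥ g))}) ∪
        {g | E < enJ N l (((CN N l)ᵀ * A) *ᵥ g)} := by
    intro g hg
    by_contra hc
    apply hg
    simp only [Set.mem_union, Set.mem_iUnion, Set.mem_ofPred_eq, not_or, not_exists, not_not,
      not_lt, mem_univ, true_and, exists_prop] at hc
    refine ⟨hc.1.1, fun i => ?_, hc.2⟩
    rw [cutJ_gauss hl (wdw_nonempty i)]
    exact hc.1.2 i
  refine (measureReal_mono hsub (measure_ne_top _ _)).trans ?_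
  refine (measureReal_union_le _ _).trans (add_le_add ?_ (en_prob hb hl hs hsT' hA hE0))
  refine (measureReal_union_le _ _).trans (add_le_add ?_ ?_)
  · exact gauss_bad hb.le hl hs hsT' hA hG hR' (by linarith) hE
  · refine (measureReal_biUnion_finset_le _ _).trans ?_
    have h2 : ∀ i ∈ (univ : Finset (V (N / h))), (gau (V (N / l))).real
        {g | 1 < Rs (nwt N b T 0) ((2 : ℝ) •
          (((CN N l)ᵀ * Lw (wdw N l h ρ i) (wdw N l h ρ₀ i) * A) *ᵥ g))} ≤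
        2 * Real.exp (-(a ^ 2 / 7)) := by
      intro i _
      have hW : WN N l b T s s (wdw N l h ρ i) (wdw N l h ρ₀ i)
          (cnr (N := N) (l := l) (h := h) i) ρ :=
        { hb := hb, hl := hl, hr := hs, hrs := le_rfl, hst := hsT, hw₀ := wdw_nonempty i
          hw := Finset.Subset.refl _, hw₀c := wdw_mono hr i }
      exact win_prob hW hA hfull hκ0 (hκ i) ha (by norm_num) hQa
    refine (sum_le_sum h2).trans (le_of_eq ?_)
    rw [sum_const, card_univ, nsmul_eq_mul, H963.cardV]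

/-- **one window of CH2 from the typical set** -/
theorem ch2_typ (hb : 0 < b) (hl : l ∣ N) (hh : h ∣ N) (hs : 0 < s) (hsT : s ≤ T / 2)
    (hQ : 2 ≤ Q) (hη : η ≤ 1) (hp : p ≤ 1 / 100) (hTy : Typ N l b T s Q η p)
    (hTh : T * (h : ℝ) ^ 2 ≤ 1) {ω : ℝ} (hω : ω ≤ 1 / 2)
    (hOm : Om (wT b N) ((2 * T) • (1 : Matrix (V N) (V N) ℝ)) ≤ ω)
    {aH m : ℝ} (ha0 : 0 ≤ aH) (hm0 : 0 ≤ m)
    (hacl : ∀ u, (acl N l b T T *ᵥ u) ⬝ᵥ u ≤ aH * dirE u + m * ∑ x, u x ^ 2)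
    (hr : ρ₀ ≤ ρ) (hρ : 5 ≤ ρ) {L : ℝ} (hL : 2 ≤ L)
    (hN : 2 * (L * (2 * ρ) + 1) ≤ (N / l : ℕ))
    {E κ a : ℝ} (hE0 : 0 < E) (hκ0 : 0 ≤ κ)
    (hκ : ∀ i : V (N / h), kap2 N l ρ b T s (wdw N l h ρ i).card (wdw N l h ρ₀ i).card ≤
      κ ^ 2 * (T - s)) (ha : 1 ≤ a) (hQa : a * (2 * κ) ≤ Q)
    {x r A B : ℝ} (hr0 : 0 ≤ r) (hA0 : 0 < A) (hB0 : 0 < B)
    (hfar : ∀ f g : V N → ℝ, ∑ v, f v ^ 2 ≤ A ^ 2 * x ^ 2 → ∑ v, g v ^ 2 ≤ B ^ 2 * x ^ 2 →
      (∀ v z, g v ≠ 0 → f z ≠ 0 → l * (ρ + 1) ≤ sd v z + (h + l) + l) →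
      Far (wt N b T) (T • g) (T • f) B A r)
    (hA : 4 * ((N / l : ℕ) : ℝ) ^ 2 * E ≤ A ^ 2 * x ^ 2 * T ^ 2)
    (hB : (h : ℝ) ^ 2 ≤ B ^ 2 * x ^ 2) {δ : ℝ}
    (hδ : p + Real.exp η * (Real.exp η / (1 - p) * p +
        ((N / h : ℕ) : ℝ) ^ 2 * (2 * Real.exp (-(a ^ 2 / 7))) +
        ((N / l : ℕ) : ℝ) ^ 2 * (T ^ 2 / s) / E) ≤ δ) (hδ1 : δ < 1) :
    ch2 (wT b N) (s • (1 : Matrix (V N) (V N) ℝ)) 0 ≤
      2 * ω ^ 2 + ((N / h : ℕ) : ℝ) ^ 2 / (4 * Real.pi) *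
        (5 / 2 * (ch2 (wT b N) ((2 * T) • (1 : Matrix (V N) (V N) ℝ)) 0 + 2 * ω ^ 2) *
          (Real.exp (-(8 * Real.pi ^ 2 / (aH * ((1 + 68 / (2 * ρ)) * (2 * Real.pi / Real.log L)) +
              (((1 / s - 1 / T) / l ^ 2)⁻¹ + m) * (2 * (L * (2 * ρ)) + 1) ^ 2))) +
            (Real.exp η / (1 - δ) - 1) + 2 * δ) +
          Real.exp ((1 + 16 * ω) / 2) * B * A * r) := by
  have hT : 0 < T := by linarith
  have hsT' : s < T := by linarith
  obtain ⟨Gd, hG, hR, hE⟩ := hTy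
  have hG' := measurableSet_gdJ (N := N) (l := l) (h := h) (ρ := ρ) (ρ₀ := ρ₀) (E := E) hb.le hT hG
  have hbad := (bad_gdJ (h := h) hb hl hs hsT (by linarith : (1 : ℝ) ≤ Q) hη hp hr hG hR hE hE0 hκ0
    hκ ha hQa).trans hδ
  have hδ0 : 0 ≤ δ := by
    have hE0 := H963.em_nMC (N := N) hb.le hl hs hsT'.le (t := T) 0
    exact (Ech_ind_nonneg hE0 _).trans hbad
  have hlp : (0 : ℝ) < l := l_pos' hl
  have hω0 : 0 ≤ ω := by
    have h1 := nc_wT (N := N) (t := T) hb.le hT (by linarith) hOm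
    exact h1.ω0
  have hOm1 : Om (wT b N) (T • (1 : Matrix (V N) (V N) ℝ)) ≤ ω :=
    (Om_scalar hT (by linarith) (H896.wp_t hb.le hT) (H896.wp_t hb.le (by linarith))).trans hOm
  have hcard : (univ : Finset (V (N / h))).card = (N / h : ℕ) * (N / h : ℕ) := by
    rw [card_univ]
    show Fintype.card (ZMod (N / h) × ZMod (N / h)) = _
    rw [Fintype.card_prod, ZMod.card]
  have key := ch2_cellA (N := N) (l := l) hl hb.le hT hs hsT' hω hOm ha0 hm0 hacl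
    (univ : Finset (V (N / h))) (gbx N h) sum_gbx
    (fun i _ => by rw [gbx_sq hh]; exact hTh)
    (fun i => cnr (N := N) (l := l) (h := h) i) (D := ρ) (r₀ := 2 * ρ) (L := L)
    (fun i => {x | x ∈ wdw N l h ρ i}) (fun i _ x hx => wdw_box i hx)
    (fun i => cutA (wdw N l h ρ i) (wdw N l h ρ₀ i))
    (fun i _ => cut_cutA (wdw_nonempty i) (wdw_mono hr i))
    (by
      have : (5 : ℝ) ≤ ρ := by exact_mod_cast hρ
      linarith)
    (by
      have h1 : √2 ≤ 2 := by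
        rw [Real.sqrt_le_left (by norm_num)]
        norm_num
      exact mul_le_mul_of_nonneg_right h1 (Nat.cast_nonneg _))
    hL hN hG' (η := η) (ε := Real.exp ((1 + 16 * ω) / 2) * B * A * r) (δ := δ) (by positivity)
    hδ0 hδ1
    (fun J hJ => by
      have h1 := Rs_scale (N := N) hb.le hT (Q := Q) (Q' := 1) zero_le_one (by linarith) J
      rw [one_smul] at h1
      exact h1.trans (hR J hJ.1))
    (fun φ hφ i _ c _ => by
      have hF : Far (wt N b T) (T • gbx N h i)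
          (T • (lf N l φ - lf N l (cutA (wdw N l h ρ i) (wdw N l h ρ₀ i) φ))) B A r := by
        refine hfar _ _ ?_ ?_ ?_
        · have h1 := en_cut (N := N) hl (w := wdw N l h ρ i) (wdw_nonempty (ρ := ρ₀) i) φ
          have h2 := hφ.2.2
          rw [enJ_src hl hT] at h2
          simp only [Pi.sub_apply]
          refine h1.trans ?_
          have h3 : 4 * ((N / l : ℕ) : ℝ) ^ 2 * ((T * l) ^ 2 *
              ∑ c, ((Pn : Matrix (V (N / l)) (V (N / l)) ℝ) *ᵥ φ) c ^ 2) ≤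
              A ^ 2 * x ^ 2 * T ^ 2 :=
            (mul_le_mul_of_nonneg_left h2 (by positivity)).trans hA
          have h4 : 0 < T ^ 2 := by positivity
          refine le_of_mul_le_mul_right ?_ h4
          linarith
        · rw [gbx_sq hh]
          exact hB
        · intro v z hv hz
          exact far_cell hl (near_cnr hl hh hv) (cut_supp φ hz)
      have h1 := loc_ex (N := N) hb.le hT hω hOm1 (F := lf N l φ)
        (F' := lf N l (cutA (wdw N l h ρ i) (wdw N l h ρ₀ i) φ)) (g := gbx N h i) hB0.le hA0.le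
        hr0 (ρ := 1) hF (x₀ := 0) ?_ ?_ c
      · exact h1
      · have h2 := Rs_scale (N := N) hb.le hT (Q := Q) (Q' := 2) (by norm_num) hQ
          (ntr (T • (1 : Matrix (V N) (V N) ℝ)) T *ᵥ lf N l φ)
        exact h2.trans ((hR _ hφ.1).trans hη)
      · rw [cutJ_src hl hT (wdw_nonempty i)]
        exact hφ.2.1 i) hbad
  rw [hcard] at key
  push_cast at key
  rw [← pow_two] at key
  exact key

end

end Vale.Agent.P159.H415
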