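import Vale.Agent.P159.H415.Har

/-!
P159, module CH2 (helper415), part 3: the abstract one-window theorem for the charge `q`.

`Sc w t q` charge sector, `Nt w t` neutral sector at mass `t`; the sectors of the next (smaller) mass
at background `0` are `∫ Sc w t q (A z) dγ(z)`, `∫ Nt w t (A z) dγ(z)`.
-/

namespace Vale.Agent.P159.H415

open MeasureTheory ProbabilityTheory Finset
open Vale.Agent.P159.H37 (gau Zn Un ZM Zq)
open Vale.Agent.P159.H764
open Vale.Agent.P159.H896 (ph continuous_ph norm_ph ph_add ph_per ph_zero_right ph_one)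
open Vale.Agent.P159.TM.H870 (gr Zr lin)
open Vale.Agent.P159.TM.H104 (EM Ex Cv Lg li nh Gr ddU dU U Cf)
open Vale.Agent.P159.TM.H215 (Dg Hs)

noncomputable section

/-- a cut map: commutes with constants, depends on the field in `B` only -/
structure Cut {V : Type*} (B : Set V) (cut : (V → ℝ) → V → ℝ) : Prop where
  meas : Measurable cut
  shift : ∀ (F : V → ℝ) (c : ℝ), cut (fun x => F x + c) = fun x => cut F x + c
  loc : ∀ F F' : V → ℝ, (∀ x ∈ B, F x = F' x) → cut F = cut F'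

lemma Cut.chg {V : Type*} {B : Set V} {cut : (V → ℝ) → V → ℝ} (h : Cut B cut) {q : ℤ}
    {φ : (V → ℝ) → ℂ} (hφ : Chg q φ) : Chg q fun F => φ (cut F) := by
  intro F c
  simp only
  rw [h.shift, hφ]

lemma Cut.dep {V : Type*} {B : Set V} {cut : (V → ℝ) → V → ℝ} (h : Cut B cut)
    (φ : (V → ℝ) → ℂ) : DepOn B fun F => φ (cut F) := by
  intro F F' hF
  simp only
  rw [h.loc F F' hF]

section model

variable {V : Type*} [Fintype V] {w : (V → ℤ) → ℝ} {Wb : ℝ}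
variable {I I' : Type*} [Fintype I] [Fintype I']

/-- the law of the field `A z`, weighted by the neutral partition function, is Gaussian up to
`exp R` -/
structure Ref (w : (V → ℤ) → ℝ) (t : ℝ) (A : Matrix V I ℝ) (A' : Matrix V I' ℝ)
    (R : (V → ℝ) → ℝ) (K : ℝ) : Prop where
  K0 : 0 < K
  R0 : ∀ F, 0 ≤ R F
  Rm : Measurable R
  Ri : Integrable (fun z => Real.exp (R (A'.mulVec z))) (gau I')
  eq : ∀ Φ : (V → ℝ) → ℂ, Measurable Φ → (∃ b : ℝ, ∀ F, ‖Φ F‖ ≤ b) →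
    ∫ z, Φ (A.mulVec z) * (Nt w t (A.mulVec z) : ℂ) ∂(gau I) =
      (K : ℂ) * ∫ z, Φ (A'.mulVec z) * (Real.exp (R (A'.mulVec z)) : ℂ) ∂(gau I')

omit [Fintype V] in
lemma meas_mulVec (A : Matrix V I ℝ) : Measurable fun z : I → ℝ => A.mulVec z := by
  unfold Matrix.mulVec dotProduct
  fun_prop

omit [Fintype V] in
lemma cont_mulVec (A : Matrix V I ℝ) : Continuous fun z : I → ℝ => A.mulVec z := by
  unfold Matrix.mulVec dotProduct
  fun_prop

variable (hw0 : ∀ h, 0 ≤ w h) (hwb : ∀ h, w h ≤ Wb) (hp : ∃ h, 0 < w h)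
  (hs : ∀ h, w (h + 1) = w h)

include hw0 hwb hp

lemma int_Nt {t : ℝ} (ht : 0 < t) (A : Matrix V I ℝ) :
    Integrable (fun z => Nt w t (A.mulVec z)) (gau I) := by
  obtain ⟨b, hb⟩ := (bp_Nt hw0 hwb hp ht).bdd
  refine Integrable.mono' (integrable_const b)
    ((continuous_Nt hw0 hwb hp ht).comp (cont_mulVec A)).aestronglyMeasurable
    (Filter.Eventually.of_forall fun z => ?_)
  rw [Real.norm_eq_abs, abs_of_pos (Nt_pos hw0 hwb hp ht _)]
  exact hb _

lemma int_Nt_pos {t : ℝ} (ht : 0 < t) (A : Matrix V I ℝ) :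
    0 < ∫ z, Nt w t (A.mulVec z) ∂(gau I) := by
  rw [integral_pos_iff_support_of_nonneg (fun z => (Nt_pos hw0 hwb hp ht _).le)
    (int_Nt hw0 hwb hp ht A)]
  have : Function.support (fun z : I → ℝ => Nt w t (A.mulVec z)) = Set.univ := by
    ext z
    simp [(Nt_pos hw0 hwb hp ht (A.mulVec z)).ne']
  rw [this]
  simp

/-- integrability of a bounded functional against the neutral weight -/
lemma int_mul_Nt {t : ℝ} (ht : 0 < t) (A : Matrix V I ℝ) {φ : (V → ℝ) → ℂ} (hφ : Measurable φ)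
    {b : ℝ} (hb : ∀ F, ‖φ F‖ ≤ b) :
    Integrable (fun z => φ (A.mulVec z) * (Nt w t (A.mulVec z) : ℂ)) (gau I) :=
  ((int_Nt hw0 hwb hp ht A).ofReal).bdd_mul (c := b) (f := fun z => φ (A.mulVec z))
    (hφ.comp (meas_mulVec A)).aestronglyMeasurable (Filter.Eventually.of_forall fun z => hb _)

lemma norm_int_mul_Nt_le {t : ℝ} (ht : 0 < t) (A : Matrix V I ℝ) {φ : (V → ℝ) → ℂ}
    {b : ℝ} (hb : ∀ F, ‖φ F‖ ≤ b) :
    ‖∫ z, φ (A.mulVec z) * (Nt w t (A.mulVec z) : ℂ) ∂(gau I)‖ ≤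
      b * ∫ z, Nt w t (A.mulVec z) ∂(gau I) := by
  rw [← integral_const_mul]
  refine norm_integral_le_of_norm_le ((int_Nt hw0 hwb hp ht A).const_mul b)
    (Filter.Eventually.of_forall fun z => ?_)
  rw [norm_mul, Complex.norm_real, Real.norm_eq_abs, abs_of_pos (Nt_pos hw0 hwb hp ht _)]
  exact mul_le_mul_of_nonneg_right (hb _) (Nt_pos hw0 hwb hp ht _).le

include hs

/-- one local term -/
lemma one_term {t ω : ℝ} (ht : 0 < t) (hω : ω ≤ 1 / 2) (h : NC w t ω) {q : ℤ} (hq : q ≠ 0)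
    {A : Matrix V I ℝ} {A' : Matrix V I' ℝ} {R : (V → ℝ) → ℝ} {K : ℝ} (hR : Ref w t A A' R K)
    {θ : ℝ} (hθ : ∫ z, Real.exp (R (A'.mulVec z)) ∂(gau I') ≤ 1 + θ)
    {g : V → ℝ} (hg : t * ∑ x, g x ^ 2 ≤ 1) {B : Set V} {cut : (V → ℝ) → V → ℝ} (hcut : Cut B cut)
    {u : I' → ℝ} (hu : ∀ x ∈ B, A'.mulVec u x = 1) (hu0 : 0 < ∑ i, u i ^ 2) {κ : ℝ}
    (hκ : ∑ i, u i ^ 2 ≤ κ) {good : Set (V → ℝ)} (hgm : MeasurableSet good) {ε δ : ℝ}
    (hε : 0 ≤ ε)
    (hloc : ∀ F ∈ good, ∀ s ∈ Set.Icc (0 : ℝ) 1,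
      |dU w (cm t) (shc F s) g - dU w (cm t) (shc (cut F) s) g| ≤ ε)
    (hbad : ∫ z, goodᶜ.indicator (fun F => Nt w t F) (A.mulVec z) ∂(gau I) ≤
      δ * ∫ z, Nt w t (A.mulVec z) ∂(gau I)) :
    ‖∫ z, Dh w t q g (A.mulVec z) * (Nt w t (A.mulVec z) : ℂ) ∂(gau I)‖ ≤
      (5 * ω * (Real.exp (-(2 * Real.pi ^ 2 * q ^ 2 / κ)) + θ) + ε + 10 * ω * δ) *
        ∫ z, Nt w t (A.mulVec z) ∂(gau I) := by
  have hω0 := h.ω0
  set N0 := ∫ z, Nt w t (A.mulVec z) ∂(gau I) with hN0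
  have hN0p : 0 < N0 := int_Nt_pos hw0 hwb hp ht A
  have hD : ∀ F, ‖Dh w t q g F‖ ≤ 5 * ω := by
    intro F
    refine (Dh_le hw0 hwb hp hs ht hω h hq g F).trans ?_
    have h1 : Real.sqrt (t * ∑ x, g x ^ 2) ≤ 1 := Real.sqrt_le_one.2 hg
    nlinarith [Real.sqrt_nonneg (t * ∑ x, g x ^ 2)]
  have hDm : Measurable (Dh w t q g) := (continuous_Dh hw0 hwb hp ht q g).measurable
  set L : (V → ℝ) → ℂ := fun F => Dh w t q g (cut F) with hL
  have hLm : Measurable L := hDm.comp hcut.meas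
  have hLb : ∀ F, ‖L F‖ ≤ 5 * ω := fun F => hD _
  have hLq : Chg q L := hcut.chg (Dh_chg hw0 hwb hp hs ht q g)
  have hLd : DepOn B L := hcut.dep _
  -- splitting
  have i1 := int_mul_Nt hw0 hwb hp ht A hDm hD
  have i2 := int_mul_Nt hw0 hwb hp ht A hLm hLb
  have e1 : ∫ z, Dh w t q g (A.mulVec z) * (Nt w t (A.mulVec z) : ℂ) ∂(gau I) =
      (∫ z, (Dh w t q g (A.mulVec z) - L (A.mulVec z)) * (Nt w t (A.mulVec z) : ℂ) ∂(gau I)) +
        ∫ z, L (A.mulVec z) * (Nt w t (A.mulVec z) : ℂ) ∂(gau I) := by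
    have : ∀ z : I → ℝ, (Dh w t q g (A.mulVec z) - L (A.mulVec z)) * (Nt w t (A.mulVec z) : ℂ) =
        Dh w t q g (A.mulVec z) * (Nt w t (A.mulVec z) : ℂ) -
          L (A.mulVec z) * (Nt w t (A.mulVec z) : ℂ) := fun z => by ring
    simp_rw [this]
    rw [integral_sub i1 i2]
    ring
  -- the difference
  have hind : Integrable (fun z => goodᶜ.indicator (fun F => Nt w t F) (A.mulVec z)) (gau I) := by
    refine (int_Nt hw0 hwb hp ht A).mono' ?_ (Filter.Eventually.of_forall fun z => ?_)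
    · exact ((continuous_Nt hw0 hwb hp ht).measurable.indicator hgm.compl).comp
        (meas_mulVec A) |>.aestronglyMeasurable
    · by_cases hz : A.mulVec z ∈ goodᶜ
      · rw [Set.indicator_of_mem hz, Real.norm_eq_abs, abs_of_pos (Nt_pos hw0 hwb hp ht _)]
      · rw [Set.indicator_of_notMem hz, norm_zero]
        exact (Nt_pos hw0 hwb hp ht _).le
  have b1 : ‖∫ z, (Dh w t q g (A.mulVec z) - L (A.mulVec z)) * (Nt w t (A.mulVec z) : ℂ) ∂(gau I)‖
      ≤ (ε + 10 * ω * δ) * N0 := by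
    have h1 : ‖∫ z, (Dh w t q g (A.mulVec z) - L (A.mulVec z)) *
        (Nt w t (A.mulVec z) : ℂ) ∂(gau I)‖ ≤
        ∫ z, (ε * Nt w t (A.mulVec z) +
          10 * ω * goodᶜ.indicator (fun F => Nt w t F) (A.mulVec z)) ∂(gau I) := by
      refine norm_integral_le_of_norm_le
        (((int_Nt hw0 hwb hp ht A).const_mul ε).add (hind.const_mul _))
        (Filter.Eventually.of_forall fun z => ?_)
      have hNp := Nt_pos hw0 hwb hp ht (A.mulVec z)
      rw [norm_mul, Complex.norm_real, Real.norm_eq_abs, abs_of_pos hNp]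
      by_cases hz : A.mulVec z ∈ good
      · have h2 : ‖Dh w t q g (A.mulVec z) - L (A.mulVec z)‖ ≤ ε :=
          Dh_sub_le hw0 hwb hp ht q g _ _ (hloc _ hz)
        rw [Set.indicator_of_notMem (fun h' : A.mulVec z ∈ goodᶜ => h' hz), mul_zero, add_zero]
        exact mul_le_mul_of_nonneg_right h2 hNp.le
      · have h2 : ‖Dh w t q g (A.mulVec z) - L (A.mulVec z)‖ ≤ 10 * ω := by
          refine (norm_sub_le _ _).trans ?_
          linarith [hD (A.mulVec z), hLb (A.mulVec z)]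
        rw [Set.indicator_of_mem (show A.mulVec z ∈ goodᶜ from hz)]
        have := mul_le_mul_of_nonneg_right h2 hNp.le
        nlinarith [mul_nonneg hε hNp.le]
    refine h1.trans ?_
    rw [integral_add ((int_Nt hw0 hwb hp ht A).const_mul ε) (hind.const_mul _),
      integral_const_mul, integral_const_mul]
    have := mul_le_mul_of_nonneg_left hbad (by positivity : 0 ≤ 10 * ω)
    calc _ ≤ ε * N0 + 10 * ω * (δ * N0) := by linarith
      _ = _ := by ring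
  -- the local term
  have b2 : ‖∫ z, L (A.mulVec z) * (Nt w t (A.mulVec z) : ℂ) ∂(gau I)‖ ≤
      5 * ω * (Real.exp (-(2 * Real.pi ^ 2 * q ^ 2 / κ)) + θ) * N0 := by
    rw [hR.eq L hLm ⟨_, hLb⟩]
    have hK0 := hR.K0
    -- N0 >= K
    have hN0K : K ≤ N0 := by
      have h1 := hR.eq (fun _ => 1) measurable_const ⟨1, fun _ => by simp⟩
      simp only [one_mul] at h1
      rw [integral_complex_ofReal, integral_complex_ofReal, ← Complex.ofReal_mul] at h1
      have h2 : N0 = K * ∫ z, Real.exp (R (A'.mulVec z)) ∂(gau I') := by exact_mod_cast h1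
      have h3 : (1 : ℝ) ≤ ∫ z, Real.exp (R (A'.mulVec z)) ∂(gau I') := by
        have : ∫ _z : I' → ℝ, (1 : ℝ) ∂(gau I') = 1 := by simp
        rw [← this]
        exact integral_mono (integrable_const 1) hR.Ri fun z => Real.one_le_exp (hR.R0 _)
      rw [h2]
      nlinarith
    have j1 : Integrable (fun z => L (A'.mulVec z)) (gau I') :=
      Integrable.mono' (integrable_const (5 * ω)) (hLm.comp (meas_mulVec A')).aestronglyMeasurable
        (Filter.Eventually.of_forall fun z => hLb _)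
    have hRm' : Measurable fun z : I' → ℝ => R (A'.mulVec z) := hR.Rm.comp (meas_mulVec A')
    have j2 : Integrable (fun z => L (A'.mulVec z) *
        ((Real.exp (R (A'.mulVec z)) - 1 : ℝ) : ℂ)) (gau I') := by
      have j3 : Integrable (fun z => Real.exp (R (A'.mulVec z)) - 1) (gau I') :=
        hR.Ri.sub (integrable_const 1)
      exact (j3.ofReal).bdd_mul (c := 5 * ω) (f := fun z => L (A'.mulVec z))
        (hLm.comp (meas_mulVec A')).aestronglyMeasurable (Filter.Eventually.of_forall fun z => hLb _)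
    have e2 : ∫ z, L (A'.mulVec z) * (Real.exp (R (A'.mulVec z)) : ℂ) ∂(gau I') =
        (∫ z, L (A'.mulVec z) ∂(gau I')) +
          ∫ z, L (A'.mulVec z) * ((Real.exp (R (A'.mulVec z)) - 1 : ℝ) : ℂ) ∂(gau I') := by
      rw [← integral_add j1 j2]
      refine integral_congr_ae (Filter.Eventually.of_forall fun z => ?_)
      simp only
      push_cast
      ring
    have c1 : ‖∫ z, L (A'.mulVec z) ∂(gau I')‖ ≤
        5 * ω * Real.exp (-(2 * Real.pi ^ 2 * q ^ 2 / κ)) := by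
      have h1 := gain_le hLq hLd hLm 0 A' hu0 hu
      simp only [zero_add] at h1
      have h2 : ∫ z, ‖L (A'.mulVec z)‖ ∂(gau I') ≤ 5 * ω := by
        have : ∫ _z : I' → ℝ, (5 * ω) ∂(gau I') = 5 * ω := by simp
        rw [← this]
        exact integral_mono j1.norm (integrable_const _) fun z => hLb _
      have h3 : Real.exp (-(2 * Real.pi ^ 2 * q ^ 2 / ∑ i, u i ^ 2)) ≤
          Real.exp (-(2 * Real.pi ^ 2 * q ^ 2 / κ)) := by
        refine Real.exp_le_exp.2 (neg_le_neg ?_)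
        exact div_le_div_of_nonneg_left (by positivity) hu0 hκ
      calc _ ≤ _ := h1
        _ ≤ Real.exp (-(2 * Real.pi ^ 2 * q ^ 2 / κ)) * (5 * ω) :=
          mul_le_mul h3 h2 (integral_nonneg fun z => norm_nonneg _) (Real.exp_pos _).le
        _ = _ := by ring
    have c2 : ‖∫ z, L (A'.mulVec z) * ((Real.exp (R (A'.mulVec z)) - 1 : ℝ) : ℂ) ∂(gau I')‖ ≤
        5 * ω * θ := by
      have j3 : Integrable (fun z => Real.exp (R (A'.mulVec z)) - 1) (gau I') :=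
        hR.Ri.sub (integrable_const 1)
      have h1 : ‖∫ z, L (A'.mulVec z) * ((Real.exp (R (A'.mulVec z)) - 1 : ℝ) : ℂ) ∂(gau I')‖ ≤
          ∫ z, 5 * ω * (Real.exp (R (A'.mulVec z)) - 1) ∂(gau I') := by
        refine norm_integral_le_of_norm_le (j3.const_mul _)
          (Filter.Eventually.of_forall fun z => ?_)
        have h0 : 0 ≤ Real.exp (R (A'.mulVec z)) - 1 := by
          linarith [Real.one_le_exp (hR.R0 (A'.mulVec z))]
        rw [norm_mul, Complex.norm_real, Real.norm_eq_abs, abs_of_nonneg h0]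
        exact mul_le_mul_of_nonneg_right (hLb _) h0
      refine h1.trans ?_
      rw [integral_const_mul, integral_sub hR.Ri (integrable_const 1)]
      have : ∫ _z : I' → ℝ, (1 : ℝ) ∂(gau I') = 1 := by simp
      rw [this]
      exact mul_le_mul_of_nonneg_left (by linarith) (by positivity)
    have hθ0 : 0 ≤ θ := by
      have h3 : (1 : ℝ) ≤ ∫ z, Real.exp (R (A'.mulVec z)) ∂(gau I') := by
        have : ∫ _z : I' → ℝ, (1 : ℝ) ∂(gau I') = 1 := by simp
        rw [← this]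
        exact integral_mono (integrable_const 1) hR.Ri fun z => Real.one_le_exp (hR.R0 _)
      linarith
    rw [norm_mul, Complex.norm_real, Real.norm_eq_abs, abs_of_pos hK0, e2]
    calc K * ‖_ + _‖ ≤ K * (5 * ω * Real.exp (-(2 * Real.pi ^ 2 * q ^ 2 / κ)) + 5 * ω * θ) :=
          mul_le_mul_of_nonneg_left ((norm_add_le _ _).trans (add_le_add c1 c2)) hK0.le
      _ ≤ N0 * (5 * ω * Real.exp (-(2 * Real.pi ^ 2 * q ^ 2 / κ)) + 5 * ω * θ) :=
          mul_le_mul_of_nonneg_right hN0K (by positivity)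
      _ = _ := by ring
  rw [e1]
  calc _ ≤ _ + _ := norm_add_le _ _
    _ ≤ (ε + 10 * ω * δ) * N0 +
        5 * ω * (Real.exp (-(2 * Real.pi ^ 2 * q ^ 2 / κ)) + θ) * N0 := add_le_add b1 b2
    _ = _ := by ring

/-- the one-window bound before the quadratic term is estimated. `S` = macroscopic cells
(`t |g_i|² ≤ 1`, sum `1`), `cut i` = cut to the window `B i`. -/
theorem window_pre {t ω : ℝ} (ht : 0 < t) (hω : ω ≤ 1 / 2) (h : NC w t ω) (hc : CH w t ω)
    {q : ℤ} (hq : q ≠ 0)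
    {A : Matrix V I ℝ} {A' : Matrix V I' ℝ} {R : (V → ℝ) → ℝ} {K : ℝ} (hR : Ref w t A A' R K)
    {θ : ℝ} (hθ : ∫ z, Real.exp (R (A'.mulVec z)) ∂(gau I') ≤ 1 + θ)
    {ι : Type*} (S : Finset ι) (g : ι → V → ℝ) (hg1 : ∑ i ∈ S, g i = fun _ => 1)
    (hg : ∀ i ∈ S, t * ∑ x, g i x ^ 2 ≤ 1) (B : ι → Set V) (cut : ι → (V → ℝ) → V → ℝ)
    (hcut : ∀ i ∈ S, Cut (B i) (cut i)) (u : ι → I' → ℝ)
    (hu : ∀ i ∈ S, ∀ x ∈ B i, A'.mulVec (u i) x = 1) (hu0 : ∀ i ∈ S, 0 < ∑ j, u i j ^ 2) {κ : ℝ}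
    (hκ : ∀ i ∈ S, ∑ j, u i j ^ 2 ≤ κ) {good : Set (V → ℝ)} (hgm : MeasurableSet good)
    {ε δ : ℝ} (hε : 0 ≤ ε)
    (hloc : ∀ F ∈ good, ∀ i ∈ S, ∀ s ∈ Set.Icc (0 : ℝ) 1,
      |dU w (cm t) (shc F s) (g i) - dU w (cm t) (shc (cut i F) s) (g i)| ≤ ε)
    (hbad : ∫ z, goodᶜ.indicator (fun F => Nt w t F) (A.mulVec z) ∂(gau I) ≤
      δ * ∫ z, Nt w t (A.mulVec z) ∂(gau I)) :
    ‖∫ z, Sc w t q (A.mulVec z) ∂(gau I)‖ ≤
      (∫ z, ‖Pq w t q (A.mulVec z) + Wh w t q (A.mulVec z)‖ * Nt w t (A.mulVec z) ∂(gau I)) +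
      S.card / (2 * Real.pi * |(q : ℝ)|) *
        (5 * ω * (Real.exp (-(2 * Real.pi ^ 2 * q ^ 2 / κ)) + θ) + ε + 10 * ω * δ) *
        ∫ z, Nt w t (A.mulVec z) ∂(gau I) := by
  set N0 := ∫ z, Nt w t (A.mulVec z) ∂(gau I) with hN0
  have hN0p : 0 < N0 := int_Nt_pos hw0 hwb hp ht A
  set E := 5 * ω * (Real.exp (-(2 * Real.pi ^ 2 * q ^ 2 / κ)) + θ) + ε + 10 * ω * δ with hE
  have hq' : (q : ℝ) ≠ 0 := by exact_mod_cast hq
  have hWm : Measurable (Wh w t q) := (continuous_Wh hw0 hwb hp ht q).measurable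
  have hPm : Measurable (Pq w t q) := (continuous_Pq hw0 hwb hp ht q).measurable
  have hPb : ∀ F, ‖Pq w t q F‖ ≤ ω := norm_Pq_le hw0 hwb hp hs ht hc hq
  have hPW := Pq_add_Wh hw0 hwb hp hs ht hω hc hq
  have hWb : ∀ F, ‖Wh w t q F‖ ≤ ω + 2 * ω ^ 2 := by
    intro F
    have : Wh w t q F = (Pq w t q F + Wh w t q F) - Pq w t q F := by ring
    rw [this]
    refine (norm_sub_le _ _).trans ?_
    linarith [hPb F, hPW F]
  have e0 : ∫ z, Sc w t q (A.mulVec z) ∂(gau I) =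
      ∫ z, Pq w t q (A.mulVec z) * (Nt w t (A.mulVec z) : ℂ) ∂(gau I) := by
    refine integral_congr_ae (Filter.Eventually.of_forall fun z => ?_)
    simp only
    unfold Pq
    rw [div_mul_cancel₀]
    exact_mod_cast (Nt_pos hw0 hwb hp ht _).ne'
  have i1 := int_mul_Nt hw0 hwb hp ht A (hPm.add hWm) (φ := fun F => Pq w t q F + Wh w t q F) hPW
  have i2 := int_mul_Nt hw0 hwb hp ht A hWm hWb
  have e1 : ∫ z, Pq w t q (A.mulVec z) * (Nt w t (A.mulVec z) : ℂ) ∂(gau I) =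
      (∫ z, (Pq w t q (A.mulVec z) + Wh w t q (A.mulVec z)) * (Nt w t (A.mulVec z) : ℂ) ∂(gau I)) -
        ∫ z, Wh w t q (A.mulVec z) * (Nt w t (A.mulVec z) : ℂ) ∂(gau I) := by
    rw [← integral_sub i1 i2]
    refine integral_congr_ae (Filter.Eventually.of_forall fun z => ?_)
    simp only
    ring
  have b1 : ‖∫ z, (Pq w t q (A.mulVec z) + Wh w t q (A.mulVec z)) *
      (Nt w t (A.mulVec z) : ℂ) ∂(gau I)‖ ≤
      ∫ z, ‖Pq w t q (A.mulVec z) + Wh w t q (A.mulVec z)‖ * Nt w t (A.mulVec z) ∂(gau I) := by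
    refine (norm_integral_le_integral_norm _).trans (le_of_eq ?_)
    refine integral_congr_ae (Filter.Eventually.of_forall fun z => ?_)
    simp only
    rw [norm_mul, Complex.norm_real, Real.norm_eq_abs, abs_of_pos (Nt_pos hw0 hwb hp ht _)]
  -- the harmonic
  have e2 : (2 * Real.pi * q * Complex.I) *
      ∫ z, Wh w t q (A.mulVec z) * (Nt w t (A.mulVec z) : ℂ) ∂(gau I) =
      ∑ i ∈ S, ∫ z, Dh w t q (g i) (A.mulVec z) * (Nt w t (A.mulVec z) : ℂ) ∂(gau I) := by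
    have hDb : ∀ i ∈ S, ∀ F, ‖Dh w t q (g i) F‖ ≤ 5 * ω := by
      intro i hi F
      refine (Dh_le hw0 hwb hp hs ht hω h hq (g i) F).trans ?_
      have h1 : Real.sqrt (t * ∑ x, g i x ^ 2) ≤ 1 := Real.sqrt_le_one.2 (hg i hi)
      nlinarith [Real.sqrt_nonneg (t * ∑ x, g i x ^ 2), h.ω0]
    have hint : ∀ i ∈ S, Integrable (fun z => Dh w t q (g i) (A.mulVec z) *
        (Nt w t (A.mulVec z) : ℂ)) (gau I) := fun i hi =>
      int_mul_Nt hw0 hwb hp ht A (continuous_Dh hw0 hwb hp ht q (g i)).measurable (hDb i hi)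
    rw [← integral_const_mul, ← integral_finsetSum _ hint]
    refine integral_congr_ae (Filter.Eventually.of_forall fun z => ?_)
    simp only
    rw [← mul_assoc, Wh_eq_sum hw0 hwb hp hs ht q S g hg1, Finset.sum_mul]
  have b2 : ‖∫ z, Wh w t q (A.mulVec z) * (Nt w t (A.mulVec z) : ℂ) ∂(gau I)‖ ≤
      S.card / (2 * Real.pi * |(q : ℝ)|) * E * N0 := by
    have h1 : ‖(2 * Real.pi * q * Complex.I) *
        ∫ z, Wh w t q (A.mulVec z) * (Nt w t (A.mulVec z) : ℂ) ∂(gau I)‖ ≤ S.card * (E * N0) := by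
      rw [e2]
      refine (norm_sum_le _ _).trans ?_
      calc ∑ i ∈ S, ‖_‖ ≤ ∑ i ∈ S, E * N0 := Finset.sum_le_sum fun i hi =>
            one_term hw0 hwb hp hs ht hω h hq hR hθ (hg i hi) (hcut i hi) (hu i hi) (hu0 i hi)
              (hκ i hi) hgm hε (fun F hF => hloc F hF i hi) hbad
        _ = S.card * (E * N0) := by rw [Finset.sum_const, nsmul_eq_mul]
    have h2 : ‖(2 * (Real.pi : ℂ) * q * Complex.I)‖ = 2 * Real.pi * |(q : ℝ)| := by
      rw [norm_mul, norm_mul, norm_mul, Complex.norm_I, mul_one, Complex.norm_real,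
        Real.norm_eq_abs, abs_of_pos Real.pi_pos, Complex.norm_two, Complex.norm_intCast]
    rw [norm_mul, h2] at h1
    have h3 : 0 < 2 * Real.pi * |(q : ℝ)| := by
      have := abs_pos.2 hq'
      positivity
    rw [div_mul_eq_mul_div, div_mul_eq_mul_div, le_div_iff₀ h3]
    calc _ = 2 * Real.pi * |(q : ℝ)| *
          ‖∫ z, Wh w t q (A.mulVec z) * (Nt w t (A.mulVec z) : ℂ) ∂(gau I)‖ := by ring
      _ ≤ _ := h1
      _ = _ := by ring
  rw [e0, e1]
  exact (norm_sub_le _ _).trans (add_le_add b1 b2)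

/-- **CH2, abstract one-window theorem** for one charge `q` -/
theorem window {t ω : ℝ} (ht : 0 < t) (hω : ω ≤ 1 / 2) (h : NC w t ω) (hc : CH w t ω)
    {q : ℤ} (hq : q ≠ 0)
    {A : Matrix V I ℝ} {A' : Matrix V I' ℝ} {R : (V → ℝ) → ℝ} {K : ℝ} (hR : Ref w t A A' R K)
    {θ : ℝ} (hθ : ∫ z, Real.exp (R (A'.mulVec z)) ∂(gau I') ≤ 1 + θ)
    {ι : Type*} (S : Finset ι) (g : ι → V → ℝ) (hg1 : ∑ i ∈ S, g i = fun _ => 1)
    (hg : ∀ i ∈ S, t * ∑ x, g i x ^ 2 ≤ 1) (B : ι → Set V) (cut : ι → (V → ℝ) → V → ℝ)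
    (hcut : ∀ i ∈ S, Cut (B i) (cut i)) (u : ι → I' → ℝ)
    (hu : ∀ i ∈ S, ∀ x ∈ B i, A'.mulVec (u i) x = 1) (hu0 : ∀ i ∈ S, 0 < ∑ j, u i j ^ 2) {κ : ℝ}
    (hκ : ∀ i ∈ S, ∑ j, u i j ^ 2 ≤ κ) {good : Set (V → ℝ)} (hgm : MeasurableSet good)
    {ε δ : ℝ} (hε : 0 ≤ ε)
    (hloc : ∀ F ∈ good, ∀ i ∈ S, ∀ s ∈ Set.Icc (0 : ℝ) 1,
      |dU w (cm t) (shc F s) (g i) - dU w (cm t) (shc (cut i F) s) (g i)| ≤ ε)
    (hbad : ∫ z, goodᶜ.indicator (fun F => Nt w t F) (A.mulVec z) ∂(gau I) ≤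
      δ * ∫ z, Nt w t (A.mulVec z) ∂(gau I)) :
    ‖∫ z, Sc w t q (A.mulVec z) ∂(gau I)‖ ≤
      (2 * ω ^ 2 + S.card / (2 * Real.pi * |(q : ℝ)|) *
        (5 * ω * (Real.exp (-(2 * Real.pi ^ 2 * q ^ 2 / κ)) + θ) + ε + 10 * ω * δ)) *
        ∫ z, Nt w t (A.mulVec z) ∂(gau I) := by
  have h1 := window_pre hw0 hwb hp hs ht hω h hc hq hR hθ S g hg1 hg B cut hcut u hu hu0 hκ hgm hε
    hloc hbad
  have hPW := Pq_add_Wh hw0 hwb hp hs ht hω hc hq
  have h2 : ∫ z, ‖Pq w t q (A.mulVec z) + Wh w t q (A.mulVec z)‖ * Nt w t (A.mulVec z) ∂(gau I) ≤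
      2 * ω ^ 2 * ∫ z, Nt w t (A.mulVec z) ∂(gau I) := by
    rw [← integral_const_mul]
    refine integral_mono_of_nonneg (Filter.Eventually.of_forall fun z =>
      mul_nonneg (norm_nonneg _) (Nt_pos hw0 hwb hp ht _).le)
      ((int_Nt hw0 hwb hp ht A).const_mul _) (Filter.Eventually.of_forall fun z => ?_)
    exact mul_le_mul_of_nonneg_right (hPW _) (Nt_pos hw0 hwb hp ht _).le
  refine h1.trans ?_
  linarith

end model

end

end Vale.Agent.P159.H415
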