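import Vale.Agent.P159.H415.NumD

/-!
P159, module CH2 (helper415), part 21: **one window of CH2 on one torus** (`ch2_win`), from `RNG`,
the typical set `TypE` at the natural mass and the zero background number.
-/

set_option linter.unusedSectionVars false

namespace Vale.Agent.P159.H415

open Finset Matrix
open Vale.Agent.P159.H37 (wM)
open Vale.Agent.P159.H896 (Om)
open Vale.Agent.P159.H43 (ch2)
open Vale.Agent.P159.H145 (OscZ mt)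
open Vale.Agent.P159.H864 (yt)
open Vale.Agent.P159.TM.Spec (V Rng)
open Vale.Agent.P159.TM.SpecC (wT)
open Vale.Agent.P159.H859 (wc)
open Vale.Agent.P159.H972 (lg tn Par RNG)

noncomputable section

/-- the total activity from the oscillation constant -/
lemma Om_le_of_osc {V' : Type} [Fintype V'] [DecidableEq V'] {w : (V' → ℤ) → ℝ}
    {M : Matrix V' V' ℝ} (hM : M.transpose = M) (hE : TM.H104.EM (wM w M)) {ω : ℝ}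
    (hO : OscZ w M ω) : Om w M ≤ ω := by
  have h1 := hO 0 0 ⟨le_rfl, zero_le_one⟩
  have e : H145.cs (0 : V' → ℝ) 0 = 0 := by
    funext x
    simp [H145.cs]
  rw [e] at h1
  have h2 : 0 < H37.Zn w M 0 := H145.Zn_pos hM hE 0
  unfold Om
  rw [sub_le_iff_le_add, div_le_iff₀ h2]
  have := (abs_le.1 h1).2
  linarith

lemma tn_pos' (n : ℕ) : 0 < tn n := by
  unfold tn
  positivity

lemma tn_eq_inv (n : ℕ) : tn n = 1 / ((2 ^ n : ℕ) : ℝ) ^ 2 := by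
  unfold tn
  push_cast
  rw [one_div, ← pow_mul, mul_comm, pow_mul]
  norm_num

lemma tn_add (n k : ℕ) : tn (n + k) = tn n / 4 ^ k := by
  unfold tn
  rw [pow_add]
  field_simp

lemma tn_four (n : ℕ) : tn n * 4 ^ n = 1 := by
  unfold tn
  field_simp

/-- **activity of the torus at every mass in `[t_n, 4 t_n]`** -/
lemma Om_yt {b : ℝ} (hb : 0 < b) {n r : ℕ} (hr : n ≤ r) {T Y : ℝ} (h1 : tn n ≤ T)
    (h2 : T ≤ 4 * tn n) (hy : yt (2 ^ r) b (4 * tn n) ≤ Y)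
    (hs : 4 * ((2 ^ (r - n)) ^ 2 * Y) ≤ 1) :
    Om (wT b (2 ^ r)) (T • (1 : Matrix (V (2 ^ r)) (V (2 ^ r)) ℝ)) ≤
      2 * ((2 ^ (r - n)) ^ 2 * Y) := by
  have h3 := H43.osc_post hb hr h1 h2 hy hs
  exact Om_le_of_osc H145.mt_symm (H145.em_mt hb.le ((tn_pos' n).trans_le h1)) h3

/-- numbers: the weight constant of the window -/
lemma wc_num {b b2 s Γ : ℝ} {n m r S w g k : ℕ} (hb : 0 < b) (hbb2 : b ≤ b2) (hs1 : tn m ≤ s)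
    (hmr : m ≤ r) (hS : S = n - g) (hg : g ≤ n) (hn : n ≤ r) (hk : k = r - n) {ρ : ℕ}
    (hρR : (ρ : ℝ) = 2 ^ (w + g))
    (hΓ : 1 + 18 * (b2 + b2 ^ 2 * (1 + ((k + g : ℕ) : ℝ))) ≤ Γ ^ 2) :
    16 * wc (2 ^ r) (2 ^ S) ρ b (tn n) s ≤ (4 * 4 ^ w * Γ) ^ 2 := by
  have hm0 := tn_pos' m
  have hs0 : 0 < s := hm0.trans_le hs1
  have hlR : ((2 ^ S : ℕ) : ℝ) = 2 ^ S := by push_cast; rfl
  have eL : ((2 ^ r / 2 ^ S : ℕ) : ℝ) = 2 ^ (k + g) := by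
    rw [Nat.pow_div (by omega) (by norm_num), show r - S = k + g by omega]
    push_cast
    rfl
  have hNl : 1 ≤ 2 ^ r / 2 ^ S := by
    rw [Nat.pow_div (by omega) (by norm_num)]
    exact Nat.one_le_two_pow
  have i1 : NeZero (2 ^ r / 2 ^ S) := ⟨by omega⟩
  have h1 := H859.wc_le (N := 2 ^ r) (l := 2 ^ S) (b := b) (t := tn n) (r := s) (ρ := ρ)
    (R := 2 ^ (w + n)) hb.le hs0 (by
      rw [hρR, hlR, ← pow_add]
      exact pow_le_pow_right₀ (by norm_num) (by omega)) hNl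
  have e1 : (((2 : ℝ) ^ (w + n)) ^ 2 * tn n) ^ 2 = (4 ^ w) ^ 2 := by
    congr 1
    rw [← pow_mul, mul_comm (w + n) 2, pow_mul, pow_add]
    rw [show ((2 : ℝ) ^ 2) = 4 by norm_num, mul_assoc, mul_comm ((4 : ℝ) ^ n), tn_four, mul_one]
  have h2 : b / (s * ((2 ^ r : ℕ) : ℝ) ^ 2) ≤ b2 := by
    have h3 : 1 ≤ s * ((2 ^ r : ℕ) : ℝ) ^ 2 := by
      have h4 : 1 ≤ tn m * ((2 ^ r : ℕ) : ℝ) ^ 2 := by
        push_cast
        rw [← pow_mul, mul_comm r 2, pow_mul, show ((2 : ℝ) ^ 2) = 4 by norm_num]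
        calc (1 : ℝ) = tn m * 4 ^ m := (tn_four m).symm
          _ ≤ tn m * 4 ^ r := by
            refine mul_le_mul_of_nonneg_left ?_ hm0.le
            exact pow_le_pow_right₀ (by norm_num) hmr
      refine h4.trans ?_
      gcongr
    exact (div_le_self hb.le h3).trans hbb2
  have h3 : Real.log ((2 ^ r / 2 ^ S : ℕ) : ℝ) ≤ ((k + g : ℕ) : ℝ) := by
    rw [eL, Real.log_pow]
    have h4 : Real.log 2 ≤ 1 := by
      have := Real.log_two_lt_d9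
      linarith
    have h5 : (0 : ℝ) ≤ ((k + g : ℕ) : ℝ) := Nat.cast_nonneg _
    nlinarith
  have h0l : 0 ≤ Real.log ((2 ^ r / 2 ^ S : ℕ) : ℝ) := by
    rw [eL]
    exact Real.log_nonneg (one_le_pow₀ (by norm_num))
  rw [e1] at h1
  have hb22 : b ^ 2 ≤ b2 ^ 2 := pow_le_pow_left₀ hb.le hbb2 2
  have h6 : b / (s * ((2 ^ r : ℕ) : ℝ) ^ 2) + b ^ 2 * (1 + Real.log ((2 ^ r / 2 ^ S : ℕ) : ℝ)) ≤
      b2 + b2 ^ 2 * (1 + ((k + g : ℕ) : ℝ)) :=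
    add_le_add h2 (mul_le_mul hb22 (by linarith) (by linarith) (sq_nonneg _))
  have h7 : (1 : ℝ) ≤ (4 ^ w) ^ 2 := one_le_pow₀ (one_le_pow₀ (by norm_num))
  have h8 : 0 ≤ b2 + b2 ^ 2 * (1 + ((k + g : ℕ) : ℝ)) := by
    have : 0 ≤ b2 := hb.le.trans hbb2
    positivity
  obtain ⟨q, hq⟩ : ∃ q : ℝ, q = b2 + b2 ^ 2 * (1 + ((k + g : ℕ) : ℝ)) := ⟨_, rfl⟩
  obtain ⟨x, hx⟩ : ∃ x : ℝ, x = ((4 : ℝ) ^ w) ^ 2 := ⟨_, rfl⟩
  rw [← hq] at h6 h8 hΓ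
  rw [← hx] at h7 h1
  have e2 : (4 * 4 ^ w * Γ) ^ 2 = 16 * (x * Γ ^ 2) := by
    rw [hx]
    ring
  rw [e2]
  have h9 : wc (2 ^ r) (2 ^ S) ρ b (tn n) s ≤ 1 + 18 * x * q := by
    refine h1.trans ?_
    have := mul_le_mul_of_nonneg_left h6 (by positivity : (0 : ℝ) ≤ 18 * x)
    linarith
  have h10 : 1 + 18 * x * q ≤ x * (1 + 18 * q) := by nlinarith
  have h11 : x * (1 + 18 * q) ≤ x * Γ ^ 2 := mul_le_mul_of_nonneg_left hΓ (by linarith)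
  linarith

/-- numbers: the mass term of the window -/
lemma mass_num {s y L : ℝ} {n m S w g d : ℕ} (hs1 : tn m ≤ s) (hs2 : s ≤ 64 * tn m)
    (hsT : s ≤ tn n / 2) (hy0 : 0 ≤ y) (hS : S = n - g) (hg : g ≤ n) (hd : d = m - n)
    (hnm : n ≤ m) (hwd : 2 * w ≤ d) {ρ : ℕ} (hρR : (ρ : ℝ) = 2 ^ (w + g))
    (hL : L = 2 ^ (d - 2 * w)) (h : (d : ℝ) * (3200 + 25 * y * 4 ^ d) ≤ 4 ^ w) :
    Real.log L * ((((1 / s - 1 / tn n) / ((2 ^ S : ℕ) : ℝ) ^ 2)⁻¹ + ((2 ^ S : ℕ) : ℝ) ^ 2 *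
        (tn n * y)) * (2 * (L * (2 * (ρ : ℝ))) + 1) ^ 2) ≤ 1 := by
  have hm0 := tn_pos' m
  have hT0 := tn_pos' n
  have hs0 : 0 < s := hm0.trans_le hs1
  have hlR : ((2 ^ S : ℕ) : ℝ) = 2 ^ S := by push_cast; rfl
  have hLρl : L * (ρ : ℝ) * ((2 ^ S : ℕ) : ℝ) = 2 ^ (m - w) := by
    rw [hL, hρR, hlR, ← pow_add, ← pow_add]
    congr 1
    omega
  have hmn : tn m = tn n / 4 ^ d := by
    rw [← tn_add]
    congr 1
    omega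
  have hTs : 1 / (2 * s) ≤ 1 / s - 1 / tn n := by
    have h1 : 1 / tn n ≤ 1 / (2 * s) := one_div_le_one_div_of_le (by positivity) (by linarith)
    have h2 : 1 / s = 1 / (2 * s) + 1 / (2 * s) := by field_simp; ring
    linarith
  have hl0 : (0 : ℝ) < ((2 ^ S : ℕ) : ℝ) ^ 2 := by positivity
  have h2s : (0 : ℝ) < 1 / (2 * s) := by positivity
  have h1 : ((1 / s - 1 / tn n) / ((2 ^ S : ℕ) : ℝ) ^ 2)⁻¹ ≤
      128 * tn m * ((2 ^ S : ℕ) : ℝ) ^ 2 := by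
    rw [inv_div]
    calc ((2 ^ S : ℕ) : ℝ) ^ 2 / (1 / s - 1 / tn n) ≤ ((2 ^ S : ℕ) : ℝ) ^ 2 / (1 / (2 * s)) :=
          div_le_div_of_nonneg_left hl0.le h2s hTs
      _ = 2 * s * ((2 ^ S : ℕ) : ℝ) ^ 2 := by field_simp
      _ ≤ 128 * tn m * ((2 ^ S : ℕ) : ℝ) ^ 2 := by
          refine mul_le_mul_of_nonneg_right ?_ hl0.le
          linarith
  have hL1 : 1 ≤ L := by
    rw [hL]
    exact one_le_pow₀ (by norm_num)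
  have hρ1 : (1 : ℝ) ≤ ρ := by
    rw [hρR]
    exact one_le_pow₀ (by norm_num)
  have hLρ : 1 ≤ L * ρ := by nlinarith
  have h2 : (2 * (L * (2 * (ρ : ℝ))) + 1) ^ 2 ≤ 25 * (L * ρ) ^ 2 := by
    have h3 : 2 * (L * (2 * (ρ : ℝ))) + 1 ≤ 5 * (L * ρ) := by linarith
    have h4 : 0 ≤ 2 * (L * (2 * (ρ : ℝ))) + 1 := by positivity
    calc (2 * (L * (2 * (ρ : ℝ))) + 1) ^ 2 ≤ (5 * (L * ρ)) ^ 2 := pow_le_pow_left₀ h4 h3 2
      _ = _ := by ring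
  have h4w : (0 : ℝ) < 4 ^ w := by positivity
  have e3 : (L * ρ) ^ 2 * ((2 ^ S : ℕ) : ℝ) ^ 2 = 4 ^ (m - w) := by
    rw [← mul_pow, hLρl, ← pow_mul, mul_comm, pow_mul]
    norm_num
  have e4 : tn m * 4 ^ (m - w) = 1 / 4 ^ w := by
    have h5 : (4 : ℝ) ^ m = 4 ^ (m - w) * 4 ^ w := by
      rw [← pow_add]
      congr 1
      omega
    have h6 := tn_four m
    rw [h5] at h6
    rw [eq_div_iff h4w.ne']
    linarith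
  have e5 : tn n * 4 ^ (m - w) = 4 ^ d / 4 ^ w := by
    have h5 : tn n = tn m * 4 ^ d := by
      rw [hmn]
      field_simp
    rw [h5, mul_right_comm, e4]
    ring
  have hlogL : Real.log L ≤ d := by
    rw [hL, Real.log_pow]
    have h4 : Real.log 2 ≤ 1 := by
      have := Real.log_two_lt_d9
      linarith
    have h5 : ((d - 2 * w : ℕ) : ℝ) ≤ d := by
      have : d - 2 * w ≤ d := Nat.sub_le _ _
      exact_mod_cast this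
    have h6 : (0 : ℝ) ≤ ((d - 2 * w : ℕ) : ℝ) := Nat.cast_nonneg _
    nlinarith
  have hlogL0 : 0 ≤ Real.log L := Real.log_nonneg hL1
  have h6 : 0 ≤ 1 / s - 1 / tn n := by linarith
  have h3 : (((1 / s - 1 / tn n) / ((2 ^ S : ℕ) : ℝ) ^ 2)⁻¹ + ((2 ^ S : ℕ) : ℝ) ^ 2 *
      (tn n * y)) * (2 * (L * (2 * (ρ : ℝ))) + 1) ^ 2 ≤
      (3200 + 25 * y * 4 ^ d) / 4 ^ w := by
    calc _ ≤ (128 * tn m * ((2 ^ S : ℕ) : ℝ) ^ 2 + ((2 ^ S : ℕ) : ℝ) ^ 2 *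
          (tn n * y)) * (25 * (L * ρ) ^ 2) :=
          mul_le_mul (by linarith) h2 (sq_nonneg _) (by positivity)
      _ = 3200 * (tn m * ((L * ρ) ^ 2 * ((2 ^ S : ℕ) : ℝ) ^ 2)) + 25 * y *
          (tn n * ((L * ρ) ^ 2 * ((2 ^ S : ℕ) : ℝ) ^ 2)) := by ring
      _ = _ := by
          rw [e3, e4, e5]
          field_simp
  calc _ ≤ (d : ℝ) * ((3200 + 25 * y * 4 ^ d) / 4 ^ w) := by
        refine mul_le_mul hlogL h3 ?_ (Nat.cast_nonneg _)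
        positivity
    _ = (d : ℝ) * (3200 + 25 * y * 4 ^ d) / 4 ^ w := by ring
    _ ≤ 1 := by
        rw [div_le_one h4w]
        exact h

/-- numbers: the amplitude of the far part -/
lemma amp_num {s e : ℝ} {n m k g d : ℕ} (he : 0 < e) (hs1 : tn m ≤ s) (hd : d = m - n)
    (hnm : n ≤ m) :
    4 * ((2 : ℝ) ^ (k + g)) ^ 4 ≤ (2 * 4 ^ (k + g) * 2 ^ d * e ^ (-(1 / 32) : ℝ)) ^ 2 *
      ((2 ^ n : ℕ) : ℝ) ^ 2 * (s * e ^ (1 / 16 : ℝ)) := by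
  have hmn : tn m = tn n / 4 ^ d := by
    rw [← tn_add]
    congr 1
    omega
  have h1 : (1 : ℝ) ≤ (4 ^ d) * (((2 ^ n : ℕ) : ℝ) ^ 2 * s) := by
    have h2 : (4 : ℝ) ^ d * (((2 ^ n : ℕ) : ℝ) ^ 2 * tn m) = 1 := by
      rw [hmn, tn_eq_inv n]
      field_simp
    calc (1 : ℝ) = 4 ^ d * (((2 ^ n : ℕ) : ℝ) ^ 2 * tn m) := h2.symm
      _ ≤ _ := by gcongr
  have e1 : (e ^ (-(1 / 32) : ℝ)) ^ 2 * e ^ (1 / 16 : ℝ) = 1 := by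
    rw [← Real.rpow_natCast, ← Real.rpow_mul he.le, ← Real.rpow_add he]
    norm_num
  have e2 : ((2 : ℝ) ^ d) ^ 2 = 4 ^ d := by
    rw [← pow_mul, mul_comm, pow_mul]
    norm_num
  have e3 : ((2 : ℝ) ^ (k + g)) ^ 4 = (4 ^ (k + g)) ^ 2 := by
    rw [← pow_mul, ← pow_mul, show (4 : ℝ) = 2 ^ 2 by norm_num, ← pow_mul]
    congr 1
    ring
  rw [e3]
  have e4 : (2 * 4 ^ (k + g) * 2 ^ d * e ^ (-(1 / 32) : ℝ)) ^ 2 * ((2 ^ n : ℕ) : ℝ) ^ 2 *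
      (s * e ^ (1 / 16 : ℝ)) = 4 * (4 ^ (k + g)) ^ 2 * (((2 ^ d) ^ 2) *
        (((2 ^ n : ℕ) : ℝ) ^ 2 * s)) * ((e ^ (-(1 / 32) : ℝ)) ^ 2 * e ^ (1 / 16 : ℝ)) := by ring
  rw [e4, e1, e2, mul_one]
  exact le_mul_of_one_le_right (by positivity) h1

/-- numbers: the conclusion -/
lemma con_num {th e ω B L c C F : ℝ} {k d g w : ℕ} (he : 0 < e) (hω1 : ω ≤ 1 / 2) (hB0 : 0 ≤ B)
    (hC : 0 ≤ C) (hL : L = 2 ^ (d - 2 * w)) (hdw : 2 * w ≤ d)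
    (d5 : (2 : ℝ) ^ (9 * w) ≤ e ^ (-(th / 4)))
    (c4 : (Real.exp (e ^ (1 / 16 : ℝ)) / (1 - 20 * e ^ (1 / 16 : ℝ)) - 1) +
      2 * (20 * e ^ (1 / 16 : ℝ)) ≤ e ^ (1 / 17 : ℝ))
    (b6 : (4 : ℝ) ^ k / (4 * Real.pi) * (Real.exp (9 / 2) * (2 * 4 ^ (k + g) * 2 ^ d *
        e ^ (-(1 / 32) : ℝ)) * (C * Real.exp (-(c * (2 ^ w - 2))))) ≤ F) :
    2 * ω ^ 2 + (2 ^ k) ^ 2 / (4 * Real.pi) *
        (5 / 2 * (B + 2 * ω ^ 2) * (L ^ (-(9 / 2) : ℝ) + (Real.exp (e ^ (1 / 16 : ℝ)) /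
          (1 - 20 * e ^ (1 / 16 : ℝ)) - 1) + 2 * (20 * e ^ (1 / 16 : ℝ))) +
          Real.exp ((1 + 16 * ω) / 2) * (2 * 4 ^ (k + g) * 2 ^ d * e ^ (-(1 / 32) : ℝ)) *
            (C * Real.exp (-(c * (2 ^ w - 2))))) ≤
      (2 ^ k) ^ 2 * ((e ^ (-(th / 4)) * (2 : ℝ) ^ (-(9 / 2 * (d : ℝ))) +
        e ^ (1 / 17 : ℝ)) * (B + 2 * ω ^ 2)) + (2 * ω ^ 2 + F) := by
  have e2 : ((2 : ℝ) ^ k) ^ 2 = 4 ^ k := by
    rw [← pow_mul, mul_comm, pow_mul]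
    norm_num
  rw [e2]
  have hLp : L ^ (-(9 / 2) : ℝ) ≤ e ^ (-(th / 4)) * (2 : ℝ) ^ (-(9 / 2 * (d : ℝ))) := by
    have hd' : ((d - 2 * w : ℕ) : ℝ) = d - 2 * w := by
      rw [Nat.cast_sub hdw]
      push_cast
      ring
    rw [hL, ← Real.rpow_natCast, ← Real.rpow_mul (by norm_num), hd']
    have e3 : ((d : ℝ) - 2 * w) * (-(9 / 2)) = ((9 * w : ℕ) : ℝ) + -(9 / 2 * (d : ℝ)) := by
      push_cast
      ring
    rw [e3, Real.rpow_add (by norm_num), Real.rpow_natCast]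
    exact mul_le_mul_of_nonneg_right d5 (by positivity)
  have h4k : (0 : ℝ) < 4 ^ k := by positivity
  have hpi := Real.pi_gt_three
  have hD : 0 ≤ B + 2 * ω ^ 2 := by positivity
  have h2 := Real.rpow_pos_of_pos he (-(1 / 32) : ℝ)
  have hfar : (4 : ℝ) ^ k / (4 * Real.pi) * (Real.exp ((1 + 16 * ω) / 2) *
      (2 * 4 ^ (k + g) * 2 ^ d * e ^ (-(1 / 32) : ℝ)) *
      (C * Real.exp (-(c * (2 ^ w - 2))))) ≤ F := by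
    refine le_trans ?_ b6
    have h1 : Real.exp ((1 + 16 * ω) / 2) ≤ Real.exp (9 / 2) := Real.exp_le_exp.2 (by linarith)
    have h3 : 0 ≤ 2 * 4 ^ (k + g) * 2 ^ d * e ^ (-(1 / 32) : ℝ) := by positivity
    refine mul_le_mul_of_nonneg_left ?_ (by positivity)
    refine mul_le_mul_of_nonneg_right ?_ (by positivity)
    exact mul_le_mul_of_nonneg_right h1 h3
  obtain ⟨G, hG⟩ : ∃ G : ℝ, G = L ^ (-(9 / 2) : ℝ) + (Real.exp (e ^ (1 / 16 : ℝ)) /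
    (1 - 20 * e ^ (1 / 16 : ℝ)) - 1) + 2 * (20 * e ^ (1 / 16 : ℝ)) := ⟨_, rfl⟩
  obtain ⟨G', hG'⟩ : ∃ G' : ℝ, G' = e ^ (-(th / 4)) * (2 : ℝ) ^ (-(9 / 2 * (d : ℝ))) +
      e ^ (1 / 17 : ℝ) := ⟨_, rfl⟩
  have hGG : G ≤ G' := by rw [hG, hG']; linarith
  have hG'0 : 0 ≤ G' := by
    rw [hG']
    have := Real.rpow_pos_of_pos he (1 / 17 : ℝ)
    have := Real.rpow_pos_of_pos he (-(th / 4))
    positivity
  rw [← hG, ← hG']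
  have h5 : (4 : ℝ) ^ k / (4 * Real.pi) * (5 / 2 * (B + 2 * ω ^ 2) * G) ≤
      4 ^ k * (G' * (B + 2 * ω ^ 2)) := by
    have h6 : 5 / 2 * (B + 2 * ω ^ 2) * G ≤ 5 / 2 * (B + 2 * ω ^ 2) * G' :=
      mul_le_mul_of_nonneg_left hGG (by positivity)
    calc (4 : ℝ) ^ k / (4 * Real.pi) * (5 / 2 * (B + 2 * ω ^ 2) * G) ≤
          4 ^ k / (4 * Real.pi) * (5 / 2 * (B + 2 * ω ^ 2) * G') :=
            mul_le_mul_of_nonneg_left h6 (by positivity)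
      _ = (4 ^ k * (G' * (B + 2 * ω ^ 2))) * (5 / 2 / (4 * Real.pi)) := by ring
      _ ≤ (4 ^ k * (G' * (B + 2 * ω ^ 2))) * 1 := by
          refine mul_le_mul_of_nonneg_left ?_ (by positivity)
          rw [div_le_one (by positivity)]
          linarith
      _ = _ := mul_one _
  rw [mul_add]
  linarith

lemma rng_num {c y : ℝ} {n r k : ℕ} (hk : k = r - n) (hn : n ≤ r) (h6 : (2 : ℝ) ^ k * y ≤ c) :
    ((2 ^ r : ℕ) : ℝ) * y ≤ c * ((2 ^ n : ℕ) : ℝ) := by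
  have e1 : (((2 ^ n : ℕ)) : ℝ) = 2 ^ n := by push_cast; rfl
  have e2 : (((2 ^ r : ℕ)) : ℝ) = 2 ^ k * 2 ^ n := by
    push_cast
    rw [← pow_add]
    congr 1
    omega
  rw [e1, e2]
  calc (2 : ℝ) ^ k * 2 ^ n * y = 2 ^ k * y * 2 ^ n := by ring
    _ ≤ c * 2 ^ n := mul_le_mul_of_nonneg_right h6 (by positivity)

lemma cell_num {n g S : ℕ} (hS : S = n - g) (hg : g ≤ n) (hg3 : 12 ≤ g) :
    50 * ((2 ^ S : ℕ) : ℝ) ^ 2 ≤ ((2 ^ n : ℕ) : ℝ) ^ 2 := by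
  have e1 : (((2 ^ n : ℕ)) : ℝ) = 2 ^ g * 2 ^ S := by
    push_cast
    rw [← pow_add]
    congr 1
    omega
  have hlR : ((2 ^ S : ℕ) : ℝ) = 2 ^ S := by push_cast; rfl
  rw [e1, hlR]
  have h1 : (8 : ℝ) ≤ 2 ^ g := by
    calc (8 : ℝ) = 2 ^ 3 := by norm_num
      _ ≤ _ := pow_le_pow_right₀ (by norm_num) (by omega)
  rw [mul_pow]
  have h2 : (0 : ℝ) < (2 ^ S) ^ 2 := by positivity
  have h3 : (64 : ℝ) ≤ (2 ^ g) ^ 2 := by nlinarith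
  exact mul_le_mul_of_nonneg_right (by linarith) h2.le

lemma tor_num {L : ℝ} {ρ d k g w : ℕ} (hL : L = 2 ^ (d - 2 * w)) (hρR : (ρ : ℝ) = 2 ^ (w + g))
    (hdw : 2 * w + 4 ≤ d) (hdk : d ≤ k) (hw3 : 3 ≤ w) (hg : 12 ≤ g) :
    2 * (L * (2 * (ρ : ℝ)) + 1) ≤ 2 ^ (k + g) := by
  have h1 : L * (2 * (ρ : ℝ)) * 2 = 2 ^ (d + g + 2 - w) := by
    rw [hL, hρR]
    have e1 : (2 : ℝ) ^ (d - 2 * w) * (2 * 2 ^ (w + g)) * 2 =
        2 ^ (d - 2 * w) * 2 ^ (w + g) * 2 ^ 2 := by ring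
    rw [e1, ← pow_add, ← pow_add]
    congr 1
    omega
  have h2 : (2 : ℝ) ^ (d + g + 2 - w) ≤ 2 ^ (k + g - 1) :=
    pow_le_pow_right₀ (by norm_num) (by omega)
  have h3 : (2 : ℝ) ≤ 2 ^ (k + g - 1) := by
    calc (2 : ℝ) = 2 ^ 1 := by norm_num
      _ ≤ _ := pow_le_pow_right₀ (by norm_num) (by omega)
  have h4 : (2 : ℝ) ^ (k + g) = 2 ^ (k + g - 1) * 2 := by
    rw [← pow_succ]
    congr 1
    omega
  rw [h4]
  linarith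

lemma rad_num {ρ n g S w : ℕ} (hρR : (ρ : ℝ) = 2 ^ (w + g)) (hS : S = n - g) (hg : g ≤ n) :
    ((2 : ℝ) ^ w - 2 + 2) * ((2 ^ n : ℕ) : ℝ) ≤ ρ * ((2 ^ S : ℕ) : ℝ) := by
  rw [sub_add_cancel, hρR]
  push_cast
  rw [← pow_add, ← pow_add]
  exact pow_le_pow_right₀ (by norm_num) (by omega)

/-- **one window of CH2**, sides powers of two -/
theorem win_pow {b1 b2 W₀ c C ys W b y s Q η p ω Γ ν A δ : ℝ} {X n m r g w k d S : ℕ}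
    (h : WR b1 b2 W₀ c C ys X) (hW : W₀ ≤ W)
    (hR : Rng b1 b2 (5 / 2) W ys X (2 ^ r) b (2 ^ n) y) (hb : 0 < b) (hS : S = n - g) (hg : g ≤ n)
    (hk : k = r - n) (hd : d = m - n) (hnm : n ≤ m) (hmr : m ≤ r) (hg3 : 12 ≤ g) (hw3 : 3 ≤ w)
    (hdw : 2 * w + 4 ≤ d) (h6 : (2 : ℝ) ^ k * y ≤ c) (hs1 : tn m ≤ s) (hs2 : s ≤ 64 * tn m)
    (hsT : s ≤ tn n / 2)
    (hTy : ∀ _ : NeZero (2 ^ r / 2 ^ S), H239.TypE (2 ^ r) (2 ^ S) b (tn n) s Q η p)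
    (hQ : 2 ≤ Q) (hη : η ≤ 1) (hp : p ≤ 1 / 100) (hω1 : ω ≤ 1 / 2)
    (hOm : Om (wT b (2 ^ r)) ((2 * tn n) • (1 : Matrix (V (2 ^ r)) (V (2 ^ r)) ℝ)) ≤ ω)
    (hΓ1 : 1 ≤ Γ) (hΓ : 1 + 18 * (b2 + b2 ^ 2 * (1 + ((k + g : ℕ) : ℝ))) ≤ Γ ^ 2)
    (hQΓ : 8 * 4 ^ w * Γ ^ 2 ≤ Q) (hms : (d : ℝ) * (3200 + 25 * y * 4 ^ d) ≤ 4 ^ w)
    (hν : 0 < ν) (hA0 : 0 < A)
    (hA : 4 * ((2 : ℝ) ^ (k + g)) ^ 4 ≤ A ^ 2 * ((2 ^ n : ℕ) : ℝ) ^ 2 * (s * ν))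
    (hδ : p + Real.exp η * (Real.exp η / (1 - p) * p +
        (2 ^ k) ^ 2 * (2 * Real.exp (-(Γ ^ 2 / 7))) + ν) ≤ δ) (hδ1 : δ < 1) :
    ch2 (wT b (2 ^ r)) (s • (1 : Matrix (V (2 ^ r)) (V (2 ^ r)) ℝ)) 0 ≤
      2 * ω ^ 2 + (2 ^ k) ^ 2 / (4 * Real.pi) *
        (5 / 2 * (ch2 (wT b (2 ^ r)) ((2 * tn n) • (1 : Matrix (V (2 ^ r)) (V (2 ^ r)) ℝ)) 0 +
          2 * ω ^ 2) * (((2 : ℝ) ^ (d - 2 * w)) ^ (-(9 / 2) : ℝ) + (Real.exp η / (1 - δ) - 1) +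
            2 * δ) + Real.exp ((1 + 16 * ω) / 2) * A * (C * Real.exp (-(c * (2 ^ w - 2))))) := by
  have hnr : n ≤ r := hnm.trans hmr
  have hlN : 2 ^ S ∣ 2 ^ r := pow_dvd_pow 2 (by omega)
  have i1 : NeZero (2 ^ r / 2 ^ S) := ⟨by
    rw [Nat.pow_div (by omega) (by norm_num)]
    positivity⟩
  have i2 : NeZero (2 ^ r / 2 ^ n) := ⟨by
    rw [Nat.pow_div (by omega) (by norm_num)]
    positivity⟩
  have eN : ((2 ^ r / 2 ^ n : ℕ) : ℝ) = 2 ^ k := by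
    rw [Nat.pow_div (by omega) (by norm_num), hk]
    push_cast
    rfl
  have eL : ((2 ^ r / 2 ^ S : ℕ) : ℝ) = 2 ^ (k + g) := by
    rw [Nat.pow_div (by omega) (by norm_num), show r - S = k + g by omega]
    push_cast
    rfl
  have hs0 : 0 < s := (tn_pos' m).trans_le hs1
  have hlR : ((2 ^ S : ℕ) : ℝ) = 2 ^ S := by push_cast; rfl
  obtain ⟨ρ, hρ⟩ : ∃ ρ : ℕ, ρ = 2 ^ (w + g) := ⟨_, rfl⟩
  have hρR : (ρ : ℝ) = 2 ^ (w + g) := by rw [hρ]; push_cast; rfl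
  obtain ⟨L, hL⟩ : ∃ L : ℝ, L = 2 ^ (d - 2 * w) := ⟨_, rfl⟩
  have hL2 : 2 ≤ L := by
    rw [hL]
    calc (2 : ℝ) = 2 ^ 1 := by norm_num
      _ ≤ _ := pow_le_pow_right₀ (by norm_num) (by omega)
  have hρ1 : 3400 ≤ ρ := by
    rw [hρ]
    calc 3400 ≤ 2 ^ 12 := by norm_num
      _ ≤ _ := Nat.pow_le_pow_right (by norm_num) (by omega)
  have h2w : (2 : ℝ) ≤ 2 ^ w := by
    calc (2 : ℝ) = 2 ^ 1 := by norm_num
      _ ≤ _ := pow_le_pow_right₀ (by norm_num) (by omega)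
  have c1 := rng_num hk hnr h6
  have c2 := cell_num hS hg hg3
  have c3 : 2 * (L * (2 * (ρ : ℝ)) + 1) ≤ ((2 ^ r / 2 ^ S : ℕ) : ℝ) := by
    rw [eL]
    exact tor_num hL hρR hdw (by omega) hw3 hg3
  have c4 := rad_num (n := n) hρR hS hg
  have c5 := wc_num hb hR.hb2 hs1 hmr hS hg hnr hk hρR hΓ
  have c6 : Γ * (2 * (4 * 4 ^ w * Γ)) ≤ Q := by
    calc Γ * (2 * (4 * 4 ^ w * Γ)) = 8 * 4 ^ w * Γ ^ 2 := by ring
      _ ≤ _ := hQΓ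
  have c7 := mass_num hs1 hs2 hsT hR.y0 hS hg hd hnm (by omega) hρR hL hms
  have c0 : 0 ≤ 4 * 4 ^ w * Γ := by positivity
  have key := h W hW (2 ^ r) (2 ^ S) (2 ^ n) b y hR c1 hlN c2
    (Nat.pow_le_pow_right (by norm_num) (by omega)) (tn n) (tn_eq_inv n) s Q η p hs0 hsT hQ hη hp
    (hTy i1) ω hω1 hOm ρ hρ1 L hL2 c3 (2 ^ w - 2) (by linarith) c4 (4 * 4 ^ w * Γ) Γ c0 c5 hΓ1 c6 c7
    ν A hν hA0 (by rw [eL]; exact hA) δ (by rw [eN]; exact hδ) hδ1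
  rw [eN, hL] at key
  exact key

/-- **one window of CH2** -/
theorem ch2_win {b1 : ℝ} (hb1 : 0 < b1) (b2 : ℝ) :
    ∃ W₀ ys : ℝ, ∃ X : ℕ, 0 < ys ∧ ∀ (th thp C0 : ℝ) (q1 : ℕ), 0 < th → th ≤ thp →
      thp ≤ 1 / 64 → 0 < C0 → th + 4 * q1 * thp ≤ 1 / 8 → ∃ E0 : ℝ, 0 < E0 ∧
    ∀ P : Par, P.b1 = b1 → P.b2 = b2 → W₀ ≤ P.W → P.ys ≤ ys → X ≤ P.X0 → P.th = th →
      P.thp = thp → P.C0 = C0 → P.q0 ≤ q1 →
    ∀ (b : ℝ) (n m r : ℕ) (e s Y : ℝ), 0 < e → e ≤ E0 → RNG P b n r e → P.TT n e r →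
      lg C0 e ≤ n → m ≤ r → n + P.w e ≤ m → m ≤ n + 4 * P.w e → tn m ≤ s → s ≤ 64 * tn m →
      (∀ _ : NeZero (2 ^ r / 2 ^ P.sE n e), H239.TypE (2 ^ r) (2 ^ P.sE n e) b (tn n) s
        (e ^ (-(th / 16))) (e ^ (1 / 16 : ℝ)) (Real.exp (-(e ^ (-(th / 16)))))) →
      yt (2 ^ r) b (4 * tn n) ≤ Y → 4 * ((2 ^ (r - n)) ^ 2 * Y) ≤ 1 →
    ch2 (wT b (2 ^ r)) (s • (1 : Matrix (V (2 ^ r)) (V (2 ^ r)) ℝ)) 0 ≤
      (2 ^ (r - n)) ^ 2 * ((e ^ (-(th / 4)) * (2 : ℝ) ^ (-(9 / 2 * ((m - n : ℕ) : ℝ))) +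
        e ^ (1 / 17 : ℝ)) * (ch2 (wT b (2 ^ r)) ((2 * tn n) • (1 : Matrix (V (2 ^ r)) (V (2 ^ r))
          ℝ)) 0 + 2 * (2 * ((2 ^ (r - n)) ^ 2 * Y)) ^ 2)) +
      (2 * (2 * ((2 ^ (r - n)) ^ 2 * Y)) ^ 2 + Real.exp (-(e ^ (-(th / 128))))) := by
  obtain ⟨W₀, c, C, ys, X, hc, hC, hys, hX, h⟩ := win_rng hb1 b2
  refine ⟨W₀, ys, X, hys, ?_⟩
  intro th thp C0 q1 hth hthp hthp1 hC0 hq
  have hthp0 : 0 < thp := hth.trans_le hthp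
  obtain ⟨E0, hE0, hE02, hE⟩ := le_of_ev (((sc1 hth hthp hC0).and (sc2 hth hthp0 hthp1)).and
    (((sc3 (b2 := b2) thp q1 hth hC0 hthp0.le).and (sc4 q1 hth hthp0.le hc hq)).and
      ((sc5 q1 hth hthp0.le hC0 hc hC).and (sc6 q1 hth hthp0.le))))
  refine ⟨E0, hE0, ?_⟩
  intro P p1 p2 pW py pX pth pthp pC0 pq b n m r e s Y he heE hR hTT hn hmr hm1 hm2 hs1 hs2 hTy
    hY hYs
  obtain ⟨⟨a1, a2⟩, ⟨a3, a4⟩, a5, a6⟩ := hE e he heE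
  -- letters
  have hw : P.w e = lg thp e := by
    unfold Par.w
    rw [pthp]
  have hkE : P.kE e = lg th e := by
    unfold Par.kE
    rw [pth]
  have hsE : P.sE n e = n - lg C0 e := by
    unfold Par.sE
    rw [pC0]
  rw [hw] at hm1 hm2
  rw [hsE] at hTy
  unfold Par.TT at hTT
  rw [hw, hkE] at hTT
  obtain ⟨hT1, hT2⟩ := hTT
  have hnr : n ≤ r := by omega
  obtain ⟨k, hk⟩ : ∃ k, k = r - n := ⟨_, rfl⟩
  obtain ⟨d, hd⟩ : ∃ d, d = m - n := ⟨_, rfl⟩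
  rw [← hk] at hYs ⊢
  rw [← hd]
  have hkq : k ≤ lg th e + q1 * (4 * lg thp e) := by
    have h1 : P.q0 * (4 * lg thp e) ≤ q1 * (4 * lg thp e) := Nat.mul_le_mul_right _ pq
    omega
  have hd1 : lg thp e ≤ d := by omega
  have hd2 : d ≤ 4 * lg thp e := by omega
  obtain ⟨b1', b2', b3'⟩ := a1 d hd1
  obtain ⟨c1, c2, c3, c4⟩ := a6
  obtain ⟨d1, d2, d3, d4, d5⟩ := a3
  -- the range
  unfold RNG at hR
  rw [p1, p2] at hR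
  have hR' := rng_thr' hR py pX
  have hb : 0 < b := lt_of_lt_of_le hb1 hR'.hb1
  have hT0 := tn_pos' n
  have hmn : tn m = tn n / 4 ^ d := by
    rw [← tn_add]
    congr 1
    omega
  have h4d : (256 : ℝ) ≤ 4 ^ d := by
    calc (256 : ℝ) = 4 ^ 4 := by norm_num
      _ ≤ 4 ^ d := pow_le_pow_right₀ (by norm_num) (by omega)
  have hsT : s ≤ tn n / 2 := by
    have h1 : 64 * tn m ≤ tn n / 2 := by
      rw [hmn]
      have : tn n / 4 ^ d ≤ tn n / 256 := div_le_div_of_nonneg_left hT0.le (by norm_num) h4d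
      linarith
    linarith
  -- activity
  have hY0 : 0 ≤ Y := (H864.yt_nonneg (N := 2 ^ r) hb.le (by linarith)).trans hY
  obtain ⟨ω, hω⟩ : ∃ ω : ℝ, ω = 2 * ((2 ^ k) ^ 2 * Y) := ⟨_, rfl⟩
  rw [← hω]
  have hω1 : ω ≤ 1 / 2 := by rw [hω]; linarith
  have hOm : Om (wT b (2 ^ r)) ((2 * tn n) • (1 : Matrix (V (2 ^ r)) (V (2 ^ r)) ℝ)) ≤ ω := by
    rw [hω, hk]
    exact Om_yt hb hnr (by linarith) (by linarith) hY (by rw [← hk]; exact hYs)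
  have hΓ2 : (e ^ (-(th / 128))) ^ 2 = e ^ (-(th / 64)) := by
    rw [← Real.rpow_natCast, ← Real.rpow_mul he.le]
    congr 1
    push_cast
    ring
  have e4k : ((2 : ℝ) ^ k) ^ 2 = 4 ^ k := by
    rw [← pow_mul, mul_comm, pow_mul]
    norm_num
  have key := win_pow h pW hR' hb rfl hn hk hd (by omega) hmr b2' b3' b1' (a4 k hkq) hs1 hs2 hsT
    hTy d3 (by linarith) c2 hω1 hOm d4 (by rw [hΓ2]; exact d1 k hkq) (by rw [hΓ2]; exact d2)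
    (a2 d hd2) (Real.rpow_pos_of_pos he (1 / 16 : ℝ))
    (A := 2 * 4 ^ (k + lg C0 e) * 2 ^ d * e ^ (-(1 / 32) : ℝ)) (by
      have := Real.rpow_pos_of_pos he (-(1 / 32) : ℝ)
      positivity) (amp_num he hs1 hd (by omega)) (δ := 20 * e ^ (1 / 16 : ℝ))
      (by rw [e4k]; exact c3 k hkq) (by linarith)
  exact key.trans (con_num he hω1 (H43.nm_nonneg _) (by linarith) rfl (by omega) d5 c4
    (a5 k d hkq hd2))

end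

end Vale.Agent.P159.H415
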