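import Vale.Agent.P159.H415.CutT
import Vale.Agent.P159.H447.LawT
import Vale.Agent.P159.H859.Win2

/-!
P159, module CH2 (helper415), part 13: **window probabilities from the typical set alone**.
`Typ N l b T s Q η p` : a set of sources of exact probability `≥ 1 - p` (posterior mass `T`, prior
mass `s`, cells `l`, zero source) on which `Rs (Q • J) ≤ η`. Since the density `e^R` of the exact
law is `≥ 1`, the Gaussian law charges the complement by at most `e^η p / (1 - p)`; Fernique and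
Anderson then give every window law below the full one.
-/

set_option linter.unusedSectionVars false

namespace Vale.Agent.P159.H415

open MeasureTheory ProbabilityTheory Finset Matrix
open Vale.Agent.P159.H37 (gau qf qf_eq Rs Zs Gm Ech post Tq)
open Vale.Agent.P159.H963 (nwt nMC obsN Pn Neu Gnc)
open Vale.Agent.P159.TM.H104 (EM Ex Cv Gr li)
open Vale.Agent.P159.TM.Spec (V)
open Vale.Agent.P159.H730 (RL)
open Vale.Agent.P159.H447 (CN)
open Vale.Agent.P159.H859 (Sgn WN kap2 Lw dB)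

noncomputable section

variable {N l : ℕ} [NeZero N] [NeZero (N / l)] {b T s Q η p : ℝ} {I : Type*} [Fintype I]

/-- **the typical set of the exact law**: amplitude `Q`, bound `η`, probability `p` -/
def Typ (N l : ℕ) [NeZero N] [NeZero (N / l)] (b T s Q η p : ℝ) : Prop :=
  ∃ Gd : Set (V N → ℝ), MeasurableSet Gd ∧ (∀ J ∈ Gd, Rs (nwt N b T 0) (Q • J) ≤ η) ∧
    Ech (nMC N l b T s 0) 0 (obsN N l (T - s)) (Gdᶜ.indicator fun _ => 1) ≤ p

lemma Rs_scale (hb : 0 ≤ b) (hT : 0 < T) {Q Q' : ℝ} (h0 : 0 ≤ Q') (h : Q' ≤ Q) (J : V N → ℝ) :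
    Rs (nwt N b T 0) (Q' • J) ≤ Rs (nwt N b T 0) (Q • J) := by
  have hm := H447.maj_nwt (N := N) hb hT 0
  exact H789.Rs_ray_mono hm.em hm.ev hm.pk J h0 h

/-- convexity: amplitude against size -/
lemma Rs_shrink (hb : 0 ≤ b) (hT : 0 < T) {Q : ℝ} (hQ : 1 ≤ Q) (J : V N → ℝ) :
    Rs (nwt N b T 0) J ≤ Rs (nwt N b T 0) (Q • J) / Q := by
  have hm := H447.maj_nwt (N := N) hb hT 0
  have hc := H789.Rs_convex hm.em hm.ev hm.pk
  have hQ0 : 0 < Q := by linarith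
  have h1 : (0 : ℝ) ≤ 1 - Q⁻¹ := sub_nonneg.2 (inv_le_one_of_one_le₀ hQ)
  have h2 := hc.2 (Set.mem_univ (0 : V N → ℝ)) (Set.mem_univ (Q • J)) h1
    (inv_nonneg.2 hQ0.le) (by ring)
  rw [smul_zero, zero_add, smul_smul, inv_mul_cancel₀ hQ0.ne', one_smul, H789.Rs_zero] at h2
  simp only [smul_eq_mul, mul_zero, zero_add] at h2
  rw [div_eq_inv_mul]
  exact h2

lemma Ech_ind_nonneg {μ : (V N → ℤ) → ℝ} (hμ : EM μ) {r : ℝ} (Gd : Set (V N → ℝ)) :
    0 ≤ Ech μ 0 (obsN N l r) (Gdᶜ.indicator fun _ => (1 : ℝ)) :=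
  H37.Ech_nonneg hμ _ _ fun J => Set.indicator_nonneg (fun _ _ => zero_le_one) J

/-- **the Gaussian law charges the bad set by little** -/
theorem gauss_bad (hb : 0 ≤ b) (hl : l ∣ N) (hs : 0 < s) (hsT : s < T)
    {A : Matrix (V (N / l)) I ℝ} (hA : A * Aᵀ = Sgn N l b T s) {Gd : Set (V N → ℝ)}
    (hG : MeasurableSet Gd) (hR : ∀ J ∈ Gd, Rs (nwt N b T 0) J ≤ η) (hp1 : p < 1)
    (hp : Ech (nMC N l b T s 0) 0 (obsN N l (T - s)) (Gdᶜ.indicator fun _ => 1) ≤ p) :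
    (gau I).real {g | ((CN N l)ᵀ * A) *ᵥ g ∉ Gd} ≤ Real.exp η / (1 - p) * p := by
  have hT : 0 < T := hs.trans hsT
  have hX := H447.rl_tor hb hl hs hsT hA
  have hq := H447.post_wN (N := N) (l := l) (b := b) hl hsT.le
  have c1 : H663.ChI (H730.wN N l b T s) 0 (obsN N l (T - s)) fun _ => (1 : ℝ) := H730.chi_one hX
  have cG := H730.chi_ind' hX measurable_const c1 hG.compl
  have h1 := hX.G_le (measurable_const.indicator hG.compl)
    (fun J => Set.indicator_nonneg (fun _ _ => zero_le_one) J) cG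
  have h2 : 1 - p ≤ Ech (H730.wN N l b T s) 0 (obsN N l (T - s))
      (Gd.indicator fun _ => (1 : ℝ)) := by
    have h3 := H730.split_good hX measurable_const c1 hG
    rw [H37.Ech_const hX.em] at h3
    have h4 : Ech (H730.wN N l b T s) 0 (obsN N l (T - s))
      (Gdᶜ.indicator fun _ => (1 : ℝ)) ≤ p := hp
    linarith
  have h5 := hX.norm_le hG (by rw [hq]; exact hR) h2
  have mX : Measurable fun g : I → ℝ => ((CN N l)ᵀ * A) *ᵥ g := H552.meas_mulVec _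
  have hms : MeasurableSet {g : I → ℝ | ((CN N l)ᵀ * A) *ᵥ g ∉ Gd} := mX hG.compl
  have e1 : (gau I).real {g | ((CN N l)ᵀ * A) *ᵥ g ∉ Gd} =
      ∫ g, Gdᶜ.indicator (fun _ => (1 : ℝ)) (((CN N l)ᵀ * A) *ᵥ g) ∂(gau I) := by
    have e2 : (fun g : I → ℝ => Gdᶜ.indicator (fun _ => (1 : ℝ)) (((CN N l)ᵀ * A) *ᵥ g)) =
        {g : I → ℝ | ((CN N l)ᵀ * A) *ᵥ g ∉ Gd}.indicator fun _ => (1 : ℝ) := by
      funext g
      by_cases hg : ((CN N l)ᵀ * A) *ᵥ g ∈ Gd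
      · have n1 : ((CN N l)ᵀ * A) *ᵥ g ∉ Gdᶜ := fun h => h hg
        have n2 : g ∉ {g : I → ℝ | ((CN N l)ᵀ * A) *ᵥ g ∉ Gd} := fun h => h hg
        rw [Set.indicator_of_notMem n1, Set.indicator_of_notMem n2]
      · have n1 : ((CN N l)ᵀ * A) *ᵥ g ∈ Gdᶜ := hg
        have n2 : g ∈ {g : I → ℝ | ((CN N l)ᵀ * A) *ᵥ g ∉ Gd} := hg
        rw [Set.indicator_of_mem n1, Set.indicator_of_mem n2]
    rw [e2, integral_indicator hms, setIntegral_const, smul_eq_mul, mul_one]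
  rw [e1]
  have hp' : Ech (H730.wN N l b T s) 0 (obsN N l (T - s))
      (Gdᶜ.indicator fun _ => (1 : ℝ)) ≤ p := hp
  have hpos := hX.pos
  have hp0 : 0 ≤ p := (Ech_ind_nonneg hX.em Gd).trans hp'
  have h1p : 0 < 1 - p := by linarith
  have h6 : ∫ g, Real.exp (Rs (post (H730.wN N l b T s) (obsN N l (T - s)))
      (((CN N l)ᵀ * A) *ᵥ g)) ∂(gau I) ≤ Real.exp η / (1 - p) := by
    rw [le_div_iff₀ h1p, mul_comm]
    exact h5
  exact h1.trans (mul_le_mul h6 hp' (Ech_ind_nonneg hX.em Gd) (by positivity))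

/-- the Gaussian law of the whole field at amplitude `Q` -/
theorem gauss_typ (hb : 0 ≤ b) (hl : l ∣ N) (hs : 0 < s) (hsT : s < T) (hQ : 1 ≤ Q) (hη : η ≤ 1)
    (hp : p ≤ 1 / 100) (h : Typ N l b T s Q η p)
    {A : Matrix (V (N / l)) I ℝ} (hA : A * Aᵀ = Sgn N l b T s) :
    (gau I).real {g | 1 < Rs (nwt N b T 0) (Q • (((CN N l)ᵀ * A) *ᵥ g))} ≤ 1 / 30 := by
  obtain ⟨Gd, hG, hR, hE⟩ := h
  have hT : 0 < T := hs.trans hsT
  have hm := H447.maj_nwt (N := N) hb hT 0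
  have hR' : ∀ J ∈ Gd, Rs (nwt N b T 0) J ≤ 1 := by
    intro J hJ
    have h1 := Rs_scale (N := N) hb hT (Q := Q) (Q' := 1) zero_le_one hQ J
    rw [one_smul] at h1
    exact h1.trans ((hR J hJ).trans hη)
  have h0 := gauss_bad hb hl hs hsT hA hG hR' (by linarith : p < 1) hE
  have hp0 : 0 ≤ p := by
    have hE0 := (H447.rl_tor (N := N) (l := l) hb hl hs hsT hA).em
    exact (Ech_ind_nonneg hE0 Gd).trans hE
  refine (measureReal_mono ?_ (measure_ne_top _ _)).trans (h0.trans ?_)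
  · intro g hg hc
    have h1 := hR _ hc
    have h2 : 1 < Rs (nwt N b T 0) (Q • (((CN N l)ᵀ * A) *ᵥ g)) := hg
    linarith
  · have h1 : Real.exp 1 ≤ 2.7182818286 := Real.exp_one_lt_d9.le
    rw [div_mul_eq_mul_div, div_le_iff₀ (by linarith)]
    nlinarith [Real.exp_pos 1]

/-- the window covariance below the full one -/
lemma win_psd {w w₀ : Finset (V (N / l))} {c : V (N / l)} {ρ : ℕ} (h : WN N l b T s s w w₀ c ρ)
    {A : Matrix (V (N / l)) I ℝ} (hA : A * Aᵀ = Sgn N l b T s) {κ : ℝ}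
    (hκ : kap2 N l ρ b T s w.card w₀.card ≤ κ ^ 2 * (T - s)) :
    ((κ ^ 2) • (((CN N l)ᵀ * A) * ((CN N l)ᵀ * A)ᵀ) -
      ((CN N l)ᵀ * Lw w w₀ * A) * ((CN N l)ᵀ * Lw w w₀ * A)ᵀ).PosSemidef := by
  refine H859.psd_of ?_ fun v => ?_
  · rw [transpose_sub, transpose_smul, H859.gram_symm, H859.gram_symm]
  · have h1 : 0 ≤ qf ((kap2 N l ρ b T s w.card w₀.card) • ((CN N l)ᵀ * dB w * CN N l) -
        ((CN N l)ᵀ * Lw w w₀ * A) * ((CN N l)ᵀ * Lw w w₀ * A)ᵀ) v := by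
      have := (h.up hA).dotProduct_mulVec_nonneg v
      rw [qf_eq]
      simpa using this
    rw [H859.qf_sub_m, H864.qf_smul_mat] at h1 ⊢
    have h2 : qf ((CN N l)ᵀ * dB w * CN N l) v = ∑ x ∈ w, (CN N l *ᵥ v) x ^ 2 := by
      have e := H859.qf_conj' (dB w) (CN N l)ᵀ v
      rw [transpose_transpose] at e
      rw [e, H859.qf_dB]
    have h3 : qf (((CN N l)ᵀ * A) * ((CN N l)ᵀ * A)ᵀ) v = qf (Sgn N l b T s) (CN N l *ᵥ v) := by
      rw [H859.full_gram hA, H859.qf_conj', transpose_transpose]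
    have h4 : (T - s) * ∑ x, (CN N l *ᵥ v) x ^ 2 ≤ qf (Sgn N l b T s) (CN N l *ᵥ v) := by
      have h5 := h.dat.low' h.s0 h.st (CN N l *ᵥ v)
      rw [H859.qf_qd]
      have e : H859.sq (CN N l *ᵥ v) = ∑ x, (CN N l *ᵥ v) x ^ 2 := by
        unfold H859.sq dotProduct
        exact sum_congr rfl fun x _ => by ring
      rw [e] at h5
      exact h5
    have h6 : ∑ x ∈ w, (CN N l *ᵥ v) x ^ 2 ≤ ∑ x, (CN N l *ᵥ v) x ^ 2 :=
      sum_le_univ_sum_of_nonneg fun _ => sq_nonneg _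
    have h7 : 0 ≤ ∑ x ∈ w, (CN N l *ᵥ v) x ^ 2 := sum_nonneg fun _ _ => sq_nonneg _
    have hst := h.st
    rw [h2] at h1
    rw [h3]
    have h8 := mul_le_mul_of_nonneg_left h4 (sq_nonneg κ)
    have h9 : kap2 N l ρ b T s w.card w₀.card * ∑ x ∈ w, (CN N l *ᵥ v) x ^ 2 ≤
        κ ^ 2 * (T - s) * ∑ x, (CN N l *ᵥ v) x ^ 2 := by
      have h10 := mul_le_mul_of_nonneg_right hκ h7
      have h11 : 0 ≤ κ ^ 2 * (T - s) := mul_nonneg (sq_nonneg _) (by linarith)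
      have h12 := mul_le_mul_of_nonneg_left h6 h11
      linarith
    linarith

/-- **window probability** -/
theorem win_prob {w w₀ : Finset (V (N / l))} {c : V (N / l)} {ρ : ℕ}
    (h : WN N l b T s s w w₀ c ρ) {A : Matrix (V (N / l)) I ℝ} (hA : A * Aᵀ = Sgn N l b T s)
    (hfull : (gau I).real {g | 1 < Rs (nwt N b T 0) (Q • (((CN N l)ᵀ * A) *ᵥ g))} ≤ 1 / 30)
    {κ a Y : ℝ} (hκ0 : 0 ≤ κ) (hκ : kap2 N l ρ b T s w.card w₀.card ≤ κ ^ 2 * (T - s))
    (ha : 1 ≤ a) (hY : 0 ≤ Y) (hQ : a * (Y * κ) ≤ Q) :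
    (gau I).real {g | 1 < Rs (nwt N b T 0) (Y • (((CN N l)ᵀ * Lw w w₀ * A) *ᵥ g))} ≤
      2 * Real.exp (-(a ^ 2 / 7)) := by
  have hm := H447.maj_nwt (N := N) h.hb.le h.t0 0
  have ha0 : 0 < a := by linarith
  refine (hm.prob_psd Y κ (win_psd h hA hκ) 1).trans ?_
  have h1 := H586.fern_Rs hm.em hm.ev hm.pk (Q • ((CN N l)ᵀ * A)) (r := 1) (by
    simp only [smul_mulVec]
    exact hfull) ha
  refine mul_le_mul_of_nonneg_left (le_trans (measureReal_mono fun g hg => ?_) h1) (by norm_num)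
  simp only [Set.mem_ofPred_eq, smul_mulVec, smul_smul] at hg ⊢
  refine hg.trans_le (H789.Rs_ray_mono hm.em hm.ev hm.pk _ (by positivity) ?_)
  rw [inv_mul_eq_div, le_div_iff₀ ha0]
  linarith

end

end Vale.Agent.P159.H415
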