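import Vale.Agent.P159.H415.WinC
import Vale.Agent.P159.H415.StepD

/-!
P159, module CH2 (helper415), part 25: **windows of any length `w/20 ≤ m - n ≤ 4 w`**
(`ch2_win'`, `ch2_next'`), typical set with the bound `e ^ (1 / 20)`.
-/

set_option linter.unusedSectionVars false

namespace Vale.Agent.P159.H415

open Finset Matrix Filter Topology
open Vale.Agent.P159.H896 (Om)
open Vale.Agent.P159.H43 (ch2)
open Vale.Agent.P159.H864 (yt)
open Vale.Agent.P159.TM.Spec (V Rng)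
open Vale.Agent.P159.TM.SpecC (wT)
open Vale.Agent.P159.H972 (lg tn Par RNG)

noncomputable section

/-- (1), (2) for short windows -/
lemma sc1' {th thp C0 : ℝ} (h1 : 0 < th) (h2 : 1000 * th ≤ thp) (h3 : 0 < C0) :
    ∀ᶠ e in 𝓝[>] (0 : ℝ), (∀ d : ℕ, lg thp e ≤ 20 * d →
      2 * lg (th / 64) e + 4 ≤ d ∧ lg th e + 1 ≤ d ∧ 12 ≤ lg C0 e ∧ 3 ≤ lg (th / 64) e) ∧
      4 ≤ lg thp e := by
  filter_upwards [ev_half, ev_lgb (12 / C0), ev_lgb (192 / th)] with e he hu2 hu3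
  have he1 : e ≤ 1 := he.2.trans (by norm_num)
  have g1 := lg_le' (c := th / 64) (by positivity) he.1 he1
  have g2 := lg_ge' thp e
  have g3 := lg_ge' C0 e
  have g4 := lg_ge' (th / 64) e
  have g5 := lg_le' (c := th) h1.le he.1 he1
  set u := Real.logb 2 (1 / e)
  have k2 : 12 ≤ C0 * u := by
    rw [div_le_iff₀ h3] at hu2
    linarith
  have k3 : 192 ≤ th * u := by
    rw [div_le_iff₀ h1] at hu3
    linarith
  have hu0 : 0 < u := by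
    by_contra hc
    have := mul_nonpos_of_nonneg_of_nonpos h1.le (not_lt.1 hc)
    linarith
  have k4 : 1000 * th * u ≤ thp * u := mul_le_mul_of_nonneg_right h2 hu0.le
  refine ⟨fun d hd => ?_, ?_⟩
  · have hdR : (lg thp e : ℝ) ≤ 20 * d := by exact_mod_cast hd
    refine ⟨?_, ?_, ?_, ?_⟩
    · have : ((2 * lg (th / 64) e + 4 : ℕ) : ℝ) ≤ d := by
        push_cast
        linarith
      exact_mod_cast this
    · have : ((lg th e + 1 : ℕ) : ℝ) ≤ d := by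
        push_cast
        linarith
      exact_mod_cast this
    · have : ((12 : ℕ) : ℝ) ≤ (lg C0 e : ℝ) := by
        push_cast
        linarith
      exact_mod_cast this
    · have : ((3 : ℕ) : ℝ) ≤ (lg (th / 64) e : ℝ) := by
        push_cast
        linarith
      exact_mod_cast this
  · have : ((4 : ℕ) : ℝ) ≤ (lg thp e : ℝ) := by
      push_cast
      linarith
    exact_mod_cast this

/-- (8), (9): the bad set, bound `e ^ (1 / 20)` -/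
lemma sc6' {th thp : ℝ} (q0 : ℕ) (h1 : 0 < th) (h4 : 0 ≤ thp) :
    ∀ᶠ e in 𝓝[>] (0 : ℝ), e ^ (1 / 20 : ℝ) ≤ 1 / 1000 ∧
      Real.exp (-(e ^ (-(th / 16)))) ≤ 1 / 100 ∧
      (∀ k : ℕ, k ≤ lg th e + q0 * (4 * lg thp e) →
      Real.exp (-(e ^ (-(th / 16)))) + Real.exp (e ^ (1 / 20 : ℝ)) *
        (Real.exp (e ^ (1 / 20 : ℝ)) / (1 - Real.exp (-(e ^ (-(th / 16))))) *
          Real.exp (-(e ^ (-(th / 16)))) +
        4 ^ k * (2 * Real.exp (-((e ^ (-(th / 128))) ^ 2 / 7))) + e ^ (1 / 16 : ℝ)) ≤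
          20 * e ^ (1 / 20 : ℝ)) ∧
      (Real.exp (e ^ (1 / 20 : ℝ)) / (1 - 20 * e ^ (1 / 20 : ℝ)) - 1) + 2 * (20 * e ^ (1 / 20 : ℝ))
        ≤ e ^ (1 / 21 : ℝ) := by
  filter_upwards [ev_half, ev_pow (A := 1 / 1000) (c := 1 / 20) (by norm_num) (by norm_num),
    ev_log 0 (1 / 20 * Real.log 2) (c := th / 16) (by positivity),
    ev_const (Real.log 100) (c := th / 16) (by positivity),
    ev_log (7 * (Real.log 2 + 2 * (1 + 4 * q0) * Real.log 2))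
      (7 * ((1 / 20 + 2 * (th + 4 * q0 * thp)) * Real.log 2)) (c := th / 64) (by positivity),
    ev_pow (A := 1 / 200) (c := 1 / 20 - 1 / 21) (by norm_num) (by norm_num)]
    with e he hη hp hp1 ha h17
  have he1 : e ≤ 1 := he.2.trans (by norm_num)
  have g1 := lg_le' (c := th) h1.le he.1 he1
  have g2 := lg_le' (c := thp) h4 he.1 he1
  have hν : e ^ (1 / 16 : ℝ) ≤ e ^ (1 / 20 : ℝ) :=
    Real.rpow_le_rpow_of_exponent_ge he.1 he1 (by norm_num)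
  have hν0 : 0 < e ^ (1 / 16 : ℝ) := Real.rpow_pos_of_pos he.1 _
  obtain ⟨ν, hνe⟩ : ∃ ν : ℝ, ν = e ^ (1 / 16 : ℝ) := ⟨_, rfl⟩
  obtain ⟨η, hηe⟩ : ∃ η : ℝ, η = e ^ (1 / 20 : ℝ) := ⟨_, rfl⟩
  obtain ⟨p, hpe⟩ : ∃ p : ℝ, p = Real.exp (-(e ^ (-(th / 16)))) := ⟨_, rfl⟩
  rw [← hηe] at hη
  rw [← hηe, ← hνe] at hν
  rw [← hνe] at hν0
  have hη0 : 0 < η := by rw [hηe]; exact Real.rpow_pos_of_pos he.1 _
  have hηx : η = Real.exp (-(1 / 20 * Real.log 2 * Real.logb 2 (1 / e))) := by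
    have hlb : Real.logb 2 (1 / e) = -Real.log e / Real.log 2 := by
      rw [Real.logb, one_div, Real.log_inv]
    rw [hηe, Real.rpow_def_of_pos he.1, hlb]
    congr 1
    have : Real.log 2 ≠ 0 := (Real.log_pos one_lt_two).ne'
    field_simp
  have hpη : p ≤ η := by
    rw [hpe, hηx]
    refine Real.exp_le_exp.2 ?_
    linarith
  have hp100 : p ≤ 1 / 100 := by
    rw [hpe, Real.exp_neg]
    rw [inv_le_comm₀ (Real.exp_pos _) (by norm_num)]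
    calc (1 / 100 : ℝ)⁻¹ = Real.exp (Real.log 100) := by
          rw [Real.exp_log (by norm_num)]; norm_num
      _ ≤ _ := Real.exp_le_exp.2 hp1
  have hp0 : 0 < p := by rw [hpe]; exact Real.exp_pos _
  have hex : Real.exp η ≤ 1 + 2 * η := by
    have h5 := Real.abs_exp_sub_one_le (x := η) (by rw [abs_of_pos hη0]; linarith)
    rw [abs_of_pos hη0] at h5
    have := (abs_le.1 h5).2
    linarith
  rw [← hηe, ← hpe, ← hνe]
  refine ⟨hη, hp100, fun k hk => ?_, ?_⟩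
  · have hkR : (k : ℝ) ≤ lg th e + q0 * (4 * lg thp e) := by exact_mod_cast hk
    obtain ⟨u, hu⟩ : ∃ u : ℝ, u = Real.logb 2 (1 / e) := ⟨_, rfl⟩
    rw [← hu] at g1 g2 ha hηx
    have g0 : 0 ≤ u := by
      rw [hu]
      exact Real.logb_nonneg one_lt_two ((le_div_iff₀ he.1).2 (by linarith))
    have hq' : (q0 : ℝ) * (4 * lg thp e) ≤ q0 * (4 * (thp * u + 1)) := by gcongr
    have h5 : (k : ℝ) ≤ (1 + 4 * (q0 : ℝ)) + (th + 4 * q0 * thp) * u := by nlinarith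
    have hl2 : 0 < Real.log 2 := Real.log_pos one_lt_two
    have ea : (e ^ (-(th / 128))) ^ 2 = e ^ (-(th / 64)) := by
      rw [← Real.rpow_natCast, ← Real.rpow_mul he.1.le]
      congr 1
      push_cast
      ring
    have h6 : (4 : ℝ) ^ k * (2 * Real.exp (-((e ^ (-(th / 128))) ^ 2 / 7))) ≤ η := by
      have e4 : (4 : ℝ) ^ k = Real.exp (2 * k * Real.log 2) := by
        rw [show (4 : ℝ) = 2 ^ 2 by norm_num, ← pow_mul, ← Real.rpow_natCast,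
          Real.rpow_def_of_pos (by norm_num)]
        congr 1
        push_cast
        ring
      have e5 : (2 : ℝ) = Real.exp (Real.log 2) := (Real.exp_log (by norm_num)).symm
      rw [e4, ea]
      nth_rewrite 3 [e5]
      rw [← Real.exp_add, ← Real.exp_add, hηx]
      refine Real.exp_le_exp.2 ?_
      have h7 : 2 * k * Real.log 2 ≤
          2 * ((1 + 4 * (q0 : ℝ)) + (th + 4 * q0 * thp) * u) * Real.log 2 := by gcongr
      linarith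
    have h7 : Real.exp η ≤ 2 := by linarith
    have h8 : 0 < Real.exp η := Real.exp_pos η
    have h9 : Real.exp η / (1 - p) * p ≤ 3 * η := by
      have h10 : Real.exp η / (1 - p) ≤ 3 := by
        rw [div_le_iff₀ (by linarith)]
        linarith
      exact mul_le_mul h10 hpη hp0.le (by norm_num)
    have h10 : Real.exp η / (1 - p) * p + 4 ^ k * (2 * Real.exp (-((e ^ (-(th / 128))) ^ 2 / 7))) +
        ν ≤ 5 * η := by linarith
    have h11 : 0 ≤ Real.exp η / (1 - p) * p + 4 ^ k * (2 * Real.exp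
        (-((e ^ (-(th / 128))) ^ 2 / 7))) + ν := by
      have : 0 < 1 - p := by linarith
      positivity
    have h12 := mul_le_mul h7 h10 h11 (by norm_num)
    linarith
  · have h5 : Real.exp η / (1 - 20 * η) ≤ 1 + 60 * η := by
      rw [div_le_iff₀ (by linarith)]
      nlinarith
    have h6 : 200 * η ≤ e ^ (1 / 21 : ℝ) := by
      have e1 : η = e ^ (1 / 20 - 1 / 21 : ℝ) * e ^ (1 / 21 : ℝ) := by
        rw [hηe, ← Real.rpow_add he.1]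
        norm_num
      have h7 : 0 < e ^ (1 / 21 : ℝ) := Real.rpow_pos_of_pos he.1 _
      rw [e1]
      nlinarith
    linarith

/-- the contraction, short windows -/
lemma sc7' {th thp : ℝ} (h1 : 0 < th) (h2 : 1000 * th ≤ thp) (h3 : 20 * thp ≤ 1 / 34) :
    ∀ᶠ e in 𝓝[>] (0 : ℝ), ∀ d k' : ℕ, lg thp e ≤ 20 * d → d ≤ 4 * lg thp e → k' ≤ lg th e + 1 →
      (2 : ℝ) ^ (4 * d + 2 * k') * (e ^ (-(th / 4)) * (2 : ℝ) ^ (-(9 / 2 * (d : ℝ))) +
        e ^ (1 / 21 : ℝ)) ≤ 1 / 2 * (2 : ℝ) ^ (-(2 / 5 * (d : ℝ))) ∧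
      e ^ (-(th / 4)) * (2 : ℝ) ^ (-(9 / 2 * (d : ℝ))) + e ^ (1 / 21 : ℝ) ≤ 1 ∧
      16 * (2 : ℝ) ^ (6 * d + 4 * k') ≤ e ^ (-(26 * thp)) := by
  have hp0 : 0 < thp := by linarith
  filter_upwards [ev_half, ev_lgb (192 / th), ev_lgb 2000, ev_lgb (36 / thp)]
    with e he g1 g2 g3 d k' hd1 hd2 hk
  have he1 : e ≤ 1 := he.2.trans (by norm_num)
  have l1 := lg_ge' thp e
  have l2 := lg_le' (c := thp) hp0.le he.1 he1
  have l3 := lg_le' (c := th) h1.le he.1 he1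
  obtain ⟨u, hu⟩ : ∃ u : ℝ, u = Real.logb 2 (1 / e) := ⟨_, rfl⟩
  rw [← hu] at l1 l2 l3 g1 g2 g3
  have u0 : 0 ≤ u := by linarith
  have k3 : 192 ≤ th * u := by
    rw [div_le_iff₀ h1] at g1
    linarith
  have k5 : 36 ≤ thp * u := by
    rw [div_le_iff₀ hp0] at g3
    linarith
  have k4 : 1000 * (th * u) ≤ thp * u := by
    have := mul_le_mul_of_nonneg_right h2 u0
    linarith
  have k6 : 20 * (thp * u) ≤ 1 / 34 * u := by
    have := mul_le_mul_of_nonneg_right h3 u0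
    linarith
  have pw : ∀ c : ℝ, e ^ (-c) = (2 : ℝ) ^ (c * u) := fun c => by rw [hu, two_rpow_logb he.1]
  have pw' : ∀ c : ℝ, e ^ c = (2 : ℝ) ^ (-(c * u)) := fun c => by
    rw [← neg_neg c, pw (-c)]
    congr 1
    ring
  have hdR1 : (lg thp e : ℝ) ≤ 20 * d := by exact_mod_cast hd1
  have hdR2 : (d : ℝ) ≤ 4 * lg thp e := by exact_mod_cast hd2
  have hkR : (k' : ℝ) ≤ lg th e + 1 := by exact_mod_cast hk
  have e1 : ∀ j : ℕ, (2 : ℝ) ^ j = (2 : ℝ) ^ (j : ℝ) := fun j => (Real.rpow_natCast _ _).symm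
  have e4 : (1 / 4 : ℝ) = (2 : ℝ) ^ (-2 : ℝ) := by
    rw [Real.rpow_neg (by norm_num)]
    norm_num
  refine ⟨?_, ?_, ?_⟩
  · rw [mul_add]
    have a1 : (2 : ℝ) ^ (4 * d + 2 * k') * (e ^ (-(th / 4)) * (2 : ℝ) ^ (-(9 / 2 * (d : ℝ)))) ≤
        1 / 4 * (2 : ℝ) ^ (-(2 / 5 * (d : ℝ))) := by
      rw [e1, pw, e4, ← Real.rpow_add (by norm_num), ← Real.rpow_add (by norm_num),
        ← Real.rpow_add (by norm_num)]
      refine Real.rpow_le_rpow_of_exponent_le (by norm_num) ?_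
      push_cast
      linarith
    have b1 : (2 : ℝ) ^ (4 * d + 2 * k') * e ^ (1 / 21 : ℝ) ≤
        1 / 4 * (2 : ℝ) ^ (-(2 / 5 * (d : ℝ))) := by
      rw [e1, pw', e4, ← Real.rpow_add (by norm_num), ← Real.rpow_add (by norm_num)]
      refine Real.rpow_le_rpow_of_exponent_le (by norm_num) ?_
      push_cast
      linarith
    linarith
  · have hhalf : (1 / 2 : ℝ) = (2 : ℝ) ^ (-1 : ℝ) := by
      rw [Real.rpow_neg (by norm_num)]
      norm_num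
    have a1 : e ^ (-(th / 4)) * (2 : ℝ) ^ (-(9 / 2 * (d : ℝ))) ≤ 1 / 2 := by
      rw [pw, hhalf, ← Real.rpow_add (by norm_num)]
      refine Real.rpow_le_rpow_of_exponent_le (by norm_num) ?_
      linarith
    have a2 : e ^ (1 / 21 : ℝ) ≤ 1 / 2 := by
      rw [pw', hhalf]
      refine Real.rpow_le_rpow_of_exponent_le (by norm_num) ?_
      linarith
    linarith
  · rw [e1, pw, show (16 : ℝ) = (2 : ℝ) ^ (4 : ℝ) by norm_num, ← Real.rpow_add (by norm_num)]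
    refine Real.rpow_le_rpow_of_exponent_le (by norm_num) ?_
    push_cast
    linarith

/-- numbers: the conclusion, general exponents -/
lemma con_num' {th e ω B L c C F η δ q : ℝ} {k d g w : ℕ} (he : 0 < e) (hω1 : ω ≤ 1 / 2)
    (hB0 : 0 ≤ B) (hC : 0 ≤ C) (hL : L = 2 ^ (d - 2 * w)) (hdw : 2 * w ≤ d)
    (d5 : (2 : ℝ) ^ (9 * w) ≤ e ^ (-(th / 4))) (hq : 0 ≤ q)
    (c4 : (Real.exp η / (1 - δ) - 1) + 2 * δ ≤ q)
    (b6 : (4 : ℝ) ^ k / (4 * Real.pi) * (Real.exp (9 / 2) * (2 * 4 ^ (k + g) * 2 ^ d *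
        e ^ (-(1 / 32) : ℝ)) * (C * Real.exp (-(c * (2 ^ w - 2))))) ≤ F) :
    2 * ω ^ 2 + (2 ^ k) ^ 2 / (4 * Real.pi) *
        (5 / 2 * (B + 2 * ω ^ 2) * (L ^ (-(9 / 2) : ℝ) + (Real.exp η / (1 - δ) - 1) + 2 * δ) +
          Real.exp ((1 + 16 * ω) / 2) * (2 * 4 ^ (k + g) * 2 ^ d * e ^ (-(1 / 32) : ℝ)) *
            (C * Real.exp (-(c * (2 ^ w - 2))))) ≤
      (2 ^ k) ^ 2 * ((e ^ (-(th / 4)) * (2 : ℝ) ^ (-(9 / 2 * (d : ℝ))) + q) *
        (B + 2 * ω ^ 2)) + (2 * ω ^ 2 + F) := by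
  have e2 : ((2 : ℝ) ^ k) ^ 2 = 4 ^ k := by
    rw [← pow_mul, mul_comm, pow_mul]
    norm_num
  rw [e2]
  have hLp : L ^ (-(9 / 2) : ℝ) ≤ e ^ (-(th / 4)) * (2 : ℝ) ^ (-(9 / 2 * (d : ℝ))) := by
    have hd' : ((d - 2 * w : ℕ) : ℝ) = d - 2 * w := by
      rw [Nat.cast_sub hdw]
      push_cast
      ring
    rw [hL, ← Real.rpow_natCast, ← Real.rpow_mul (by norm_num), hd']
    have e3 : ((d : ℝ) - 2 * w) * (-(9 / 2)) = ((9 * w : ℕ) : ℝ) + -(9 / 2 * (d : ℝ)) := by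
      push_cast
      ring
    rw [e3, Real.rpow_add (by norm_num), Real.rpow_natCast]
    exact mul_le_mul_of_nonneg_right d5 (by positivity)
  have h4k : (0 : ℝ) < 4 ^ k := by positivity
  have hpi := Real.pi_gt_three
  have hD : 0 ≤ B + 2 * ω ^ 2 := by positivity
  have h2 := Real.rpow_pos_of_pos he (-(1 / 32) : ℝ)
  have hfar : (4 : ℝ) ^ k / (4 * Real.pi) * (Real.exp ((1 + 16 * ω) / 2) *
      (2 * 4 ^ (k + g) * 2 ^ d * e ^ (-(1 / 32) : ℝ)) *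
      (C * Real.exp (-(c * (2 ^ w - 2))))) ≤ F := by
    refine le_trans ?_ b6
    have h1 : Real.exp ((1 + 16 * ω) / 2) ≤ Real.exp (9 / 2) := Real.exp_le_exp.2 (by linarith)
    have h3 : 0 ≤ 2 * 4 ^ (k + g) * 2 ^ d * e ^ (-(1 / 32) : ℝ) := by positivity
    refine mul_le_mul_of_nonneg_left ?_ (by positivity)
    refine mul_le_mul_of_nonneg_right ?_ (by positivity)
    exact mul_le_mul_of_nonneg_right h1 h3
  obtain ⟨G, hG⟩ : ∃ G : ℝ, G = L ^ (-(9 / 2) : ℝ) + (Real.exp η / (1 - δ) - 1) + 2 * δ :=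
    ⟨_, rfl⟩
  obtain ⟨G', hG'⟩ : ∃ G' : ℝ, G' = e ^ (-(th / 4)) * (2 : ℝ) ^ (-(9 / 2 * (d : ℝ))) + q :=
    ⟨_, rfl⟩
  have hGG : G ≤ G' := by rw [hG, hG']; linarith
  have hG'0 : 0 ≤ G' := by
    rw [hG']
    have := Real.rpow_pos_of_pos he (-(th / 4))
    positivity
  rw [← hG, ← hG']
  have h5 : (4 : ℝ) ^ k / (4 * Real.pi) * (5 / 2 * (B + 2 * ω ^ 2) * G) ≤
      4 ^ k * (G' * (B + 2 * ω ^ 2)) := by
    have h6 : 5 / 2 * (B + 2 * ω ^ 2) * G ≤ 5 / 2 * (B + 2 * ω ^ 2) * G' :=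
      mul_le_mul_of_nonneg_left hGG (by positivity)
    calc (4 : ℝ) ^ k / (4 * Real.pi) * (5 / 2 * (B + 2 * ω ^ 2) * G) ≤
          4 ^ k / (4 * Real.pi) * (5 / 2 * (B + 2 * ω ^ 2) * G') :=
            mul_le_mul_of_nonneg_left h6 (by positivity)
      _ = (4 ^ k * (G' * (B + 2 * ω ^ 2))) * (5 / 2 / (4 * Real.pi)) := by ring
      _ ≤ (4 ^ k * (G' * (B + 2 * ω ^ 2))) * 1 := by
          refine mul_le_mul_of_nonneg_left ?_ (by positivity)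
          rw [div_le_one (by positivity)]
          linarith
      _ = _ := mul_one _
  rw [mul_add]
  linarith

/-- **one window of CH2**, any length `w/20 ≤ m - n ≤ 4 w` -/
theorem ch2_win' {b1 : ℝ} (hb1 : 0 < b1) (b2 : ℝ) :
    ∃ W₀ ys : ℝ, ∃ X : ℕ, 0 < ys ∧ ∀ (th thp C0 : ℝ) (q1 : ℕ), 0 < th → 1000 * th ≤ thp →
      thp ≤ 1 / 64 → 0 < C0 → th + 4 * q1 * thp ≤ 1 / 8 → ∃ E0 : ℝ, 0 < E0 ∧
    ∀ P : Par, P.b1 = b1 → P.b2 = b2 → W₀ ≤ P.W → P.ys ≤ ys → X ≤ P.X0 → P.th = th →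
      P.thp = thp → P.C0 = C0 → P.q0 ≤ q1 →
    ∀ (b : ℝ) (n m r : ℕ) (e s Y : ℝ), 0 < e → e ≤ E0 → RNG P b n r e → P.TT n e r →
      lg C0 e ≤ n → m ≤ r → 20 * n + P.w e ≤ 20 * m → m ≤ n + 4 * P.w e → tn m ≤ s →
      s ≤ 64 * tn m →
      (∀ _ : NeZero (2 ^ r / 2 ^ P.sE n e), H239.TypE (2 ^ r) (2 ^ P.sE n e) b (tn n) s
        (e ^ (-(th / 16))) (e ^ (1 / 20 : ℝ)) (Real.exp (-(e ^ (-(th / 16)))))) →
      yt (2 ^ r) b (4 * tn n) ≤ Y → 4 * ((2 ^ (r - n)) ^ 2 * Y) ≤ 1 →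
    ch2 (wT b (2 ^ r)) (s • (1 : Matrix (V (2 ^ r)) (V (2 ^ r)) ℝ)) 0 ≤
      (2 ^ (r - n)) ^ 2 * ((e ^ (-(th / 4)) * (2 : ℝ) ^ (-(9 / 2 * ((m - n : ℕ) : ℝ))) +
        e ^ (1 / 21 : ℝ)) * (ch2 (wT b (2 ^ r)) ((2 * tn n) • (1 : Matrix (V (2 ^ r)) (V (2 ^ r))
          ℝ)) 0 + 2 * (2 * ((2 ^ (r - n)) ^ 2 * Y)) ^ 2)) +
      (2 * (2 * ((2 ^ (r - n)) ^ 2 * Y)) ^ 2 + Real.exp (-(e ^ (-(th / 128))))) := by
  obtain ⟨W₀, c, C, ys, X, hc, hC, hys, hX, h⟩ := win_rng hb1 b2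
  refine ⟨W₀, ys, X, hys, ?_⟩
  intro th thp C0 q1 hth hthp hthp1 hC0 hq
  have hthp0 : 0 < thp := by linarith
  obtain ⟨E0, hE0, hE02, hE⟩ := le_of_ev (((sc1' hth hthp hC0).and (sc2 hth hthp0 hthp1)).and
    (((sc3 (b2 := b2) thp q1 hth hC0 hthp0.le).and (sc4 q1 hth hthp0.le hc hq)).and
      ((sc5 q1 hth hthp0.le hC0 hc hC).and (sc6' q1 hth hthp0.le))))
  refine ⟨E0, hE0, ?_⟩
  intro P p1 p2 pW py pX pth pthp pC0 pq b n m r e s Y he heE hR hTT hn hmr hm1 hm2 hs1 hs2 hTy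
    hY hYs
  obtain ⟨⟨a1, a2⟩, ⟨a3, a4⟩, a5, a6⟩ := hE e he heE
  -- letters
  have hw : P.w e = lg thp e := by
    unfold Par.w
    rw [pthp]
  have hkE : P.kE e = lg th e := by
    unfold Par.kE
    rw [pth]
  have hsE : P.sE n e = n - lg C0 e := by
    unfold Par.sE
    rw [pC0]
  rw [hw] at hm1 hm2
  rw [hsE] at hTy
  unfold Par.TT at hTT
  rw [hw, hkE] at hTT
  obtain ⟨hT1, hT2⟩ := hTT
  have hnr : n ≤ r := by omega
  obtain ⟨k, hk⟩ : ∃ k, k = r - n := ⟨_, rfl⟩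
  obtain ⟨d, hd⟩ : ∃ d, d = m - n := ⟨_, rfl⟩
  rw [← hk] at hYs ⊢
  rw [← hd]
  have hkq : k ≤ lg th e + q1 * (4 * lg thp e) := by
    have h1 : P.q0 * (4 * lg thp e) ≤ q1 * (4 * lg thp e) := Nat.mul_le_mul_right _ pq
    omega
  have hd1 : lg thp e ≤ 20 * d := by omega
  have hd2 : d ≤ 4 * lg thp e := by omega
  obtain ⟨a1, a1'⟩ := a1
  obtain ⟨b1', b0', b2', b3'⟩ := a1 d hd1
  obtain ⟨c1, c2, c3, c4⟩ := a6
  obtain ⟨d1, d2, d3, d4, d5⟩ := a3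
  have hnm : n ≤ m := by omega
  -- the range
  unfold RNG at hR
  rw [p1, p2] at hR
  have hR' := rng_thr' hR py pX
  have hb : 0 < b := lt_of_lt_of_le hb1 hR'.hb1
  have hT0 := tn_pos' n
  have hmn : tn m = tn n / 4 ^ d := by
    rw [← tn_add]
    congr 1
    omega
  have h4d : (256 : ℝ) ≤ 4 ^ d := by
    calc (256 : ℝ) = 4 ^ 4 := by norm_num
      _ ≤ 4 ^ d := pow_le_pow_right₀ (by norm_num) (by omega)
  have hsT : s ≤ tn n / 2 := by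
    have h1 : 64 * tn m ≤ tn n / 2 := by
      rw [hmn]
      have : tn n / 4 ^ d ≤ tn n / 256 := div_le_div_of_nonneg_left hT0.le (by norm_num) h4d
      linarith
    linarith
  -- activity
  have hY0 : 0 ≤ Y := (H864.yt_nonneg (N := 2 ^ r) hb.le (by linarith)).trans hY
  obtain ⟨ω, hω⟩ : ∃ ω : ℝ, ω = 2 * ((2 ^ k) ^ 2 * Y) := ⟨_, rfl⟩
  rw [← hω]
  have hω1 : ω ≤ 1 / 2 := by rw [hω]; linarith
  have hOm : Om (wT b (2 ^ r)) ((2 * tn n) • (1 : Matrix (V (2 ^ r)) (V (2 ^ r)) ℝ)) ≤ ω := by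
    rw [hω, hk]
    exact Om_yt hb hnr (by linarith) (by linarith) hY (by rw [← hk]; exact hYs)
  have hΓ2 : (e ^ (-(th / 128))) ^ 2 = e ^ (-(th / 64)) := by
    rw [← Real.rpow_natCast, ← Real.rpow_mul he.le]
    congr 1
    push_cast
    ring
  have e4k : ((2 : ℝ) ^ k) ^ 2 = 4 ^ k := by
    rw [← pow_mul, mul_comm, pow_mul]
    norm_num
  have key := win_pow h pW hR' hb rfl hn hk hd hnm hmr b2' b3' b1' (a4 k hkq) hs1 hs2 hsT
    hTy d3 (by linarith) c2 hω1 hOm d4 (by rw [hΓ2]; exact d1 k hkq) (by rw [hΓ2]; exact d2)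
    (a2 d hd2) (Real.rpow_pos_of_pos he (1 / 16 : ℝ))
    (A := 2 * 4 ^ (k + lg C0 e) * 2 ^ d * e ^ (-(1 / 32) : ℝ)) (by
      have := Real.rpow_pos_of_pos he (-(1 / 32) : ℝ)
      positivity) (amp_num he hs1 hd hnm) (δ := 20 * e ^ (1 / 20 : ℝ))
      (by rw [e4k]; exact c3 k hkq) (by linarith)
  exact key.trans (con_num' he hω1 (H43.nm_nonneg _) (by linarith) rfl (by omega) d5
    (Real.rpow_pos_of_pos he _).le c4 (a5 k d hkq hd2))

/-- **the step of CH2**, windows of any length `w/20 ≤ m - n ≤ 4 w` -/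
theorem ch2_next' {b1 : ℝ} (hb1 : 0 < b1) (b2 : ℝ) :
    ∃ W₀ : ℝ, ∀ W : ℝ, W₀ ≤ W → ∃ ys : ℝ, ∃ X : ℕ, 0 < ys ∧
    ∀ (th thp C0 : ℝ) (q1 : ℕ), 0 < th → 1000 * th ≤ thp → 20 * thp ≤ 1 / 34 → 0 < C0 →
      th + 4 * q1 * thp ≤ 1 / 16 → ∃ E0 : ℝ, 0 < E0 ∧
    ∀ P : Par, P.b1 = b1 → P.b2 = b2 → P.W = W → P.ys ≤ ys → X ≤ P.X0 → P.th = th →
      P.thp = thp → P.C0 = C0 → P.q0 ≤ q1 → 2 ≤ P.q0 →
    ∀ (b : ℝ) (n m : ℕ) (e e' Z Y Y' : ℝ), 0 < e → e ≤ E0 → e / 2 ≤ e' → e' ≤ E0 →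
      20 * n + P.w e ≤ 20 * m → m ≤ n + 4 * P.w e → lg C0 e ≤ n →
      RNG P b n (m + P.kE e') e → (∀ r, P.TT m e' r → RNG P b (m - 1) r e') →
      (∀ _ : NeZero (2 ^ (m + P.kE e') / 2 ^ P.sE n e), H239.TypE (2 ^ (m + P.kE e'))
        (2 ^ P.sE n e) b (tn n) (4 * tn m) (e ^ (-(th / 16))) (e ^ (1 / 20 : ℝ))
        (Real.exp (-(e ^ (-(th / 16)))))) →
      CH2 P b n e Z → yt (2 ^ (m + P.kE e')) b (4 * tn n) ≤ Y →
      4 * ((2 ^ (m + P.kE e' - n)) ^ 2 * Y) ≤ 1 →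
      (∀ r, P.TT m e' r → yt (2 ^ r) b (4 * tn m) ≤ Y' ∧ 4 * ((2 ^ (r - m)) ^ 2 * Y') ≤ 1) →
    CH2 P b m e' (1 / 2 * (2 : ℝ) ^ (-(2 / 5 * ((m - n : ℕ) : ℝ))) * Z +
      e ^ (-(26 * thp)) * Y ^ 2 + e' ^ (-(3 * (th + 4 * q1 * thp))) * Y' ^ 2 +
      Real.exp (-(e ^ (-(th / 128)))) + Real.exp (-(e' ^ (-(th / 4))))) := by
  obtain ⟨Wa, ysa, Xa, hysa, ha⟩ := ch2_win' hb1 b2
  obtain ⟨Wt, ht⟩ := ch2_trs hb1 b2
  refine ⟨max Wa Wt, fun W hW => ?_⟩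
  obtain ⟨ct, Ct, yst, Xt, hct, hCt, hyst, ht⟩ := ht W ((le_max_right _ _).trans hW)
  refine ⟨min ysa yst, max Xa Xt, lt_min hysa hyst, ?_⟩
  intro th thp C0 q1 hth hthp hthp2 hC0 hq
  have hthp0 : 0 < thp := by linarith
  obtain ⟨Ea, hEa, ha⟩ := ha th thp C0 q1 hth hthp (by linarith) hC0 (by linarith)
  obtain ⟨Eb, hEb, hEb2, hb⟩ := le_of_ev ((sc7' hth hthp hthp2).and
    ((sc8 q1 hth hthp0.le hct hCt hq).and (sc1' hth hthp hC0)))
  refine ⟨min Ea Eb, lt_min hEa hEb, ?_⟩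
  intro P p1 p2 pW py pX pth pthp pC0 pq pq2 b n m e e' Z Y Y' he heE hee' he'E hm1 hm2 hn hR hR'
    hTy hZ hY hYs hY'
  have he' : 0 < e' := by linarith
  obtain ⟨s7, s8, s1, s1'⟩ := hb e he (heE.trans (min_le_right _ _))
  obtain ⟨-, s8', -⟩ := hb e' he' (he'E.trans (min_le_right _ _))
  have he1 : e ≤ 1 / 2 := (heE.trans (min_le_right _ _)).trans hEb2
  have hw : P.w e = lg thp e := by
    unfold Par.w
    rw [pthp]
  have hw' : P.w e' = lg thp e' := by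
    unfold Par.w
    rw [pthp]
  have hkE : P.kE e = lg th e := by
    unfold Par.kE
    rw [pth]
  have hkE' : P.kE e' = lg th e' := by
    unfold Par.kE
    rw [pth]
  have hk1 : lg th e' ≤ lg th e + 1 := lg_near hth.le (by linarith) he hee'
  -- the base torus
  obtain ⟨r0, hr0⟩ : ∃ r0, r0 = m + P.kE e' := ⟨_, rfl⟩
  rw [← hr0] at hR hTy hY hYs
  obtain ⟨d, hd⟩ : ∃ d, d = m - n := ⟨_, rfl⟩
  obtain ⟨k', hk'⟩ : ∃ k', k' = P.kE e' := ⟨_, rfl⟩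
  have hnm : n ≤ m := by omega
  have hd1 : lg thp e ≤ 20 * d := by rw [hw] at hm1; omega
  have hd2 : d ≤ 4 * lg thp e := by rw [hw] at hm2; omega
  have hdk := (s1 d hd1).2.1
  have hTT : P.TT n e r0 := by
    unfold Par.TT
    rw [hw] at hm1 hm2 ⊢
    rw [hkE, hr0, hkE']
    refine ⟨by omega, ?_⟩
    have h1 : 2 * (4 * lg thp e) ≤ P.q0 * (4 * lg thp e) := Nat.mul_le_mul_right _ pq2
    omega
  have hr0n : r0 - n = d + k' := by omega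
  have hr0m : r0 - m = k' := by omega
  obtain ⟨g1, g2, g3⟩ := s7 d k' hd1 hd2 (by rw [hk', hkE']; exact hk1)
  have htm := tn_pos' m
  have hbb : 0 < b := by
    unfold RNG at hR
    rw [p1] at hR
    exact lt_of_lt_of_le hb1 hR.hb1
  have htn := tn_pos' n
  -- the window
  have h1 := ha P p1 p2 (by rw [pW]; exact (le_max_left _ _).trans hW) (py.trans (min_le_left _ _))
    ((le_max_left _ _).trans pX) pth pthp pC0 pq b n m r0 e (4 * tn m) Y he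
    (heE.trans (min_le_left _ _)) hR hTT hn (by omega) hm1 hm2 (by linarith) (by linarith) hTy hY hYs
  have hB := CH2.mass hbb hZ hTT (t := 2 * tn n) (by linarith) (by linarith)
  rw [hr0n] at h1 hB
  rw [← hd] at h1 ⊢
  obtain ⟨G, hG⟩ : ∃ G : ℝ, G = e ^ (-(th / 4)) * (2 : ℝ) ^ (-(9 / 2 * (d : ℝ))) +
      e ^ (1 / 21 : ℝ) := ⟨_, rfl⟩
  have hG0 : 0 ≤ G := by
    have a1 := Real.rpow_pos_of_pos he (-(th / 4))
    have a2 := Real.rpow_pos_of_pos he (1 / 21 : ℝ)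
    rw [hG]
    positivity
  rw [← hG] at h1 g1 g2
  have h2 := base_dens hG0 g2 hB (Real.exp_pos _).le h1
  have hZ0 : 0 ≤ Z := by
    have h3 : 0 ≤ (2 ^ (d + k')) ^ 2 * Z := le_trans (H43.nm_nonneg _) hB
    have h4 : (0 : ℝ) < (2 ^ (d + k')) ^ 2 := by positivity
    by_contra hc
    have := mul_neg_of_pos_of_neg h4 (not_le.1 hc)
    linarith
  have hA : (2 : ℝ) ^ (4 * d + 2 * k') * G * Z + 16 * 2 ^ (6 * d + 4 * k') * Y ^ 2 +
      Real.exp (-(e ^ (-(th / 128)))) ≤ 1 / 2 * (2 : ℝ) ^ (-(2 / 5 * (d : ℝ))) * Z +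
      e ^ (-(26 * thp)) * Y ^ 2 + Real.exp (-(e ^ (-(th / 128)))) := by
    have h3 := mul_le_mul_of_nonneg_right g1 hZ0
    have h4 := mul_le_mul_of_nonneg_right g3 (sq_nonneg Y)
    linarith
  -- all tori
  intro r hr
  have hr' := hr
  unfold Par.TT at hr'
  have hTT0 : P.TT m e' r0 := by
    unfold Par.TT
    rw [hr0]
    exact ⟨le_rfl, Nat.le_add_right _ _⟩
  obtain ⟨hY1, hY2⟩ := hY' r hr
  obtain ⟨hY3, hY4⟩ := hY' r0 hTT0
  obtain ⟨j, hj⟩ : ∃ j, j = r - m := ⟨_, rfl⟩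
  have hjq : j ≤ lg th e' + q1 * (4 * lg thp e') := by
    have h5 : P.q0 * (4 * lg thp e') ≤ q1 * (4 * lg thp e') := Nat.mul_le_mul_right _ pq
    rw [hw', hkE'] at hr'
    omega
  obtain ⟨t1, t2, t3⟩ := s8' j hjq
  have h3 := ht P p1 p2 pW (py.trans (min_le_right _ _)) ((le_max_right _ _).trans pX) b m r0 r e'
    Y' (by omega) (by omega) (by omega) (hR' r0 hTT0) (hR' r hr) (by
      have : r - m + 1 = j + 1 := by omega
      rw [this]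
      exact t1) hY3 hY1 hY2
  rw [← hj, hr0m, show r - r0 = j - k' by omega] at h3
  have h4 := tor_dens (q := Real.exp (-(ct * √(2 ^ (k' + 1)))))
    (F := Real.exp (-(e' ^ (-(th / 4))))) (by omega) (h2.trans (mul_le_mul_of_nonneg_left hA
      (by positivity))) (by
        rw [hk', hkE']
        exact t3) h3
  rw [← hj]
  refine h4.trans (mul_le_mul_of_nonneg_left ?_ (by positivity))
  have h5 := mul_le_mul_of_nonneg_right t2 (sq_nonneg Y')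
  linarith

end

end Vale.Agent.P159.H415
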